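import Mathlib.Analysis.CStarAlgebra.ContinuousFunctionalCalculus.Basic

/-!
# Quotient C*-algebras

For a closed two-sided ideal `I` of a unital C*-algebra `E` the quotient `E ⧸ I` is a C*-algebra.
-/

open scoped ENNReal Topology

namespace P101

attribute [local instance] CStarAlgebra.spectralOrder CStarAlgebra.spectralOrderedRing

section Quot

variable {E : Type*} [CStarAlgebra E]

/-- A bounded approximate identity function: for `y : E` and `η > 0` there is an element `g` of the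
two-sided ideal generated by `star y * y` (`g = y* y z`, commuting with `y* y`), selfadjoint with
`0 ≤ g ≤ 1` and `‖y (1 - g)‖ ≤ η`.
Proof: `c = y* y ≥ 0`, `g = cfc (fun t => t / (ε + t)) c`, `z = cfc (fun t => 1 / (ε + t)) c`;
`‖y (1-g)‖² = ‖(1-g) c (1-g)‖ = ‖cfc (fun t => t ε² / (ε + t)²) c‖ ≤ ε`. -/
theorem exists_approx (y : E) {η : ℝ} (hη : 0 < η) :
    ∃ z : E, IsSelfAdjoint z ∧ Commute z (star y * y) ∧
      IsSelfAdjoint (star y * y * z) ∧ ‖star y * y * z‖ ≤ 1 ∧ ‖1 - star y * y * z‖ ≤ 1 ∧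
      ‖y * (1 - star y * y * z)‖ ≤ η := by
  obtain ⟨c, hc⟩ : ∃ c, c = star y * y := ⟨_, rfl⟩
  rw [← hc]
  have hsa : IsSelfAdjoint c := hc ▸ IsSelfAdjoint.star_mul_self y
  have hc0 : 0 ≤ c := hc ▸ star_mul_self_nonneg y
  have hsp : ∀ t ∈ spectrum ℝ c, 0 ≤ t := fun t ht => spectrum_nonneg_of_nonneg hc0 ht
  obtain ⟨ε, hε'⟩ : ∃ ε, ε = η ^ 2 := ⟨_, rfl⟩
  have hε : 0 < ε := hε' ▸ pow_pos hη 2
  have hpos : ∀ t ∈ spectrum ℝ c, 0 < ε + t := fun t ht => add_pos_of_pos_of_nonneg hε (hsp t ht)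
  have hcf : ContinuousOn (fun t : ℝ => (ε + t)⁻¹) (spectrum ℝ c) :=
    ContinuousOn.inv₀ (by fun_prop) (fun t ht => (hpos t ht).ne')
  have hcg : ContinuousOn (fun t : ℝ => t * (ε + t)⁻¹) (spectrum ℝ c) :=
    continuousOn_id.mul hcf
  have hch : ContinuousOn (fun t : ℝ => ε * (ε + t)⁻¹) (spectrum ℝ c) :=
    continuousOn_const.mul hcf
  have hg : c * cfc (fun t : ℝ => (ε + t)⁻¹) c = cfc (fun t : ℝ => t * (ε + t)⁻¹) c := by
    rw [cfc_mul (fun t : ℝ => t) _ c continuousOn_id hcf, cfc_id' ℝ c]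
  have h1g : 1 - cfc (fun t : ℝ => t * (ε + t)⁻¹) c = cfc (fun t : ℝ => ε * (ε + t)⁻¹) c := by
    rw [← cfc_const_one ℝ c, ← cfc_sub (fun _ : ℝ => (1 : ℝ)) _ c continuousOn_const hcg]
    refine cfc_congr fun t ht => ?_
    have := (hpos t ht).ne'
    show 1 - t * (ε + t)⁻¹ = ε * (ε + t)⁻¹
    field_simp
    ring
  have hy : ‖y * cfc (fun t : ℝ => ε * (ε + t)⁻¹) c‖ ≤ η := by
    have hh : IsSelfAdjoint (cfc (fun t : ℝ => ε * (ε + t)⁻¹) c) := cfc_predicate _ c
    have e1 : star (y * cfc (fun t : ℝ => ε * (ε + t)⁻¹) c) *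
        (y * cfc (fun t : ℝ => ε * (ε + t)⁻¹) c) =
        cfc (fun t : ℝ => ε * (ε + t)⁻¹ * (t * (ε * (ε + t)⁻¹))) c := by
      have hch2 : ContinuousOn (fun t : ℝ => t * (ε * (ε + t)⁻¹)) (spectrum ℝ c) :=
        continuousOn_id.mul hch
      rw [star_mul, hh.star_eq, mul_assoc, ← mul_assoc (star y), ← hc,
        cfc_mul (fun t : ℝ => ε * (ε + t)⁻¹) (fun t : ℝ => t * (ε * (ε + t)⁻¹)) c hch hch2,
        cfc_mul (fun t : ℝ => t) _ c continuousOn_id hch, cfc_id' ℝ c]
    have e2 : ‖y * cfc (fun t : ℝ => ε * (ε + t)⁻¹) c‖ *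
        ‖y * cfc (fun t : ℝ => ε * (ε + t)⁻¹) c‖ ≤ η * η := by
      rw [← CStarRing.norm_star_mul_self, e1]
      refine norm_cfc_le (by positivity) fun t ht => ?_
      have ht0 := hsp t ht
      have hp := hpos t ht
      rw [Real.norm_eq_abs, abs_of_nonneg (by positivity),
        show ε * (ε + t)⁻¹ * (t * (ε * (ε + t)⁻¹)) = ε * (ε * t) / (ε + t) ^ 2 by
          field_simp,
        div_le_iff₀ (by positivity), ← pow_two, ← hε']
      refine mul_le_mul_of_nonneg_left ?_ hε.le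
      nlinarith [sq_nonneg t, sq_nonneg ε, mul_nonneg hε.le ht0]
    exact abs_le_of_sq_le_sq' (by nlinarith) hη.le |>.2
  refine ⟨cfc (fun t : ℝ => (ε + t)⁻¹) c, cfc_predicate _ c, ?_, ?_, ?_, ?_, ?_⟩
  · have h := cfc_commute_cfc (fun t : ℝ => (ε + t)⁻¹) (fun t : ℝ => t) c
    rwa [cfc_id' ℝ c] at h
  · rw [hg]; exact cfc_predicate _ c
  · rw [hg]
    refine norm_cfc_le zero_le_one fun t ht => ?_
    have ht0 := hsp t ht
    have hp := hpos t ht
    rw [Real.norm_eq_abs, abs_of_nonneg (by positivity), ← div_eq_mul_inv, div_le_one hp]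
    linarith
  · rw [hg, h1g]
    refine norm_cfc_le zero_le_one fun t ht => ?_
    have ht0 := hsp t ht
    have hp := hpos t ht
    rw [Real.norm_eq_abs, abs_of_nonneg (by positivity), ← div_eq_mul_inv, div_le_one hp]
    linarith
  · rw [hg, h1g]; exact hy

/-- a closed two-sided ideal of a C*-algebra is closed under `star`.
Proof: for `x ∈ I` apply `exists_approx` to `y = star x`: `x* (1 - x x* z)` is small and
`x* (x x* z) ∈ I`. -/
theorem star_mem_of_closed (I : Ideal E) [I.IsTwoSided] (hI : IsClosed (I : Set E)) {x : E}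
    (hx : x ∈ I) : star x ∈ I := by
  have hcl : star x ∈ closure (I : Set E) := by
    rw [Metric.mem_closure_iff]
    intro ε hε
    obtain ⟨z, -, -, -, -, -, h⟩ := exists_approx (star x) (half_pos hε)
    refine ⟨star x * (star (star x) * star x * z), ?_, ?_⟩
    · show star x * (star (star x) * star x * z) ∈ I
      rw [star_star]
      exact I.mul_mem_left _ (I.mul_mem_right _ (I.mul_mem_right _ hx))
    · rw [dist_eq_norm]
      have e : star x - star x * (star (star x) * star x * z) =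
          star x * (1 - star (star x) * star x * z) := by rw [mul_sub, mul_one]
      rw [e]
      linarith
  rwa [hI.closure_eq] at hcl

variable (I : Ideal E) [I.IsTwoSided] [hI : IsClosed (I : Set E)]

/-- the star operation on the quotient -/
noncomputable instance quotStar : Star (E ⧸ I) where
  star := Quotient.lift (fun x : E => (Ideal.Quotient.mk I (star x))) (by
    intro a b hab
    have h1 : a - b ∈ I := (Submodule.quotientRel_def I).1 hab
    have h2 : star (a - b) ∈ I := star_mem_of_closed I hI h1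
    rw [Ideal.Quotient.eq]
    simpa using h2)

theorem star_mk (x : E) : star (Ideal.Quotient.mk I x) = Ideal.Quotient.mk I (star x) := rfl

noncomputable instance quotStarRing : StarRing (E ⧸ I) where
  star_involutive := by
    intro x
    obtain ⟨x, rfl⟩ := Ideal.Quotient.mk_surjective x
    simp [star_mk]
  star_mul := by
    intro x y
    obtain ⟨x, rfl⟩ := Ideal.Quotient.mk_surjective x
    obtain ⟨y, rfl⟩ := Ideal.Quotient.mk_surjective y
    rw [← map_mul, star_mk, star_mk, star_mk, ← map_mul, star_mul]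
  star_add := by
    intro x y
    obtain ⟨x, rfl⟩ := Ideal.Quotient.mk_surjective x
    obtain ⟨y, rfl⟩ := Ideal.Quotient.mk_surjective y
    rw [← map_add, star_mk, star_mk, star_mk, ← map_add, star_add]

theorem quot_exists_lift (x : E ⧸ I) {ε : ℝ} (hε : 0 < ε) :
    ∃ a : E, Ideal.Quotient.mk I a = x ∧ ‖a‖ < ‖x‖ + ε :=
  Submodule.Quotient.norm_mk_lt x hε

theorem quot_norm_mk_le (a : E) : ‖Ideal.Quotient.mk I a‖ ≤ ‖a‖ :=
  Submodule.Quotient.norm_mk_le I a

theorem quot_norm_mul_le (x y : E ⧸ I) : ‖x * y‖ ≤ ‖x‖ * ‖y‖ := by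
  have h : ∀ ε : ℝ, 0 < ε → ‖x * y‖ ≤ (‖x‖ + ε) * (‖y‖ + ε) := by
    intro ε hε
    obtain ⟨a, rfl, ha⟩ := quot_exists_lift I x hε
    obtain ⟨b, rfl, hb⟩ := quot_exists_lift I y hε
    rw [← map_mul]
    refine (quot_norm_mk_le I (a * b)).trans ((norm_mul_le a b).trans ?_)
    exact mul_le_mul ha.le hb.le (norm_nonneg _) (by positivity)
  have hlim : Filter.Tendsto (fun ε : ℝ => (‖x‖ + ε) * (‖y‖ + ε)) (𝓝[>] 0)
      (𝓝 ((‖x‖ + 0) * (‖y‖ + 0))) := by
    refine Filter.Tendsto.mono_left ?_ nhdsWithin_le_nhds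
    exact (continuous_const.add continuous_id).mul (continuous_const.add continuous_id)
      |>.tendsto 0
  rw [add_zero, add_zero] at hlim
  refine ge_of_tendsto hlim ?_
  filter_upwards [self_mem_nhdsWithin] with ε hε
  exact h ε hε

/-- the C*-identity in the quotient -/
theorem quot_norm_sq_le (x : E ⧸ I) : ‖x‖ * ‖x‖ ≤ ‖star x * x‖ := by
  refine le_of_forall_pos_le_add fun ε hε => ?_
  obtain ⟨a, rfl⟩ := Ideal.Quotient.mk_surjective x
  obtain ⟨b, hb, hbn⟩ := quot_exists_lift I (star (Ideal.Quotient.mk I a) * Ideal.Quotient.mk I a)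
    (half_pos hε)
  rw [star_mk, ← map_mul] at hb hbn ⊢
  have hm : b - star a * a ∈ I := Ideal.Quotient.eq.1 hb
  obtain ⟨z, -, -, hgs, hg1, hg2, hη⟩ := exists_approx (b - star a * a) (half_pos hε)
  obtain ⟨m, hm'⟩ : ∃ m, m = b - star a * a := ⟨_, rfl⟩
  rw [← hm'] at hm hgs hg1 hg2 hη
  obtain ⟨g, hg⟩ : ∃ g, g = star m * m * z := ⟨_, rfl⟩
  rw [← hg] at hgs hg1 hg2 hη
  have hgI : g ∈ I := by
    rw [hg]
    exact I.mul_mem_right _ (I.mul_mem_left _ hm)
  have e1 : Ideal.Quotient.mk I (a * (1 - g)) = Ideal.Quotient.mk I a := by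
    rw [Ideal.Quotient.eq]
    have : a * (1 - g) - a = -(a * g) := by rw [mul_sub, mul_one]; abel
    rw [this]
    exact I.neg_mem (I.mul_mem_left _ hgI)
  have h1s : star (1 - g) = 1 - g := by rw [star_sub, star_one, hgs.star_eq]
  have h1 : ‖Ideal.Quotient.mk I a‖ ≤ ‖a * (1 - g)‖ := by
    rw [← e1]; exact quot_norm_mk_le I _
  have h2 : ‖a * (1 - g)‖ * ‖a * (1 - g)‖ = ‖(1 - g) * ((star a * a) * (1 - g))‖ := by
    rw [← CStarRing.norm_star_mul_self, star_mul, h1s, mul_assoc, ← mul_assoc (star a)]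
  have h3 : (star a * a) * (1 - g) = b * (1 - g) - m * (1 - g) := by
    rw [hm', sub_mul, sub_sub_cancel]
  have h4 : ‖(1 - g) * ((star a * a) * (1 - g))‖ ≤ ‖b‖ + ε / 2 := by
    rw [h3]
    refine (norm_mul_le _ _).trans ?_
    have h5 : ‖b * (1 - g) - m * (1 - g)‖ ≤ ‖b‖ + ε / 2 := by
      refine (norm_sub_le _ _).trans (add_le_add ?_ hη)
      exact (norm_mul_le _ _).trans (mul_le_of_le_one_right (norm_nonneg _) hg2)
    exact (mul_le_of_le_one_left (norm_nonneg _) hg2).trans h5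
  calc ‖Ideal.Quotient.mk I a‖ * ‖Ideal.Quotient.mk I a‖ ≤ ‖a * (1 - g)‖ * ‖a * (1 - g)‖ :=
        mul_le_mul h1 h1 (norm_nonneg _) (norm_nonneg _)
    _ ≤ ‖b‖ + ε / 2 := h2.le.trans h4
    _ ≤ _ := by linarith

noncomputable instance quotNormedRing : NormedRing (E ⧸ I) :=
  { Submodule.Quotient.normedAddCommGroup I, Ideal.Quotient.ring I with
    norm_mul_le := quot_norm_mul_le I }

noncomputable instance quotNormedAlgebra : NormedAlgebra ℂ (E ⧸ I) :=
  { Ideal.Quotient.algebra ℂ (I := I) with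
    norm_smul_le := by
      intro c x
      refine le_of_forall_pos_le_add fun ε hε => ?_
      have hc : 0 < ‖c‖ + 1 := by positivity
      obtain ⟨a, rfl, ha⟩ := quot_exists_lift I x (div_pos hε hc)
      have e : c • Ideal.Quotient.mk I a = Ideal.Quotient.mk I (c • a) := rfl
      rw [e]
      refine (quot_norm_mk_le I (c • a)).trans ?_
      rw [norm_smul]
      have h1 : ‖c‖ * ‖a‖ ≤ ‖c‖ * (‖Ideal.Quotient.mk I a‖ + ε / (‖c‖ + 1)) :=
        mul_le_mul_of_nonneg_left ha.le (norm_nonneg c)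
      have h2 : ‖c‖ * (ε / (‖c‖ + 1)) ≤ ε := by
        rw [mul_div_assoc', div_le_iff₀ hc]
        nlinarith [norm_nonneg c]
      linarith }

noncomputable instance quotCStarAlgebra : CStarAlgebra (E ⧸ I) where
  toCompleteSpace := Submodule.Quotient.completeSpace I
  norm_mul_self_le := quot_norm_sq_le I
  star_smul := by
    intro c x
    obtain ⟨x, rfl⟩ := Ideal.Quotient.mk_surjective x
    show Ideal.Quotient.mk I (star (c • x)) = star c • Ideal.Quotient.mk I (star x)
    rw [star_smul]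
    rfl

/-- the quotient map as a unital *-homomorphism -/
noncomputable def quotMk : E →⋆ₐ[ℂ] (E ⧸ I) :=
  { Ideal.Quotient.mkₐ ℂ I with
    map_star' := fun x => rfl }

theorem quotMk_surjective : Function.Surjective (quotMk I) := Ideal.Quotient.mk_surjective

theorem quotMk_eq_zero_iff (x : E) : quotMk I x = 0 ↔ x ∈ I := Ideal.Quotient.eq_zero_iff_mem

end Quot

end P101
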