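import Mathlib.Analysis.CStarAlgebra.Classes
import Mathlib.Topology.ContinuousMap.Bounded.Star
import Mathlib.Topology.Instances.Matrix

/-!
# P101: the definitions used in the statement
-/

open scoped Topology TensorProduct BoundedContinuousFunction
open Filter Matrix

namespace P101

universe u

section Ultrapower

variable {A U : Type u} [CStarAlgebra A] [CStarAlgebra U]

/-- `q : ℓ^∞(ℕ, A) → U` is the quotient map onto the norm ultrapower `A_ω`: it is onto, and its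
kernel is the set of the bounded sequences `(a_n)` with `lim_{n → ω} ‖a_n‖ = 0`.  (`ℕ →ᵇ A` is the
C*-algebra of all bounded functions from the discrete space `ℕ` to `A`.) -/
structure IsUltrapowerMap (ω : Ultrafilter ℕ) (q : (ℕ →ᵇ A) →⋆ₐ[ℂ] U) : Prop where
  surjective : Function.Surjective q
  eq_zero_iff : ∀ a : ℕ →ᵇ A, q a = 0 ↔ Tendsto (fun n => ‖a n‖) (ω : Filter ℕ) (𝓝 0)

/-- the central sequence algebra `F_ω(A) = A_ω ∩ A'`: the elements of the ultrapower that commute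
with the classes of all constant sequences. -/
def centralAlg (q : (ℕ →ᵇ A) →⋆ₐ[ℂ] U) : StarSubalgebra ℂ U :=
  StarSubalgebra.centralizer ℂ (Set.range fun a : A => q (BoundedContinuousFunction.const ℕ a))

/-- `F_ω(A)` has no characters (unital *-homomorphisms to `ℂ`). -/
structure NoCharacters (q : (ℕ →ᵇ A) →⋆ₐ[ℂ] U) : Prop where
  isEmpty : IsEmpty (centralAlg q →⋆ₐ[ℂ] ℂ)

end Ultrapower

/-- The dimension drop algebra `I(p, q)`: continuous functions `f : [0,1] → M_p ⊗ M_q` (matrices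
indexed by pairs) with `f(0) ∈ M_p ⊗ 1` and `f(1) ∈ 1 ⊗ M_q`. -/
def dimDrop (p q : ℕ) :
    StarSubalgebra ℂ C(unitInterval, Matrix (Fin p × Fin q) (Fin p × Fin q) ℂ) where
  carrier := {f | (∃ a : Matrix (Fin p) (Fin p) ℂ, f 0 = kroneckerMap (· * ·) a 1) ∧
    (∃ b : Matrix (Fin q) (Fin q) ℂ, f 1 = kroneckerMap (· * ·) 1 b)}
  mul_mem' := by
    rintro f g ⟨⟨a, ha⟩, ⟨b, hb⟩⟩ ⟨⟨a', ha'⟩, ⟨b', hb'⟩⟩
    refine ⟨⟨a * a', ?_⟩, ⟨b * b', ?_⟩⟩
    · rw [ContinuousMap.mul_apply, ha, ha', ← mul_kronecker_mul, mul_one]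
    · rw [ContinuousMap.mul_apply, hb, hb', ← mul_kronecker_mul, mul_one]
  add_mem' := by
    rintro f g ⟨⟨a, ha⟩, ⟨b, hb⟩⟩ ⟨⟨a', ha'⟩, ⟨b', hb'⟩⟩
    refine ⟨⟨a + a', ?_⟩, ⟨b + b', ?_⟩⟩
    · rw [ContinuousMap.add_apply, ha, ha', ← add_kronecker]
    · rw [ContinuousMap.add_apply, hb, hb', ← kronecker_add]
  algebraMap_mem' := by
    intro z
    refine ⟨⟨z • 1, ?_⟩, ⟨z • 1, ?_⟩⟩
    · rw [smul_kronecker, one_kronecker_one]
      simp [Algebra.algebraMap_eq_smul_one]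
    · rw [kronecker_smul, one_kronecker_one]
      simp [Algebra.algebraMap_eq_smul_one]
  star_mem' := by
    rintro f ⟨⟨a, ha⟩, ⟨b, hb⟩⟩
    refine ⟨⟨aᴴ, ?_⟩, ⟨bᴴ, ?_⟩⟩
    · rw [ContinuousMap.star_apply, ha, star_eq_conjTranspose, conjTranspose_kronecker,
        conjTranspose_one]
    · rw [ContinuousMap.star_apply, hb, star_eq_conjTranspose, conjTranspose_kronecker,
        conjTranspose_one]

/-- there is a unital *-homomorphism `I(k, l) → F_ω(A)`. -/
structure HasDimDropHom {A U : Type u} [CStarAlgebra A] [CStarAlgebra U]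
    (q : (ℕ →ᵇ A) →⋆ₐ[ℂ] U) (k l : ℕ) : Prop where
  nonempty : Nonempty (dimDrop k l →⋆ₐ[ℂ] centralAlg q)

/-- `B` is a closed *-subalgebra of `Z` that is *-isomorphic to `I(p, q)`. -/
structure IsDimDropCopy {Z : Type u} [CStarAlgebra Z] (B : StarSubalgebra ℂ Z) (p q : ℕ) :
    Prop where
  isClosed : IsClosed (B : Set Z)
  iso : ∃ j : dimDrop p q →⋆ₐ[ℂ] Z, Function.Injective j ∧ Set.range j = (B : Set Z)

/-- `Z` is the closure of the union of an increasing sequence of closed *-subalgebras `B k`, each of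
them *-isomorphic to a prime dimension drop algebra `I(p, q)` (`p`, `q` coprime). -/
def IsDimDropLimit (Z : Type u) [CStarAlgebra Z] : Prop :=
  ∃ B : ℕ → StarSubalgebra ℂ Z, Monotone B ∧ Dense (⋃ k, (B k : Set Z)) ∧
    ∀ k, ∃ p q : ℕ, 1 ≤ p ∧ 1 ≤ q ∧ Nat.Coprime p q ∧ IsDimDropCopy (B k) p q

/-- if `μ` has dense range, then the two factor maps `z ↦ μ(z ⊗ 1)` and `z ↦ μ(1 ⊗ z)` are
approximately unitarily equivalent. -/
def FlipUnderMap {Z C : Type u} [CStarAlgebra Z] [CStarAlgebra C] (μ : Z ⊗[ℂ] Z →⋆ₐ[ℂ] C) :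
    Prop :=
  DenseRange μ → ∀ (S : Finset Z) (ε : ℝ), 0 < ε →
    ∃ u ∈ unitary C, ∀ z ∈ S, ‖u * μ (z ⊗ₜ[ℂ] 1) * star u - μ (1 ⊗ₜ[ℂ] z)‖ < ε

/-- **Approximately inner half flip** (with respect to all C*-norms on `Z ⊗ Z`; for a nuclear `Z`
there is only one): for every unital *-homomorphism `μ` with dense range from the algebraic tensor
product `Z ⊗ Z` to a C*-algebra `C`, every finite `S ⊆ Z` and `ε > 0` there is a unitary `u ∈ C` with
`‖u μ(z ⊗ 1) u* - μ(1 ⊗ z)‖ < ε` for all `z ∈ S`. -/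
def HasInnerHalfFlip (Z : Type u) [CStarAlgebra Z] : Prop :=
  ∀ (C : Type u) [CStarAlgebra C] (μ : Z ⊗[ℂ] Z →⋆ₐ[ℂ] C), FlipUnderMap μ

/-- The properties of the Jiang-Su algebra that are used (all of them are proved in the paper of
Jiang and Su, 1999). -/
structure JiangSuLike (Z : Type u) [CStarAlgebra Z] : Prop where
  separable : TopologicalSpace.SeparableSpace Z
  limit : IsDimDropLimit Z
  flip : HasInnerHalfFlip Z

/-- `B` is a C*-tensor product of `A` and `Z`: the completion of the algebraic tensor product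
`A ⊗ Z` in some C*-norm (for a nuclear `Z` there is only one, the minimal one). -/
def IsCStarTensor (A Z B : Type u) [CStarAlgebra A] [CStarAlgebra Z] [CStarAlgebra B] : Prop :=
  ∃ m : A ⊗[ℂ] Z →⋆ₐ[ℂ] B, Function.Injective m ∧ DenseRange m

/-- `A ≅ A ⊗ Z` for every `Z` with the properties of the Jiang-Su algebra. -/
def AbsorbsJiangSu (A : Type u) [CStarAlgebra A] : Prop :=
  ∀ (Z B : Type u) [CStarAlgebra Z] [CStarAlgebra B], JiangSuLike Z → IsCStarTensor A Z B →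
    Nonempty (A ≃⋆ₐ[ℂ] B)

end P101
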