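import Mathlib.Analysis.CStarAlgebra.lpSpace
import Vale.Agent.Lib.P101.Quot
import Vale.Agent.Lib.P101.Stmt

/-!
# The norm central sequence algebra and dimension drop algebras
-/

open scoped ENNReal Topology
open Filter

namespace P101

section LInfty

/-- `ℓ^∞(ℕ, A)` is a C*-algebra. -/
noncomputable instance lpCStarAlgebra (A : Type*) [CStarAlgebra A] [Nontrivial A] :
    CStarAlgebra (lp (fun _ : ℕ => A) ∞) where

end LInfty

section Ultrapower

variable (ω : Ultrafilter ℕ) (A : Type*) [CStarAlgebra A] [Nontrivial A]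

/-- `c_ω(A)`: the bounded sequences `(a_n)` with `lim_{n → ω} ‖a_n‖ = 0`, as an ideal of
`ℓ^∞(ℕ, A)`. -/
noncomputable def cNull : Ideal (lp (fun _ : ℕ => A) ∞) where
  carrier := {a | Tendsto (fun n => ‖a n‖) (ω : Filter ℕ) (𝓝 0)}
  add_mem' := by
    intro a b ha hb
    have ha' : Tendsto (fun n => ‖a n‖) (ω : Filter ℕ) (𝓝 0) := ha
    have hb' : Tendsto (fun n => ‖b n‖) (ω : Filter ℕ) (𝓝 0) := hb
    have h : Tendsto (fun n => ‖a n‖ + ‖b n‖) (ω : Filter ℕ) (𝓝 0) := by
      simpa using ha'.add hb'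
    exact squeeze_zero (fun n => norm_nonneg _) (fun n => norm_add_le _ _) h
  zero_mem' := by
    simp
  smul_mem' := by
    intro c x hx
    have hx' : Tendsto (fun n => ‖x n‖) (ω : Filter ℕ) (𝓝 0) := hx
    have h : Tendsto (fun n => ‖c‖ * ‖x n‖) (ω : Filter ℕ) (𝓝 0) := by
      have := hx'.const_mul ‖c‖
      rwa [mul_zero] at this
    refine squeeze_zero (fun n => norm_nonneg _) (fun n => ?_) h
    refine (norm_mul_le _ _).trans ?_
    exact mul_le_mul_of_nonneg_right (lp.norm_apply_le_norm (by simp) c n) (norm_nonneg _)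

instance cNull_isTwoSided : (cNull ω A).IsTwoSided where
  mul_mem_of_left := by
    intro a b ha
    have ha' : Tendsto (fun n => ‖a n‖) (ω : Filter ℕ) (𝓝 0) := ha
    have h : Tendsto (fun n => ‖a n‖ * ‖b‖) (ω : Filter ℕ) (𝓝 0) := by
      have := ha'.mul_const ‖b‖
      rwa [zero_mul] at this
    refine squeeze_zero (fun n => norm_nonneg _) (fun n => ?_) h
    refine (norm_mul_le _ _).trans ?_
    exact mul_le_mul_of_nonneg_left (lp.norm_apply_le_norm (by simp) b n) (norm_nonneg _)

theorem mem_cNull {a : lp (fun _ : ℕ => A) ∞} :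
    a ∈ cNull ω A ↔ Tendsto (fun n => ‖a n‖) (ω : Filter ℕ) (𝓝 0) := Iff.rfl

instance cNull_isClosed : IsClosed (cNull ω A : Set (lp (fun _ : ℕ => A) ∞)) := by
  rw [← isSeqClosed_iff_isClosed]
  intro u a hu hua
  rw [SetLike.mem_coe, mem_cNull, Metric.tendsto_nhds]
  intro ε hε
  rw [Metric.tendsto_atTop] at hua
  obtain ⟨N, hN⟩ := hua (ε / 2) (by positivity)
  have h1 := hN N le_rfl
  have h2 := (Metric.tendsto_nhds.1 ((mem_cNull ω A).1 (hu N))) (ε / 2) (by positivity)
  filter_upwards [h2] with n hn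
  simp only [dist_zero_right, norm_norm] at hn ⊢
  have h3 : ‖a n - u N n‖ ≤ ‖a - u N‖ := by
    have := lp.norm_apply_le_norm (p := ∞) (by simp) (a - u N) n
    simpa using this
  have h4 : ‖a - u N‖ < ε / 2 := by
    rw [← dist_eq_norm, dist_comm]
    exact h1
  calc ‖a n‖ = ‖(a n - u N n) + u N n‖ := by rw [sub_add_cancel]
    _ ≤ ‖a n - u N n‖ + ‖u N n‖ := norm_add_le _ _
    _ < ε := by linarith

/-- the norm ultrapower `A_ω = ℓ^∞(ℕ, A) / c_ω(A)`. -/
def Ultrapower : Type _ := (lp (fun _ : ℕ => A) ∞) ⧸ (cNull ω A)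

set_option warn.classDefReducibility false in
/-- the C*-algebra structure of `A_ω` (that of the quotient). -/
noncomputable def ultrapowerCStar : CStarAlgebra (Ultrapower ω A) :=
  quotCStarAlgebra (cNull ω A)

noncomputable instance ultrapowerCStarAlgebra : CStarAlgebra (Ultrapower ω A) :=
  ultrapowerCStar ω A

/-- the quotient map `ℓ^∞(ℕ, A) → A_ω`, a unital *-homomorphism. -/
noncomputable def toUltrapower : lp (fun _ : ℕ => A) ∞ →⋆ₐ[ℂ] Ultrapower ω A :=
  quotMk (cNull ω A)

/-- the constant sequence with value `a`, as an element of `ℓ^∞(ℕ, A)`. -/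
noncomputable def constSeq (a : A) : lp (fun _ : ℕ => A) ∞ :=
  ⟨fun _ => a, memℓp_infty ⟨‖a‖, by rintro _ ⟨n, rfl⟩; exact le_rfl⟩⟩

/-- the image of `A` in `A_ω` (classes of constant sequences). -/
def constRange : Set (Ultrapower ω A) :=
  Set.range fun a : A => toUltrapower ω A (constSeq A a)

/-- the central sequence algebra `F_ω(A) = A_ω ∩ A'`. -/
noncomputable def centralSeq : StarSubalgebra ℂ (Ultrapower ω A) :=
  StarSubalgebra.centralizer ℂ (constRange ω A)

instance centralSeq_isClosed : IsClosed (centralSeq ω A : Set (Ultrapower ω A)) := by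
  rw [centralSeq, StarSubalgebra.coe_centralizer]
  exact Set.isClosed_centralizer _

/-- `F_ω(A)` as a type. -/
abbrev FOmega : Type _ := centralSeq ω A

noncomputable example : CStarAlgebra (FOmega ω A) := inferInstance

end Ultrapower

end P101
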