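import Vale.Agent.Lib.P101.ZUltra

/-!
# Approximate unitaries: from the ultrapower to the algebra; polar decomposition
-/

open scoped ENNReal Topology
open Filter Matrix

namespace P101

universe u

/-- **Descent.**  Suppose an approximate unitary `u` of the ultrapower approximately commutes with
finitely many constants and conjugates finitely many constants approximately into classes of
bounded sequences in a set `X`.  Then the same can be done in the algebra.

Proof.  Lift `u = toUltrapower v`.  Each of the finitely many strict norm inequalities holds for the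
`n`-th terms, eventually along `ω` (`eventually_norm_lt` applied to the lifts
`star v * v - 1`, `v * star v - 1`, `v * const b - const b * v`,
`v * const z * star v - y`); take one such `n` and `u' = v n`. -/
theorem descend (ω : Ultrafilter ℕ) {B : Type u} [CStarAlgebra B] [Nontrivial B] (X : Set B)
    (S T : Finset B) {δ : ℝ} {u : Ultrapower ω B}
    (h1 : ‖star u * u - 1‖ < δ) (h2 : ‖u * star u - 1‖ < δ)
    (h3 : ∀ b ∈ S, ‖u * ultraConst ω B b - ultraConst ω B b * u‖ < δ)
    (h4 : ∀ b ∈ T, ∃ y : lp (fun _ : ℕ => B) ∞, (∀ n, y n ∈ X) ∧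
      ‖u * ultraConst ω B b * star u - toUltrapower ω B y‖ < δ) :
    ∃ v : B, ‖star v * v - 1‖ < δ ∧ ‖v * star v - 1‖ < δ ∧
      (∀ b ∈ S, ‖v * b - b * v‖ < δ) ∧ ∀ b ∈ T, ∃ y ∈ X, ‖v * b * star v - y‖ < δ := by
  obtain ⟨v, rfl⟩ := toUltrapower_surjective ω B u
  have hc : ∀ b : B, ultraConst ω B b = toUltrapower ω B (constSeq B b) := fun _ => rfl
  have e1 : ∀ᶠ n in (ω : Filter ℕ), ‖star (v n) * v n - 1‖ < δ := by
    have h : ‖toUltrapower ω B (star v * v - 1)‖ < δ := by
      rw [map_sub, map_mul, map_star, map_one]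
      exact h1
    exact eventually_norm_lt ω B _ h
  have e2 : ∀ᶠ n in (ω : Filter ℕ), ‖v n * star (v n) - 1‖ < δ := by
    have h : ‖toUltrapower ω B (v * star v - 1)‖ < δ := by
      rw [map_sub, map_mul, map_star, map_one]
      exact h2
    exact eventually_norm_lt ω B _ h
  have e3 : ∀ b ∈ S, ∀ᶠ n in (ω : Filter ℕ), ‖v n * b - b * v n‖ < δ := by
    intro b hb
    have h : ‖toUltrapower ω B (v * constSeq B b - constSeq B b * v)‖ < δ := by
      rw [map_sub, map_mul, map_mul, ← hc]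
      exact h3 b hb
    exact eventually_norm_lt ω B _ h
  choose! y hyX hy using h4
  have e4 : ∀ b ∈ T, ∀ᶠ n in (ω : Filter ℕ), ‖v n * b * star (v n) - y b n‖ < δ := by
    intro b hb
    have h : ‖toUltrapower ω B (v * constSeq B b * star v - y b)‖ < δ := by
      rw [map_sub, map_mul, map_mul, map_star, ← hc]
      exact hy b hb
    exact eventually_norm_lt ω B _ h
  have e3' : ∀ᶠ n in (ω : Filter ℕ), ∀ b ∈ S, ‖v n * b - b * v n‖ < δ :=
    (Filter.eventually_all_finset S).2 e3
  have e4' : ∀ᶠ n in (ω : Filter ℕ), ∀ b ∈ T, ‖v n * b * star (v n) - y b n‖ < δ :=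
    (Filter.eventually_all_finset T).2 e4
  obtain ⟨n, n1, n2, n3, n4⟩ := (e1.and (e2.and (e3'.and e4'))).exists
  exact ⟨v n, n1, n2, n3, fun b hb => ⟨y b n, hyX b hb n, n4 b hb⟩⟩

/-- An approximate unitary is close to a unitary.
Proof: `w = v (v* v)^{-1/2}`; `‖v* v - 1‖ < δ ≤ 1/2`, `‖v v* - 1‖ < 1/2` make `v` invertible and `w`
unitary; `‖v - w‖ ≤ ‖w‖ ‖(v* v)^{1/2} - 1‖ ≤ ‖v* v - 1‖ ≤ δ` (functional calculus:
`|t^{1/2} - 1| ≤ |t - 1|`). -/
theorem exists_unitary_near {B : Type u} [CStarAlgebra B] {v : B} {δ : ℝ} (hδ : δ ≤ 1 / 2)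
    (h1 : ‖star v * v - 1‖ < δ) (h2 : ‖v * star v - 1‖ < δ) :
    ∃ w ∈ unitary B, ‖v - w‖ ≤ δ := by
  set a : B := star v * v with ha
  have hsa : IsSelfAdjoint a := IsSelfAdjoint.star_mul_self v
  -- spectrum
  have hspec : ∀ t ∈ spectrum ℝ a, |t - 1| ≤ ‖a - 1‖ := by
    intro t ht
    have h := norm_apply_le_norm_cfc (fun t : ℝ => t - 1) a ht (by fun_prop) hsa
    rw [cfc_sub (fun t : ℝ => t) (fun _ : ℝ => (1 : ℝ)) a (by fun_prop) (by fun_prop),
      cfc_id' ℝ a hsa, cfc_const_one ℝ a hsa] at h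
    simpa using h
  have hpos : ∀ t ∈ spectrum ℝ a, 1 / 2 < t := by
    intro t ht
    have := abs_le.1 (hspec t ht)
    linarith [this.1]
  set s : B := cfc (fun t : ℝ => √t) a with hs
  set r : B := cfc (fun t : ℝ => (√t)⁻¹) a with hr
  have hcs : ContinuousOn (fun t : ℝ => √t) (spectrum ℝ a) := Real.continuous_sqrt.continuousOn
  have hcr : ContinuousOn (fun t : ℝ => (√t)⁻¹) (spectrum ℝ a) := by
    refine hcs.inv₀ fun t ht => ?_
    have := hpos t ht
    exact (Real.sqrt_pos.2 (by linarith)).ne'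
  have hrs : r * s = 1 := by
    rw [hr, hs, ← cfc_mul _ _ a hcr hcs]
    rw [cfc_congr (g := fun _ => (1 : ℝ)) (fun t ht => ?_)]
    · exact cfc_const_one ℝ a hsa
    · have := hpos t ht
      exact inv_mul_cancel₀ (Real.sqrt_pos.2 (by linarith)).ne'
  have hsr : s * r = 1 := by
    rw [hr, hs, ← cfc_mul _ _ a hcs hcr]
    rw [cfc_congr (g := fun _ => (1 : ℝ)) (fun t ht => ?_)]
    · exact cfc_const_one ℝ a hsa
    · have := hpos t ht
      exact mul_inv_cancel₀ (Real.sqrt_pos.2 (by linarith)).ne'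
  have hss : s * s = a := by
    rw [hs, ← cfc_mul _ _ a hcs hcs]
    rw [cfc_congr (g := fun t => t) (fun t ht => ?_)]
    · exact cfc_id' ℝ a hsa
    · have := hpos t ht
      exact Real.mul_self_sqrt (by linarith)
  have hrsa : star r = r :=
    (cfc_predicate (R := ℝ) (p := IsSelfAdjoint) (fun t : ℝ => (√t)⁻¹) a).star_eq
  have hw1 : star (v * r) * (v * r) = 1 := by
    rw [star_mul, hrsa, mul_assoc, ← mul_assoc (star v), ← ha, ← hss]
    rw [show r * (s * s * r) = (r * s) * (s * r) by simp only [mul_assoc], hrs, hsr, mul_one]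
  -- `v` is right invertible
  have hu : IsUnit (v * star v) := by
    have h3 : ‖1 - v * star v‖ < 1 := by
      rw [norm_sub_rev]
      linarith
    have := isUnit_one_sub_of_norm_lt_one h3
    simpa using this
  have hw2 : (v * r) * star (v * r) = 1 := by
    obtain ⟨c, hc⟩ := hu
    -- right inverse of `v * r`
    have h5 : (v * r) * (s * (star v * (c⁻¹ : Bˣ))) = 1 := by
      rw [show (v * r) * (s * (star v * ((c⁻¹ : Bˣ) : B))) =
        v * (r * s) * (star v * ((c⁻¹ : Bˣ) : B)) by simp only [mul_assoc], hrs, mul_one,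
        ← mul_assoc, ← hc]
      exact c.mul_inv
    have h6 : star (v * r) = s * (star v * (c⁻¹ : Bˣ)) := left_inv_eq_right_inv hw1 h5
    rw [h6, h5]
  refine ⟨v * r, Unitary.mem_iff.2 ⟨hw1, hw2⟩, ?_⟩
  have hv : v - v * r = (v * r) * (s - 1) := by
    rw [mul_sub, mul_one, mul_assoc, hrs, mul_one]
  have hs1 : ‖s - 1‖ ≤ ‖a - 1‖ := by
    have e : s - 1 = cfc (fun t : ℝ => √t - 1) a := by
      rw [cfc_sub (fun t : ℝ => √t) (fun _ : ℝ => (1 : ℝ)) a hcs (by fun_prop),
        cfc_const_one ℝ a hsa]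
    rw [e]
    refine norm_cfc_le (norm_nonneg _) fun t ht => ?_
    have h3 := hpos t ht
    have h4 : 0 ≤ √t := Real.sqrt_nonneg t
    have h5 : t - 1 = (√t - 1) * (√t + 1) := by
      have := Real.mul_self_sqrt (show 0 ≤ t by linarith)
      nlinarith
    rw [Real.norm_eq_abs]
    refine le_trans ?_ (hspec t ht)
    rw [h5, abs_mul]
    have h6 : 1 ≤ |√t + 1| := by
      rw [abs_of_nonneg (by linarith)]
      linarith
    exact le_mul_of_one_le_right (abs_nonneg _) h6
  have hwn : ‖v * r‖ ≤ 1 := by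
    have h7 : ‖star (v * r) * (v * r)‖ = ‖v * r‖ * ‖v * r‖ := CStarRing.norm_star_mul_self
    rw [hw1] at h7
    have h8 : ‖(1 : B)‖ ≤ 1 := by
      rcases subsingleton_or_nontrivial B with hB | hB
      · rw [Subsingleton.elim (1 : B) 0, norm_zero]
        exact zero_le_one
      · exact CStarRing.norm_one.le
    nlinarith [norm_nonneg (v * r)]
  rw [hv]
  calc ‖(v * r) * (s - 1)‖ ≤ ‖v * r‖ * ‖s - 1‖ := norm_mul_le _ _
    _ ≤ 1 * ‖a - 1‖ := mul_le_mul hwn hs1 (norm_nonneg _) zero_le_one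
    _ ≤ δ := by linarith

end P101
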