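import Vale.Agent.Lib.P101.ZHom
import Vale.Agent.Lib.P101.ZDescend

/-!
# Approximate absorption unitaries

`A, Z, B` unital C*-algebras, `i : A → B`, `j : Z → B` commuting unital *-homomorphisms,
`Z` has approximately inner half flip and there is a unital *-homomorphism
`θ : Z → Ultrapower ω (FOmega ω A)`.  Then for finite `S ⊆ A`, `T ⊆ Z` and `ε > 0` there is a
unitary `u ∈ B` with `‖u i(a) - i(a) u‖ < ε` and `dist (u j(z) u*, i(A)) < ε`.

Proof.  `C₁ = Ultrapower ω B`, `C₂ = Ultrapower ω C₁`.  Let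
`g₀ : FOmega ω A → C₁` be the inclusion into `Ultrapower ω A` followed by the map induced by `i`
(`exists_ultraMap`); its values are classes of sequences in `i(A)`, they commute with
`ultraConst (i a)` (definition of `centralSeq`) and with `ultraConst (j z)` (`i`, `j` commute).
`β = (map induced by g₀) ∘ θ : Z → C₂`, `α = ultraConst ∘ ultraConst ∘ j : Z → C₂`.
`α` and `β` commute, and both commute with `ultraConst (ultraConst (i a))`, hence so does the closed
*-subalgebra generated by their ranges.  `ApproxInnerHalfFlip` gives a unitary `u ∈ C₂` in that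
subalgebra, `‖u α(z) u* - β(z)‖ < δ` for `z ∈ T`.
`descend` with `B := C₁`, `X = {class of y : y n ∈ i(A)}` (an element `β(z)` is the class of a
sequence of elements `g₀(f_m)`, which are in `X` since lifts of elements of `Ultrapower ω A` are
sequences in `A`), `S := {ultraConst (i a)}`, `T := {ultraConst (j z)}`, gives `v₁ ∈ C₁`;
`descend` again, with `X = i(A)`, gives `v ∈ B` with
`‖v* v - 1‖, ‖v v* - 1‖, ‖v i(a) - i(a) v‖ < δ`, `dist (v j(z) v*, i(A)) < δ`.
`exists_unitary_near` gives a unitary `w`, `‖v - w‖ ≤ δ`; the estimates for `w` follow with `ε`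
if `δ` is small compared with `ε`, `max ‖i a‖`, `max ‖j z‖`.
(`A` nontrivial; `B` nontrivial because `i` is injective or assume it.)
-/

open scoped ENNReal Topology
open Filter Matrix

namespace P101

universe u

/-- the constant sequence embedding is the class of the constant sequence -/
theorem zapprox_ultraConst (ω : Ultrafilter ℕ) {A : Type u} [CStarAlgebra A] [Nontrivial A]
    (a : A) : ultraConst ω A a = toUltrapower ω A (constSeq A a) := rfl

/-- classes of termwise commuting sequences commute -/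
theorem zapprox_commute (ω : Ultrafilter ℕ) {A : Type u} [CStarAlgebra A] [Nontrivial A]
    (x y : lp (fun _ : ℕ => A) ∞) (h : ∀ n, Commute (x n) (y n)) :
    Commute (toUltrapower ω A x) (toUltrapower ω A y) := by
  have e : x * y = y * x := by
    ext n
    exact h n
  show toUltrapower ω A x * toUltrapower ω A y = toUltrapower ω A y * toUltrapower ω A x
  rw [← map_mul, ← map_mul, e]

theorem zapprox_est {B : Type u} [CStarAlgebra B] [Nontrivial B] {v w x y : B} {δ M : ℝ}
    (hδ0 : 0 < δ) (hδ : δ ≤ 1 / 2) (hM : 0 ≤ M)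
    (hw : w ∈ unitary B) (hvw : ‖v - w‖ ≤ δ) (hx : ‖x‖ ≤ M) (h : ‖v * x * star v - y‖ < δ) :
    ‖w * x * star w - y‖ < δ * (1 + 3 * M) := by
  have hw1 : ‖w‖ = 1 := CStarRing.norm_of_mem_unitary hw
  have hwv : ‖w - v‖ ≤ δ := by rwa [norm_sub_rev]
  have hv : ‖v‖ ≤ 2 := by
    calc ‖v‖ = ‖w + (v - w)‖ := by rw [add_sub_cancel]
      _ ≤ ‖w‖ + ‖v - w‖ := norm_add_le _ _
      _ ≤ 2 := by rw [hw1]; linarith
  have e : w * x * star w - y = (w - v) * x * star w + v * x * star (w - v)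
      + (v * x * star v - y) := by
    rw [star_sub]
    noncomm_ring
  have n1 : ‖(w - v) * x * star w‖ ≤ δ * M := by
    calc ‖(w - v) * x * star w‖ ≤ ‖(w - v) * x‖ * ‖star w‖ := norm_mul_le _ _
      _ ≤ ‖w - v‖ * ‖x‖ * 1 := by
        rw [norm_star, hw1]
        exact mul_le_mul_of_nonneg_right (norm_mul_le _ _) zero_le_one
      _ ≤ δ * M := by
        rw [mul_one]
        exact mul_le_mul hwv hx (norm_nonneg _) hδ0.le
  have n2 : ‖v * x * star (w - v)‖ ≤ 2 * M * δ := by
    calc ‖v * x * star (w - v)‖ ≤ ‖v * x‖ * ‖star (w - v)‖ := norm_mul_le _ _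
      _ ≤ (‖v‖ * ‖x‖) * ‖w - v‖ := by
        rw [norm_star]
        exact mul_le_mul_of_nonneg_right (norm_mul_le _ _) (norm_nonneg _)
      _ ≤ 2 * M * δ := by
        refine mul_le_mul (mul_le_mul hv hx (norm_nonneg _) (by norm_num)) hwv (norm_nonneg _)
          (by positivity)
  calc ‖w * x * star w - y‖ ≤ ‖(w - v) * x * star w + v * x * star (w - v)‖
        + ‖v * x * star v - y‖ := by
        rw [e]
        exact norm_add_le _ _
    _ ≤ ‖(w - v) * x * star w‖ + ‖v * x * star (w - v)‖ + ‖v * x * star v - y‖ :=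
        add_le_add_left (norm_add_le _ _) _
    _ < δ * (1 + 3 * M) := by nlinarith [n1, n2, h]

theorem zapprox_est' {B : Type u} [CStarAlgebra B] [Nontrivial B] {v w x : B} {δ M : ℝ}
    (hδ0 : 0 < δ) (hM : 0 ≤ M) (hvw : ‖v - w‖ ≤ δ) (hx : ‖x‖ ≤ M) (h : ‖v * x - x * v‖ < δ) :
    ‖w * x - x * w‖ < δ * (1 + 3 * M) := by
  have e : w * x - x * w = (v * x - x * v) + (x * (v - w) - (v - w) * x) := by
    noncomm_ring
  have n1 : ‖x * (v - w)‖ ≤ M * δ :=
    (norm_mul_le _ _).trans (mul_le_mul hx hvw (norm_nonneg _) hM)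
  have n2 : ‖(v - w) * x‖ ≤ δ * M :=
    (norm_mul_le _ _).trans (mul_le_mul hvw hx (norm_nonneg _) hδ0.le)
  calc ‖w * x - x * w‖ ≤ ‖v * x - x * v‖ + ‖x * (v - w) - (v - w) * x‖ := by
        rw [e]
        exact norm_add_le _ _
    _ ≤ ‖v * x - x * v‖ + (‖x * (v - w)‖ + ‖(v - w) * x‖) :=
        add_le_add_right (norm_sub_le _ _) _
    _ < δ * (1 + 3 * M) := by nlinarith [n1, n2, h, mul_nonneg hδ0.le hM]

theorem exists_unitary_approx (ω : Ultrafilter ℕ) {A Z B : Type u} [CStarAlgebra A]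
    [CStarAlgebra Z] [CStarAlgebra B] [Nontrivial A] [Nontrivial B] [Nontrivial (FOmega ω A)]
    (hZ : ApproxInnerHalfFlip Z) (θ : Z →⋆ₐ[ℂ] Ultrapower ω (FOmega ω A)) (i : A →⋆ₐ[ℂ] B)
    (j : Z →⋆ₐ[ℂ] B) (hij : ∀ a z, Commute (i a) (j z)) (S : Finset A) (T : Finset Z) {ε : ℝ}
    (hε : 0 < ε) :
    ∃ u ∈ unitary B, (∀ a ∈ S, ‖u * i a - i a * u‖ < ε) ∧
      ∀ z ∈ T, ∃ a : A, ‖u * j z * star u - i a‖ < ε := by
  classical
  -- a bound for the norms
  obtain ⟨M, hM0, hMS, hMT⟩ : ∃ M : ℝ, 0 ≤ M ∧ (∀ a ∈ S, ‖i a‖ ≤ M) ∧ ∀ z ∈ T, ‖j z‖ ≤ M := by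
    refine ⟨∑ a ∈ S, ‖i a‖ + ∑ z ∈ T, ‖j z‖, by positivity, fun a ha => ?_, fun z hz => ?_⟩
    · have := Finset.single_le_sum (f := fun a => ‖i a‖) (fun _ _ => norm_nonneg _) ha
      have h2 : 0 ≤ ∑ z ∈ T, ‖j z‖ := by positivity
      linarith
    · have := Finset.single_le_sum (f := fun z => ‖j z‖) (fun _ _ => norm_nonneg _) hz
      have h2 : 0 ≤ ∑ a ∈ S, ‖i a‖ := by positivity
      linarith
  set δ : ℝ := min (1 / 2) (ε / (1 + 3 * M)) with hδdef
  have hpos : 0 < 1 + 3 * M := by linarith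
  have hδ0 : 0 < δ := lt_min (by norm_num) (div_pos hε hpos)
  have hδ1 : δ ≤ 1 / 2 := min_le_left _ _
  have hδε : δ * (1 + 3 * M) ≤ ε := by
    have : δ ≤ ε / (1 + 3 * M) := min_le_right _ _
    rwa [le_div_iff₀ hpos] at this
  -- the maps
  obtain ⟨gi, hgi⟩ := exists_ultraMap ω i
  let g0 : FOmega ω A →⋆ₐ[ℂ] Ultrapower ω B := gi.comp (centralSeq ω A).subtype
  obtain ⟨g1, hg1⟩ := exists_ultraMap ω g0
  let α : Z →⋆ₐ[ℂ] Ultrapower ω (Ultrapower ω B) :=
    (ultraConst ω (Ultrapower ω B)).comp ((ultraConst ω B).comp j)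
  let β : Z →⋆ₐ[ℂ] Ultrapower ω (Ultrapower ω B) := g1.comp θ
  have hα : ∀ z, α z = toUltrapower ω (Ultrapower ω B)
      (constSeq (Ultrapower ω B) (ultraConst ω B (j z))) := fun z => rfl
  -- representation of `β z`
  have hβ : ∀ z, ∃ f : lp (fun _ : ℕ => FOmega ω A) ∞,
      β z = toUltrapower ω (Ultrapower ω B) (lpMap g0 f) := by
    intro z
    obtain ⟨f, hf⟩ := toUltrapower_surjective ω (FOmega ω A) (θ z)
    refine ⟨f, ?_⟩
    show g1 (θ z) = _
    rw [← hf, hg1]
  have hg0 : ∀ x : FOmega ω A, ∃ y : lp (fun _ : ℕ => A) ∞,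
      g0 x = toUltrapower ω B (lpMap i y) := by
    intro x
    obtain ⟨y, hy⟩ := toUltrapower_surjective ω A (x : Ultrapower ω A)
    refine ⟨y, ?_⟩
    show gi (x : Ultrapower ω A) = _
    rw [← hy, hgi]
  have hg0j : ∀ (x : FOmega ω A) (z : Z), Commute (ultraConst ω B (j z)) (g0 x) := by
    intro x z
    obtain ⟨y, hy⟩ := hg0 x
    rw [hy, zapprox_ultraConst]
    exact zapprox_commute ω _ _ fun n => (hij (y n) z).symm
  have hgiC : ∀ a : A, gi (ultraConst ω A a) = ultraConst ω B (i a) := by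
    intro a
    rw [zapprox_ultraConst, hgi, zapprox_ultraConst]
    rfl
  have hg0i : ∀ (x : FOmega ω A) (a : A), Commute (ultraConst ω B (i a)) (g0 x) := by
    intro x a
    have hx := (StarSubalgebra.mem_centralizer_iff ℂ).1 x.2 (ultraConst ω A a) ⟨a, rfl⟩
    have h1 : Commute (ultraConst ω A a) (x : Ultrapower ω A) := hx.1
    rw [← hgiC]
    exact h1.map gi
  have hcomm : ∀ x y, Commute (α x) (β y) := by
    intro x y
    obtain ⟨f, hf⟩ := hβ y
    rw [hf, hα]
    exact zapprox_commute ω _ _ fun n => hg0j (f n) x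
  obtain ⟨u, hu1, hu2, hu3⟩ := hZ (Ultrapower ω (Ultrapower ω B)) α β hcomm T δ hδ0
  -- `u` commutes with the constants
  have huc : ∀ a : A, Commute (ultraConst ω (Ultrapower ω B) (ultraConst ω B (i a))) u := by
    intro a
    have hle : (StarAlgebra.adjoin ℂ (Set.range α ∪ Set.range β)).topologicalClosure ≤
        StarSubalgebra.centralizer ℂ
          (Set.range fun a : A => ultraConst ω (Ultrapower ω B) (ultraConst ω B (i a))) := by
      refine StarSubalgebra.topologicalClosure_minimal ?_ ?_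
      · rw [StarAlgebra.adjoin_le_iff]
        have key : ∀ (a : A) (c : Ultrapower ω (Ultrapower ω B)), c ∈ Set.range α ∪ Set.range β →
            Commute (ultraConst ω (Ultrapower ω B) (ultraConst ω B (i a))) c := by
          rintro a c (⟨z, rfl⟩ | ⟨z, rfl⟩)
          · have h1 : Commute (i a) (j z) := hij a z
            exact (h1.map (ultraConst ω B)).map (ultraConst ω (Ultrapower ω B))
          · obtain ⟨f, hf⟩ := hβ z
            rw [hf, zapprox_ultraConst]
            exact zapprox_commute ω _ _ fun n => hg0i (f n) a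
        intro c hc
        rw [SetLike.mem_coe, StarSubalgebra.mem_centralizer_iff]
        rintro _ ⟨a, rfl⟩
        refine ⟨key a c hc, ?_⟩
        have := key (star a) c hc
        rw [StarHomClass.map_star, StarHomClass.map_star, StarHomClass.map_star] at this
        exact this
      · rw [StarSubalgebra.coe_centralizer]
        exact Set.isClosed_centralizer _
    have := (StarSubalgebra.mem_centralizer_iff ℂ).1 (hle hu1) _ ⟨a, rfl⟩
    exact this.1
  -- first descent
  obtain ⟨v1, hv1a, hv1b, hv1c, hv1d⟩ := descend ω (B := Ultrapower ω B)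
    {c | ∃ y : lp (fun _ : ℕ => A) ∞, c = toUltrapower ω B (lpMap i y)}
    (S.image fun a => ultraConst ω B (i a)) (T.image fun z => ultraConst ω B (j z))
    (δ := δ) (u := u)
    (by rw [Unitary.star_mul_self_of_mem hu2, sub_self, norm_zero]; exact hδ0)
    (by rw [Unitary.mul_star_self_of_mem hu2, sub_self, norm_zero]; exact hδ0)
    (by
      intro b hb
      obtain ⟨a, _, rfl⟩ := Finset.mem_image.1 hb
      rw [(huc a).eq, sub_self, norm_zero]
      exact hδ0)
    (by
      intro b hb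
      obtain ⟨z, hz, rfl⟩ := Finset.mem_image.1 hb
      obtain ⟨f, hf⟩ := hβ z
      refine ⟨lpMap g0 f, fun n => hg0 (f n), ?_⟩
      rw [← hf]
      exact hu3 z hz)
  -- second descent
  obtain ⟨v, hva, hvb, hvc, hvd⟩ := descend ω (B := B) (Set.range i)
    (S.image fun a => i a) (T.image fun z => j z) (δ := δ) (u := v1) hv1a hv1b
    (by
      intro b hb
      obtain ⟨a, ha, rfl⟩ := Finset.mem_image.1 hb
      exact hv1c _ (Finset.mem_image.2 ⟨a, ha, rfl⟩))
    (by
      intro b hb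
      obtain ⟨z, hz, rfl⟩ := Finset.mem_image.1 hb
      obtain ⟨c, ⟨y, rfl⟩, hy⟩ := hv1d _ (Finset.mem_image.2 ⟨z, hz, rfl⟩)
      exact ⟨lpMap i y, fun n => ⟨y n, rfl⟩, hy⟩)
  obtain ⟨w, hw, hvw⟩ := exists_unitary_near hδ1 hva hvb
  refine ⟨w, hw, fun a ha => ?_, fun z hz => ?_⟩
  · exact (zapprox_est' hδ0 hM0 hvw (hMS a ha) (hvc _ (Finset.mem_image.2 ⟨a, ha, rfl⟩))).trans_le
      hδε
  · obtain ⟨_, ⟨a, rfl⟩, hy⟩ := hvd _ (Finset.mem_image.2 ⟨z, hz, rfl⟩)
    exact ⟨a, (zapprox_est hδ0 hδ1 hM0 hw hvw (hMT z hz) hy).trans_le hδε⟩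

end P101
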