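import Vale.Agent.Lib.P101.Base

/-!
# Elementary properties of order zero maps, part A
-/

open scoped ENNReal Topology
open Filter Matrix

namespace P101

attribute [local instance] CStarAlgebra.spectralOrder CStarAlgebra.spectralOrderedRing

universe u

namespace OZ

variable {ι : Type} [Fintype ι] [DecidableEq ι] {F : Type u} [CStarAlgebra F]

theorem one_nonneg (φ : OZ ι F) : 0 ≤ φ.map 1 := by
  obtain ⟨k, hk⟩ := φ.nonneg
  rw [hk]
  exact star_mul_self_nonneg k

/-- a selfadjoint element with a nonnegative cube is nonnegative -/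
theorem nonneg_of_cube {y : F} (hy : IsSelfAdjoint y) (h : 0 ≤ y ^ 3) : 0 ≤ y := by
  rw [StarOrderedRing.nonneg_iff_spectrum_nonneg (R := ℝ) y hy]
  intro x hx
  have h1 : x ^ 3 ∈ spectrum ℝ (y ^ 3) := spectrum.pow_mem_pow y 3 hx
  have h2 : 0 ≤ x ^ 3 :=
    (StarOrderedRing.nonneg_iff_spectrum_nonneg (R := ℝ) (y ^ 3) (hy.pow 3)).1 h _ h1
  by_contra h3
  push Not at h3
  have h4 : x ^ 3 < 0 := Odd.pow_neg (by decide) h3
  linarith

/-- `φ(p) ≥ 0` for a selfadjoint idempotent matrix `p`.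
Proof: `y = φ(p)` is selfadjoint, commutes with `z = φ(1) ≥ 0` and `y² = z y`.  So
`y³ = y z y ≥ 0`, and the cube of a selfadjoint element determines its sign. -/
theorem map_nonneg (φ : OZ ι F) {p : Matrix ι ι ℂ} (hp : star p = p) (hpp : p * p = p) :
    0 ≤ φ.map p := by
  have hsa : IsSelfAdjoint (φ.map p) := by
    rw [isSelfAdjoint_iff, ← φ.map_star, hp]
  apply nonneg_of_cube hsa
  have h1 : φ.map p * φ.map p = φ.map 1 * φ.map p := by
    rw [φ.map_mul, hpp]
  have h2 : φ.map p ^ 3 = star (φ.map p) * φ.map 1 * φ.map p := by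
    rw [hsa.star_eq, pow_succ, pow_two, mul_assoc, h1, ← mul_assoc]
  rw [h2]
  exact star_left_conjugate_nonneg φ.one_nonneg _

theorem single_nonneg (φ : OZ ι F) (i : ι) : 0 ≤ φ.map (Matrix.single i i 1) := by
  apply φ.map_nonneg
  · simp [star_eq_conjTranspose]
  · simp

theorem one_eq_sum (φ : OZ ι F) : φ.map 1 = ∑ i, φ.map (Matrix.single i i 1) := by
  rw [← map_sum]
  congr 1
  ext i j
  rw [Matrix.sum_apply]
  by_cases h : i = j
  · subst h
    rw [Matrix.one_apply_eq, Finset.sum_eq_single i]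
    · simp
    · intro k _ hk
      simp [hk]
    · intro hi
      exact absurd (Finset.mem_univ i) hi
  · rw [Matrix.one_apply_ne h]
    symm
    apply Finset.sum_eq_zero
    intro k _
    rw [Matrix.single_apply, if_neg]
    rintro ⟨h1, h2⟩
    exact h (h1.symm.trans h2)

/-- `φ(e_jj) + φ(e_ii) ≤ φ(1)` for `i ≠ j`. -/
theorem single_add_single_le (φ : OZ ι F) {i j : ι} (hij : i ≠ j) :
    φ.map (Matrix.single i i 1) + φ.map (Matrix.single j j 1) ≤ φ.map 1 := by
  rw [← sub_nonneg, ← map_add, ← map_sub]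
  have hij' := hij.symm
  apply φ.map_nonneg
  · simp [star_eq_conjTranspose]
  · have e1 : (Matrix.single i i (1 : ℂ)) * Matrix.single i i 1 = Matrix.single i i 1 := by simp
    have e2 : (Matrix.single j j (1 : ℂ)) * Matrix.single j j 1 = Matrix.single j j 1 := by simp
    have e3 : (Matrix.single i i (1 : ℂ)) * Matrix.single j j 1 = 0 :=
      Matrix.single_mul_single_of_ne _ _ _ _ hij _
    have e4 : (Matrix.single j j (1 : ℂ)) * Matrix.single i i 1 = 0 :=
      Matrix.single_mul_single_of_ne _ _ _ _ hij' _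
    simp only [sub_mul, mul_sub, add_mul, mul_add, one_mul, mul_one, e1, e2, e3, e4]
    abel

/-- if `φ(1) = 0` then `φ = 0`. (`‖φ(a)‖² = ‖φ(a)* φ(a)‖ = ‖φ(1) φ(a* a)‖`.) -/
theorem eq_zero_of_one (φ : OZ ι F) (h : φ.map 1 = 0) (a : Matrix ι ι ℂ) : φ.map a = 0 := by
  have h1 : star (φ.map a) * φ.map a = 0 := by
    rw [← φ.map_star, φ.map_mul, h, zero_mul]
  exact (CStarRing.star_mul_self_eq_zero_iff _).1 h1

end OZ

end P101
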