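import Mathlib.Analysis.CStarAlgebra.ContinuousFunctionalCalculus.Range
import Mathlib.Order.CompletePartialOrder
import Vale.Agent.Lib.P101.OZBasicA

/-!
# Separable closed subalgebras and corestriction of order zero maps
-/

open scoped ENNReal Topology
open Filter Matrix

namespace P101

attribute [local instance] CStarAlgebra.spectralOrder CStarAlgebra.spectralOrderedRing

universe u

variable {F : Type u} [CStarAlgebra F]

theorem corestrict_countable_closure {M : Type*} [Monoid M] {s : Set M} (hs : s.Countable) :
    (Submonoid.closure s : Set M).Countable := by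
  have hc : Countable s := hs
  have h : (Submonoid.closure s : Set M) ⊆ 
      Set.range (fun l : List s => (List.map (Subtype.val : s → M) l).prod) := by
    intro x hx
    obtain ⟨l, hl, rfl⟩ := Submonoid.exists_list_of_mem_closure hx
    refine ⟨l.attach.map (fun y => ⟨y.1, hl y.1 y.2⟩), ?_⟩
    change (List.map (Subtype.val : s → M) (List.map (fun y => ⟨y.1, hl y.1 y.2⟩) l.attach)).prod =
      l.prod
    rw [List.map_map]
    exact congrArg List.prod (List.attach_map_subtype_val l)
  exact (Set.countable_range _).mono h

/-- A countable set is contained in a closed separable *-subalgebra.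
Proof: `D` = topological closure of `StarAlgebra.adjoin ℂ T`.  Separability: the *-subalgebra
generated by a countable set is the `ℂ`-span of the countable submonoid generated by
`T ∪ star T` (`StarAlgebra.adjoin_toSubalgebra`, `Algebra.adjoin_eq_span`,
`Submonoid.closure` of a countable set is countable), the span of a countable set is separable
(`TopologicalSpace.IsSeparable.span`), and closures of separable sets are separable. -/
theorem exists_closed_separable (T : Set F) (hT : T.Countable) :
    ∃ D : StarSubalgebra ℂ F, IsClosed (D : Set F) ∧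
      TopologicalSpace.IsSeparable (D : Set F) ∧ T ⊆ (D : Set F) := by
  refine ⟨(StarAlgebra.adjoin ℂ T).topologicalClosure,
    StarSubalgebra.isClosed_topologicalClosure _, ?_, ?_⟩
  · rw [StarSubalgebra.topologicalClosure_coe]
    apply TopologicalSpace.IsSeparable.closure
    have h : ((StarAlgebra.adjoin ℂ T : StarSubalgebra ℂ F) : Set F) =
        (Submodule.span ℂ (Submonoid.closure (T ∪ star T) : Set F) : Set F) := by
      rw [← Algebra.adjoin_eq_span]
      rfl
    rw [h]
    apply TopologicalSpace.IsSeparable.span
    apply Set.Countable.isSeparable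
    apply corestrict_countable_closure
    exact hT.union (by simpa using hT.image star)
  · exact (StarAlgebra.subset_adjoin ℂ T).trans (StarSubalgebra.le_topologicalClosure _)

/-- Corestriction of an order zero map to a closed *-subalgebra containing its values on matrix
units.  (Positivity: the square root `cfc Real.sqrt (φ.map 1)` belongs to `D` by `cfc_mem`, it is
selfadjoint and its square is `φ.map 1`.) -/
theorem OZ.exists_corestrict {ι : Type} [Fintype ι] [DecidableEq ι] (D : StarSubalgebra ℂ F)
    [IsClosed (D : Set F)] (φ : OZ ι F) (h : ∀ i j, φ.map (Matrix.single i j 1) ∈ D) :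
    ∃ φ' : OZ ι D, ∀ a, ((φ'.map a : D) : F) = φ.map a := by
  have hmem : ∀ a, φ.map a ∈ D := by
    intro a
    rw [Matrix.matrix_eq_sum_single a, map_sum]
    refine sum_mem fun i _ => ?_
    rw [map_sum]
    refine sum_mem fun j _ => ?_
    have : Matrix.single i j (a i j) = a i j • Matrix.single i j (1 : ℂ) := by
      rw [Matrix.smul_single, smul_eq_mul, mul_one]
    rw [this, map_smul]
    exact D.smul_mem (h i j) _
  have hsa : IsSelfAdjoint (φ.map 1) := φ.one_isSelfAdjoint
  have h0 : 0 ≤ φ.map 1 := φ.one_nonneg
  set k : F := cfc Real.sqrt (φ.map 1) with hk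
  have hkD : k ∈ D := by
    rw [hk]
    exact cfc_mem (𝕜' := ℂ) Real.sqrt (hmem 1)
  have hksa : IsSelfAdjoint k := cfc_predicate Real.sqrt (φ.map 1)
  have hkk : k * k = φ.map 1 := by
    rw [hk, ← cfc_mul (fun x => Real.sqrt x) (fun x => Real.sqrt x) (φ.map 1)]
    conv_rhs => rw [← cfc_id ℝ (φ.map 1)]
    apply cfc_congr
    intro x hx
    have : 0 ≤ x := spectrum_nonneg_of_nonneg h0 hx
    simp [Real.mul_self_sqrt this]
  refine ⟨{ map := LinearMap.codRestrict (Subalgebra.toSubmodule D.toSubalgebra) φ.map hmem
            map_star := ?_
            map_mul := ?_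
            nonneg := ?_ }, ?_⟩
  · intro a
    apply Subtype.ext
    exact φ.map_star a
  · intro a b
    apply Subtype.ext
    exact φ.map_mul a b
  · refine ⟨⟨k, hkD⟩, ?_⟩
    apply Subtype.ext
    change φ.map 1 = star k * k
    rw [hksa.star_eq, hkk]
  · intro a
    rfl

/-- The image of a *-homomorphism defined on a closed *-subalgebra is contractive. -/
theorem norm_hom_le (D : StarSubalgebra ℂ F) [IsClosed (D : Set F)] (θ : D →⋆ₐ[ℂ] F) (x : D) :
    ‖θ x‖ ≤ ‖x‖ := by
  exact NonUnitalStarAlgHom.norm_apply_le θ x

end P101
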