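import Vale.Agent.Lib.P101.Defs

/-!
# Basic notions: algebraic ideals, order zero maps, commuting copies
-/

open scoped ENNReal Topology
open Filter Matrix

namespace P101

universe u v w

/-- `x` lies in the algebraic two-sided ideal of `E` generated by `S`. -/
def InIdeal {E : Type u} [Ring E] (S : Set E) (x : E) : Prop :=
  ∃ (m : ℕ) (a y b : Fin m → E), (∀ l, y l ∈ S) ∧ x = ∑ l, a l * y l * b l

/-- every nonzero element generates the whole ring as a two-sided ideal. -/
def AlgSimple (Q : Type u) [Ring Q] : Prop := ∀ q : Q, q ≠ 0 → InIdeal {q} (1 : Q)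

theorem InIdeal.of_mem {E : Type u} [Ring E] {S : Set E} {x : E} (hx : x ∈ S) : InIdeal S x :=
  ⟨1, fun _ => 1, fun _ => x, fun _ => 1, fun _ => hx, by simp⟩

theorem InIdeal.zero {E : Type u} [Ring E] (S : Set E) : InIdeal S (0 : E) :=
  ⟨0, fun _ => 1, fun _ => 1, fun _ => 1, fun l => l.elim0, by simp⟩

theorem InIdeal.add {E : Type u} [Ring E] {S : Set E} {x y : E} (hx : InIdeal S x)
    (hy : InIdeal S y) : InIdeal S (x + y) := by
  obtain ⟨m, a, z, b, hz, rfl⟩ := hx
  obtain ⟨m', a', z', b', hz', rfl⟩ := hy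
  refine ⟨m + m', Fin.append a a', Fin.append z z', Fin.append b b', ?_, ?_⟩
  · intro l
    refine Fin.addCases (fun i => ?_) (fun i => ?_) l
    · simpa using hz i
    · simpa using hz' i
  · rw [Fin.sum_univ_add]
    simp

theorem InIdeal.mul_left {E : Type u} [Ring E] {S : Set E} {x : E} (c : E) (hx : InIdeal S x) :
    InIdeal S (c * x) := by
  obtain ⟨m, a, z, b, hz, rfl⟩ := hx
  refine ⟨m, fun l => c * a l, z, b, hz, ?_⟩
  rw [Finset.mul_sum]
  simp [mul_assoc]

theorem InIdeal.mul_right {E : Type u} [Ring E] {S : Set E} {x : E} (c : E) (hx : InIdeal S x) :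
    InIdeal S (x * c) := by
  obtain ⟨m, a, z, b, hz, rfl⟩ := hx
  refine ⟨m, a, z, fun l => b l * c, hz, ?_⟩
  rw [Finset.sum_mul]
  simp [mul_assoc]

theorem InIdeal.neg {E : Type u} [Ring E] {S : Set E} {x : E} (hx : InIdeal S x) :
    InIdeal S (-x) := by
  simpa using hx.mul_left (-1)

theorem InIdeal.sub {E : Type u} [Ring E] {S : Set E} {x y : E} (hx : InIdeal S x)
    (hy : InIdeal S y) : InIdeal S (x - y) := by
  simpa [sub_eq_add_neg] using hx.add hy.neg

theorem InIdeal.sum {E : Type u} [Ring E] {S : Set E} {ι : Type*} (s : Finset ι) (f : ι → E)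
    (hf : ∀ i ∈ s, InIdeal S (f i)) : InIdeal S (∑ i ∈ s, f i) := by
  classical
  induction s using Finset.induction_on with
  | empty => simpa using InIdeal.zero S
  | insert i s his ih =>
    rw [Finset.sum_insert his]
    exact (hf i (Finset.mem_insert_self i s)).add
      (ih fun j hj => hf j (Finset.mem_insert_of_mem hj))

theorem InIdeal.trans {E : Type u} [Ring E] {S T : Set E} {x : E} (hx : InIdeal S x)
    (hST : ∀ y ∈ S, InIdeal T y) : InIdeal T x := by
  obtain ⟨m, a, z, b, hz, rfl⟩ := hx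
  exact InIdeal.sum _ _ fun l _ => ((hST _ (hz l)).mul_left _).mul_right _

theorem InIdeal.mono {E : Type u} [Ring E] {S T : Set E} {x : E} (hx : InIdeal S x)
    (hST : S ⊆ T) : InIdeal T x :=
  hx.trans fun _ hy => InIdeal.of_mem (hST hy)

theorem InIdeal.map {E : Type u} {F : Type v} [Ring E] [Ring F] (f : E →+* F) {S : Set E}
    {x : E} (hx : InIdeal S x) : InIdeal (f '' S) (f x) := by
  obtain ⟨m, a, z, b, hz, rfl⟩ := hx
  exact ⟨m, fun l => f (a l), fun l => f (z l), fun l => f (b l),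
    fun l => ⟨z l, hz l, rfl⟩, by simp⟩

/-- A (completely positive) order zero map `M_ι → F` (unital C*-algebra `F`), in the algebraic
description `φ(a) φ(b) = φ(1) φ(ab)`, `φ` *-preserving, `φ(1) ≥ 0`. -/
structure OZ (ι : Type w) [Fintype ι] [DecidableEq ι] (F : Type u) [CStarAlgebra F] where
  /-- the underlying linear map -/
  map : Matrix ι ι ℂ →ₗ[ℂ] F
  map_star : ∀ a, map (star a) = star (map a)
  map_mul : ∀ a b, map a * map b = map 1 * map (a * b)
  nonneg : ∃ k : F, map 1 = star k * k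

namespace OZ

variable {ι : Type w} [Fintype ι] [DecidableEq ι] {F : Type u} [CStarAlgebra F]

/-- composition of an order zero map with a *-homomorphism -/
def comp {D : Type v} [CStarAlgebra D] (φ : OZ ι D) (θ : D →⋆ₐ[ℂ] F) : OZ ι F where
  map := (θ.toAlgHom.toLinearMap).comp φ.map
  map_star := by
    intro a
    change θ (φ.map (star a)) = star (θ (φ.map a))
    rw [φ.map_star, StarHomClass.map_star]
  map_mul := by
    intro a b
    change θ (φ.map a) * θ (φ.map b) = θ (φ.map 1) * θ (φ.map (a * b))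
    rw [← _root_.map_mul, φ.map_mul, _root_.map_mul]
  nonneg := by
    obtain ⟨k, hk⟩ := φ.nonneg
    refine ⟨θ k, ?_⟩
    change θ (φ.map 1) = _
    rw [hk, _root_.map_mul, StarHomClass.map_star]

@[simp] theorem comp_map {D : Type v} [CStarAlgebra D] (φ : OZ ι D) (θ : D →⋆ₐ[ℂ] F)
    (a : Matrix ι ι ℂ) : (φ.comp θ).map a = θ (φ.map a) := rfl

theorem one_isSelfAdjoint (φ : OZ ι F) : IsSelfAdjoint (φ.map 1) := by
  rw [isSelfAdjoint_iff, ← φ.map_star, star_one]

theorem one_mul_comm (φ : OZ ι F) (a : Matrix ι ι ℂ) :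
    φ.map 1 * φ.map a = φ.map a * φ.map 1 := by
  rw [φ.map_mul a 1, mul_one]

end OZ

/-- `F` contains, for every separable C*-subalgebra `D`, a sequence of unital *-homomorphisms
`θ_j : D → F` with pairwise commuting ranges. -/
def HasCopies (F : Type u) [CStarAlgebra F] : Prop :=
  ∀ D : StarSubalgebra ℂ F, IsClosed (D : Set F) → TopologicalSpace.IsSeparable (D : Set F) →
    ∃ θ : ℕ → (D →⋆ₐ[ℂ] F), ∀ i j, i ≠ j → ∀ d e : D, Commute (θ i d) (θ j e)

end P101
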