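import Mathlib.Order.CompletePartialOrder
import Vale.Agent.Lib.P101.Base

/-!
# Simple quotients

If a subset `S` of a unital C*-algebra `E` does not generate `E` as an algebraic two-sided ideal,
then there is a unital *-homomorphism from `E` onto a nontrivial algebraically simple C*-algebra
which kills `S`.

Proof.  Zorn's lemma (`zorn_le_nonempty₀` or `zorn_subset_nonempty`) on the set of all
`I : Ideal E` which are two-sided (`∀ x ∈ I, ∀ c, x * c ∈ I`), contain `S` and do not contain `1`;
the set `{x | InIdeal S x}` is such an ideal (lemmas `InIdeal.add`, `.mul_left`, `.mul_right` in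
`Base.lean`) and unions of nonempty chains are such ideals.  Let `M` be maximal.
`M` is closed: `M.topologicalClosure` (`Submodule.topologicalClosure` of the left module, or the
set closure) is again a two-sided ideal; if it contained `1`, some `x ∈ M` would satisfy
`‖1 - x‖ < 1`, so `x` is a unit (`Units.oneSub` / `isUnit_one_sub_of_norm_lt_one`), `1 ∈ M`.
Take `Q = E ⧸ M` with `quotCStarAlgebra` (file `Quot.lean`) and `π = quotMk M`.
Algebraic simplicity: if `π x ≠ 0` then `x ∉ M`; the set `{y | ∃ m ∈ M, InIdeal {x} (y - m)}` is a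
two-sided ideal containing `M` and `x`, hence by maximality contains `1`: `1 = m + ∑ a_l x b_l`
(the elements `y l` of the set `{x}` are all `x`), apply `π`.
-/

open scoped ENNReal Topology
open Filter Matrix

namespace P101

universe u

/-- the admissible ideals in the proof of `exists_simple_quotient` -/
def SimpleQ.Adm {E : Type u} [CStarAlgebra E] (S : Set E) (I : Ideal E) : Prop :=
  (∀ x ∈ I, ∀ c, x * c ∈ I) ∧ S ⊆ I ∧ (1 : E) ∉ I

/-- the ideal generated by `S` -/
def SimpleQ.gen {E : Type u} [CStarAlgebra E] (S : Set E) : Ideal E where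
  carrier := {x | InIdeal S x}
  add_mem' := fun hx hy => InIdeal.add hx hy
  zero_mem' := InIdeal.zero S
  smul_mem' := fun c _ hx => InIdeal.mul_left c hx

/-- the ideal generated by `M` and `x` -/
def SimpleQ.adjoin {E : Type u} [CStarAlgebra E] (M : Ideal E) (x : E) : Ideal E where
  carrier := {y | ∃ m ∈ M, InIdeal {x} (y - m)}
  add_mem' := by
    rintro a b ⟨m, hm, h⟩ ⟨m', hm', h'⟩
    refine ⟨m + m', M.add_mem hm hm', ?_⟩
    have := h.add h'
    rwa [sub_add_sub_comm] at this
  zero_mem' := ⟨0, M.zero_mem, by rw [sub_zero]; exact InIdeal.zero _⟩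
  smul_mem' := by
    rintro c a ⟨m, hm, h⟩
    refine ⟨c * m, M.mul_mem_left c hm, ?_⟩
    rw [smul_eq_mul, ← mul_sub]
    exact h.mul_left c

theorem SimpleQ.exists_max {E : Type u} [CStarAlgebra E] (S : Set E)
    (h : ¬ InIdeal S (1 : E)) :
    ∃ M : Ideal E, Adm S M ∧ ∀ J : Ideal E, Adm S J → M ≤ J → J ≤ M := by
  have h0 : gen S ∈ {I : Ideal E | Adm S I} :=
    ⟨fun x hx c => InIdeal.mul_right c hx, fun x hx => InIdeal.of_mem hx, h⟩
  obtain ⟨M, -, hM⟩ := zorn_le_nonempty₀ {I : Ideal E | Adm S I} (by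
    intro c hc hchain y hy
    have hne : c.Nonempty := ⟨y, hy⟩
    have hdir : DirectedOn (· ≤ ·) c := hchain.directedOn
    refine ⟨sSup c, ⟨?_, ?_, ?_⟩, fun z hz => le_sSup hz⟩
    · intro x hx d
      rw [Submodule.mem_sSup_of_directed hne hdir] at hx ⊢
      obtain ⟨I, hI, hxI⟩ := hx
      exact ⟨I, hI, (hc hI).1 x hxI d⟩
    · intro x hx
      exact (le_sSup hy : y ≤ sSup c) ((hc hy).2.1 hx)
    · rw [Submodule.mem_sSup_of_directed hne hdir]
      rintro ⟨I, hI, h1⟩
      exact (hc hI).2.2 h1) (gen S) h0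
  exact ⟨M, hM.prop, fun J hJ hle => hM.le_of_ge hJ hle⟩

theorem SimpleQ.isClosed_of_max {E : Type u} [CStarAlgebra E] (S : Set E) (M : Ideal E)
    (hM : Adm S M) (hmax : ∀ J : Ideal E, Adm S J → M ≤ J → J ≤ M) :
    IsClosed (M : Set E) := by
  have hle : M ≤ M.closure := fun x hx => subset_closure hx
  have hadm : Adm S M.closure := by
    refine ⟨?_, ?_, ?_⟩
    · intro x hx c
      have h1 : x ∈ closure (M : Set E) := hx
      have h2 : x * c ∈ closure (M : Set E) :=
        map_mem_closure (f := fun y : E => y * c) (continuous_mul_const c) h1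
          fun y hy => hM.1 y hy c
      exact h2
    · exact fun x hx => hle (hM.2.1 hx)
    · intro h1
      have h2 : (1 : E) ∈ closure (M : Set E) := h1
      rw [Metric.mem_closure_iff] at h2
      obtain ⟨x, hx, hd⟩ := h2 1 one_pos
      rw [dist_eq_norm] at hd
      let u : Eˣ := Units.oneSub (1 - x) hd
      have hu : (u : E) = x := by
        change 1 - (1 - x) = x
        rw [sub_sub_cancel]
      have h3 : (↑u⁻¹ : E) * x = 1 := by
        rw [← hu]
        exact u.inv_mul
      exact hM.2.2 (h3 ▸ M.mul_mem_left _ hx)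
  have heq : M.closure = M := le_antisymm (hmax _ hadm hle) hle
  have h4 : (M : Set E) = closure (M : Set E) := by
    conv_lhs => rw [← heq]
    exact Ideal.coe_closure M
  rw [h4]
  exact isClosed_closure

theorem exists_simple_quotient {E : Type u} [CStarAlgebra E] (S : Set E)
    (h : ¬ InIdeal S (1 : E)) :
    ∃ (Q : Type u) (_ : CStarAlgebra Q) (π : E →⋆ₐ[ℂ] Q), Nontrivial Q ∧
      Function.Surjective π ∧ (∀ x ∈ S, π x = 0) ∧ AlgSimple Q := by
  obtain ⟨M, hM, hmax⟩ := SimpleQ.exists_max S h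
  have hcl := SimpleQ.isClosed_of_max S M hM hmax
  have hts : M.IsTwoSided := ⟨fun {a} b ha => hM.1 a ha b⟩
  have hcl' : IsClosed (M : Set E) := hcl
  refine ⟨E ⧸ M, quotCStarAlgebra M, quotMk M, ?_, quotMk_surjective M, ?_, ?_⟩
  · refine ⟨⟨quotMk M 1, 0, fun h1 => hM.2.2 ?_⟩⟩
    exact (quotMk_eq_zero_iff M 1).1 h1
  · intro x hx
    exact (quotMk_eq_zero_iff M x).2 (hM.2.1 hx)
  · intro q hq
    obtain ⟨x, rfl⟩ := quotMk_surjective M q
    have hx : x ∉ M := fun h1 => hq ((quotMk_eq_zero_iff M x).2 h1)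
    have h1 : (1 : E) ∈ SimpleQ.adjoin M x := by
      by_contra h2
      have hle : M ≤ SimpleQ.adjoin M x := fun y hy =>
        ⟨y, hy, by rw [sub_self]; exact InIdeal.zero _⟩
      have hadm : SimpleQ.Adm S (SimpleQ.adjoin M x) := by
        refine ⟨?_, fun y hy => hle (hM.2.1 hy), h2⟩
        rintro y ⟨m, hm, h3⟩ c
        refine ⟨m * c, hM.1 m hm c, ?_⟩
        rw [← sub_mul]
        exact h3.mul_right c
      refine hx (hmax _ hadm hle ⟨0, M.zero_mem, ?_⟩)
      rw [sub_zero]
      exact InIdeal.of_mem rfl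
    obtain ⟨m, hm, h2⟩ := h1
    have h3 := InIdeal.map (quotMk M : E →+* E ⧸ M) h2
    have h4 : (quotMk M : E →+* E ⧸ M) (1 - m) = 1 := by
      change quotMk M (1 - m) = 1
      rw [map_sub, map_one, (quotMk_eq_zero_iff M m).2 hm, sub_zero]
    rw [h4, Set.image_singleton] at h3
    exact h3

end P101
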