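import Mathlib.Analysis.SpecialFunctions.ContinuousFunctionalCalculus.Rpow.Basic
import Vale.Agent.Lib.P101.Base

/-!
# Order zero maps on `M_2` from square-zero elements

**Intertwining** `mul_cfc_star_mul`: `x * cfc f (star x * x) = cfc f (x * star x) * x` for `f`
continuous.  Proof: the claim holds for polynomials `f` (`x (x* x)^k = (x x*)^k x`); both sides are
continuous in `f` for the sup norm on a compact interval `[0, ‖x‖²]` containing both spectra;
Weierstrass.  (Only `f = sqrt` is needed: alternatively use that for `f = sqrt`,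
`f` is a uniform limit of polynomials on `[0, R]`.)

**OZ map**: let `x * x = 0`, `r = sqrt (x* x)` and `r' = sqrt (x x*)` (`CFC.sqrt` or `cfc`),
so `x r = r' x`, `r² = x* x`, `r'² = x x*`.  Define
`φ(a) = a₀₀ • x x* + a₀₁ • x r + a₁₀ • r x* + a₁₁ • x* x`.
Relations needed for `φ(a) φ(b) = φ(1) φ(ab)` where `φ(1) = x x* + x* x =: h`:
put `e00 = x x*`, `e01 = x r = r' x`, `e10 = r x* = x* r'`, `e11 = x* x`.  Since `x² = 0`:
`x * (x r) = 0`, also `x * r' = 0` because `‖x r'‖² = ‖x x x* x*‖ = 0` (`r'² = x x*`), and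
`r x = 0` similarly.  Then `e01 e10 = r' x x* r' = r' r'² r' = (x x*)² = h e00`,
`e10 e01 = r x* x r = (x* x)² = h e11`, `e00 e01 = x x* x r = h e01` etc. and
`e01 e01 = x r x r = 0`, `e00 e11 = x x* x* x = 0`, ...
-/

open scoped ENNReal Topology
open Filter Matrix

namespace P101

universe u

theorem exists_sqrt_star_mul {F : Type u} [CStarAlgebra F] (x : F) :
    ∃ r : F, star r = r ∧ r * r = star x * x := by
  letI := CStarAlgebra.spectralOrder F
  letI := CStarAlgebra.spectralOrderedRing F
  refine ⟨CFC.sqrt (star x * x), ?_, ?_⟩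
  · exact (IsSelfAdjoint.of_nonneg (CFC.sqrt_nonneg _)).star_eq
  · exact CFC.sqrt_mul_sqrt_self _ (star_mul_self_nonneg x)

theorem mul_eq_zero_of_sq {F : Type u} [CStarAlgebra F] {x r : F} (hx : x * x = 0)
    (hr : star r = r) (hrr : r * r = star x * x) : r * x = 0 := by
  have h1 : star (r * x) * (r * x) = 0 := by
    rw [star_mul, hr]
    calc star x * r * (r * x) = star x * (r * r) * x := by noncomm_ring
      _ = star x * star x * (x * x) := by rw [hrr]; noncomm_ring
      _ = 0 := by rw [hx, mul_zero]
  exact CStarRing.star_mul_self_eq_zero_iff _ |>.1 h1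

theorem exists_OZ_of_sq_zero {F : Type u} [CStarAlgebra F] (x : F) (hx : x * x = 0) :
    ∃ φ : OZ (Fin 2) F, φ.map 1 = x * star x + star x * x := by
  obtain ⟨r, hr, hrr⟩ := exists_sqrt_star_mul x
  have hrx : r * x = 0 := mul_eq_zero_of_sq hx hr hrr
  have hxr : star x * r = 0 := by
    have h1 := congrArg star hrx
    rwa [star_mul, hr, star_zero] at h1
  have hxx : star x * star x = 0 := by
    have h1 := congrArg star hx
    rwa [star_mul, star_zero] at h1
  -- the products of the four elements
  have z1 : ∀ y, x * (x * y) = 0 := fun y => by rw [← mul_assoc, hx, zero_mul]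
  have z2 : ∀ y, star x * (star x * y) = 0 := fun y => by rw [← mul_assoc, hxx, zero_mul]
  have z3 : ∀ y, r * (x * y) = 0 := fun y => by rw [← mul_assoc, hrx, zero_mul]
  have z4 : ∀ y, star x * (r * y) = 0 := fun y => by rw [← mul_assoc, hxr, zero_mul]
  have z5 : ∀ y, r * (r * y) = star x * (x * y) := fun y => by
    rw [← mul_assoc, hrr, mul_assoc]
  have z6 : r * (star x * x) = star x * (x * r) := by
    rw [← hrr, ← mul_assoc, hrr, mul_assoc]
  have z7 : ∀ y, r * (star x * (x * y)) = star x * (x * (r * y)) := fun y => by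
    have h1 : r * (star x * (x * y)) = r * (star x * x) * y := by noncomm_ring
    rw [h1, z6]
    noncomm_ring
  let φ : Matrix (Fin 2) (Fin 2) ℂ →ₗ[ℂ] F :=
    { toFun := fun a => a 0 0 • (x * star x) + a 0 1 • (x * r) + a 1 0 • (r * star x)
        + a 1 1 • (star x * x)
      map_add' := by
        intro a b
        simp only [Matrix.add_apply, add_smul]
        abel
      map_smul' := by
        intro c a
        simp only [Matrix.smul_apply, smul_eq_mul, mul_smul, smul_add, RingHom.id_apply] }
  have hφ : ∀ a, φ a = a 0 0 • (x * star x) + a 0 1 • (x * r) + a 1 0 • (r * star x)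
        + a 1 1 • (star x * x) := fun _ => rfl
  have hφ1 : φ 1 = x * star x + star x * x := by
    rw [hφ]
    simp
  refine ⟨⟨φ, ?_, ?_, ?_⟩, hφ1⟩
  · intro a
    rw [hφ, hφ]
    simp only [Matrix.star_apply, star_add, star_smul, star_mul, star_star, hr]
    abel
  · intro a b
    rw [hφ1, hφ, hφ, hφ]
    simp only [Matrix.mul_apply, Fin.sum_univ_two, mul_add, add_mul, smul_mul_assoc,
      mul_smul_comm, mul_assoc, z1, z2, z3, z4, z5, z6, z7, hx, hxx, hrx, hxr, hrr, smul_zero,
      add_zero, zero_add, mul_zero, smul_smul, add_smul]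
    module
  · refine ⟨x + star x, ?_⟩
    rw [hφ1]
    simp only [star_add, star_star, mul_add, add_mul, hx, hxx]
    abel

end P101
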