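import Vale.Agent.Lib.P101.SimpleQ
import Vale.Agent.Lib.P101.SqZero

/-!
# No characters implies fullness of order zero maps on `M_2`

Proof.  Suppose not.  `exists_simple_quotient` gives a simple C*-quotient `π : F → Q`, `Q`
nontrivial, killing all `φ(1)`, `φ : OZ (Fin 2) F`.  By `exists_OZ_of_sq_zero`, for every
square-zero `x` of `F`, `π (x x* + x* x) = 0`, hence (both summands are `≥ 0`, or: `π(x) π(x)* ≤ 0`)
`π x = 0`.
Claim: every selfadjoint `h : Q` is a real scalar.  `h = π h'` with `h'` selfadjoint (replace a lift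
`y` by `(y + y*)/2`).  For real `t` let `p = (h' - t)⁺`, `q = (h' - t)⁻` (CFC positive and negative
parts, `p q = 0 = q p`).  For any `c : F` the element `x = p c q` satisfies `x x = p c (q p) c q = 0`,
so `π(p) π(c) π(q) = 0`; since `π` is onto and `Q` is algebraically simple, `π p = 0` or `π q = 0`
(if `π q ≠ 0` then `1 = ∑ a_l π(q) b_l` and `π p = ∑ π(p) a_l π(q) b_l = 0`).
`π p = (h - t)⁺` etc. (`posPart` is a `cfc`, `StarAlgHom.map_cfc`); so for every real `t` either
`h ≤ t` or `t ≤ h`.  Hence the real spectrum of `h` is one point: two points `s < s'` of the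
spectrum contradict this with `t = (s+s')/2`; and a selfadjoint element with one point spectrum
`{t}` equals `algebraMap ℝ Q t` (e.g. via `cfc_id`, `cfc_congr`, `cfc_const`).
Therefore every element of `Q` is a complex scalar; so `algebraMap ℂ Q` is bijective (`Q` is
nontrivial) and its inverse composed with `π` is a unital *-homomorphism `F → ℂ`: contradiction.
-/

open scoped ENNReal Topology
open Filter Matrix

namespace P101

universe u

/-- a square-zero element `y` with `y y* + y* y = 0` vanishes -/
theorem chars_eq_zero_of_sq {Q : Type u} [CStarAlgebra Q] {y : Q} (h2 : y * y = 0)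
    (h : y * star y + star y * y = 0) : y = 0 := by
  have h3 : y * (star y * y) = 0 := by
    have := congrArg (fun z => y * z) h
    simp only [mul_add, mul_zero] at this
    rw [← mul_assoc, h2, zero_mul, zero_add] at this
    exact this
  have h4 : star (star y * y) * (star y * y) = 0 := by
    rw [star_mul, star_star, mul_assoc, h3, mul_zero]
  have h5 : star y * y = 0 := by
    rwa [CStarRing.star_mul_self_eq_zero_iff] at h4
  rwa [CStarRing.star_mul_self_eq_zero_iff] at h5

/-- in an algebraically simple ring, `p Q q = 0` implies `p = 0` or `q = 0`. -/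
theorem chars_prime {Q : Type u} [Ring Q] (hs : AlgSimple Q) {p q : Q}
    (h : ∀ c, p * c * q = 0) : p = 0 ∨ q = 0 := by
  by_contra hcon
  push Not at hcon
  obtain ⟨hp, hq⟩ := hcon
  obtain ⟨m, a, y, b, hy, h1⟩ := hs q hq
  apply hp
  calc p = p * 1 := (mul_one p).symm
    _ = p * ∑ l, a l * y l * b l := by rw [← h1]
    _ = ∑ l, p * (a l * y l * b l) := Finset.mul_sum _ _ _
    _ = 0 := by
        refine Finset.sum_eq_zero fun l _ => ?_
        have hyl : y l = q := hy l
        rw [hyl, ← mul_assoc, ← mul_assoc, h, zero_mul]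

/-- a selfadjoint element such that for every real `t` the positive or the negative part of
`h - t` vanishes, is a real scalar. -/
theorem chars_scalar {Q : Type u} [CStarAlgebra Q] [Nontrivial Q] {h : Q}
    (hh : IsSelfAdjoint h)
    (H : ∀ t : ℝ, cfc (fun s : ℝ => max (s - t) 0) h = 0 ∨
      cfc (fun s : ℝ => max (t - s) 0) h = 0) :
    ∃ t : ℝ, h = algebraMap ℝ Q t := by
  have hpoint : ∀ (f : ℝ → ℝ) (_ : Continuous f), cfc f h = 0 → ∀ s ∈ spectrum ℝ h, f s = 0 := by
    intro f hf h0 s hs
    have h1 : f s ∈ spectrum ℝ (cfc f h) := by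
      rw [cfc_map_spectrum f h hh hf.continuousOn]
      exact ⟨s, hs, rfl⟩
    rw [h0, spectrum.zero_eq] at h1
    exact h1
  obtain ⟨s, hs⟩ : (spectrum ℝ h).Nonempty :=
    ContinuousFunctionalCalculus.spectrum_nonempty h hh
  have huniq : ∀ s' ∈ spectrum ℝ h, s' = s := by
    have key : ∀ a ∈ spectrum ℝ h, ∀ b ∈ spectrum ℝ h, ¬ a < b := by
      intro a ha b hb hab
      rcases H ((a + b) / 2) with h0 | h0
      · have := hpoint _ (by fun_prop) h0 b hb
        have h2 : 0 < b - (a + b) / 2 := by linarith
        rw [max_eq_left h2.le] at this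
        linarith
      · have := hpoint _ (by fun_prop) h0 a ha
        have h2 : 0 < (a + b) / 2 - a := by linarith
        rw [max_eq_left h2.le] at this
        linarith
    intro s' hs'
    rcases lt_trichotomy s s' with h1 | h1 | h1
    · exact absurd h1 (key s hs s' hs')
    · exact h1.symm
    · exact absurd h1 (key s' hs' s hs)
  refine ⟨s, ?_⟩
  calc h = cfc (fun x : ℝ => x) h := (cfc_id' ℝ h hh).symm
    _ = cfc (fun _ : ℝ => s) h := cfc_congr (fun x hx => huniq x hx)
    _ = algebraMap ℝ Q s := cfc_const s h hh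

theorem inIdeal_one_of_no_characters {F : Type u} [CStarAlgebra F]
    (h : IsEmpty (F →⋆ₐ[ℂ] ℂ)) :
    InIdeal {y : F | ∃ φ : OZ (Fin 2) F, y = φ.map 1} (1 : F) := by
  by_contra hcon
  obtain ⟨Q, instQ, π, hnt, hsurj, hkill, hsimple⟩ := exists_simple_quotient _ hcon
  have := hnt
  -- square-zero elements are killed
  have hsq : ∀ x : F, x * x = 0 → π x = 0 := by
    intro x hx
    obtain ⟨φ, hφ⟩ := exists_OZ_of_sq_zero x hx
    have h1 : π (φ.map 1) = 0 := hkill _ ⟨φ, rfl⟩
    rw [hφ, map_add, map_mul, map_mul, map_star] at h1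
    refine chars_eq_zero_of_sq ?_ h1
    rw [← map_mul, hx, map_zero]
  -- selfadjoint elements of `Q` are scalars
  have hsa : ∀ a : Q, IsSelfAdjoint a → ∃ t : ℝ, a = algebraMap ℝ Q t := by
    intro a ha
    obtain ⟨y, hy⟩ := hsurj a
    set k : F := (2⁻¹ : ℂ) • (y + star y) with hk
    have hkself : IsSelfAdjoint k := by
      rw [isSelfAdjoint_iff, hk, star_smul, star_add, star_star, add_comm (star y) y]
      congr 1
      simp
    have hπk : π k = a := by
      rw [hk, map_smul, map_add, map_star, hy, ha.star_eq, ← two_smul ℂ a, smul_smul]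
      norm_num
    have hπc : Continuous π :=
      (AddMonoidHomClass.continuous_of_bound π 1 fun x => by
        simpa using NonUnitalStarAlgHom.norm_apply_le π x)
    refine chars_scalar ha fun t => ?_
    have e1 : π (cfc (fun s : ℝ => max (s - t) 0) k) = cfc (fun s : ℝ => max (s - t) 0) a := by
      rw [← hπk]
      exact StarAlgHomClass.map_cfc (S := ℂ) π (fun s : ℝ => max (s - t) 0) k
        (by fun_prop) hπc hkself (hπk ▸ ha)
    have e2 : π (cfc (fun s : ℝ => max (t - s) 0) k) = cfc (fun s : ℝ => max (t - s) 0) a := by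
      rw [← hπk]
      exact StarAlgHomClass.map_cfc (S := ℂ) π (fun s : ℝ => max (t - s) 0) k
        (by fun_prop) hπc hkself (hπk ▸ ha)
    have hqp : cfc (fun s : ℝ => max (t - s) 0) k * cfc (fun s : ℝ => max (s - t) 0) k = 0 := by
      rw [← cfc_mul (fun s : ℝ => max (t - s) 0) (fun s : ℝ => max (s - t) 0) k
        (by fun_prop) (by fun_prop)]
      have : (fun s : ℝ => max (t - s) 0 * max (s - t) 0) = fun _ => (0 : ℝ) := by
        funext s
        rcases le_total s t with hst | hst
        · rw [max_eq_right (by linarith : s - t ≤ 0), mul_zero]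
        · rw [max_eq_right (by linarith : t - s ≤ 0), zero_mul]
      rw [this, cfc_const_zero]
    rw [← e1, ← e2]
    refine chars_prime hsimple fun c => ?_
    obtain ⟨c', rfl⟩ := hsurj c
    rw [← map_mul, ← map_mul]
    refine hsq _ ?_
    calc cfc (fun s : ℝ => max (s - t) 0) k * c' * cfc (fun s : ℝ => max (t - s) 0) k *
        (cfc (fun s : ℝ => max (s - t) 0) k * c' * cfc (fun s : ℝ => max (t - s) 0) k)
        = cfc (fun s : ℝ => max (s - t) 0) k * c' *
          (cfc (fun s : ℝ => max (t - s) 0) k * cfc (fun s : ℝ => max (s - t) 0) k) *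
          (c' * cfc (fun s : ℝ => max (t - s) 0) k) := by noncomm_ring
      _ = 0 := by rw [hqp]; simp
  -- every element is a complex scalar
  have hscal : Function.Surjective (algebraMap ℂ Q) := by
    intro a
    obtain ⟨t, ht⟩ := hsa _ (realPart a).2
    obtain ⟨s, hs⟩ := hsa _ (imaginaryPart a).2
    refine ⟨(t : ℂ) + Complex.I * (s : ℂ), ?_⟩
    have h1 := realPart_add_I_smul_imaginaryPart a
    rw [ht, hs] at h1
    rw [← h1, map_add, map_mul, Algebra.smul_def]
    rfl
  have hinj : Function.Injective (algebraMap ℂ Q) := (algebraMap ℂ Q).injective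
  let e0 : ℂ →⋆ₐ[ℂ] Q :=
    { Algebra.ofId ℂ Q with
      map_star' := fun z => by
        change algebraMap ℂ Q (star z) = star (algebraMap ℂ Q z)
        exact algebraMap_star_comm z }
  have hbij : Function.Bijective e0 := ⟨hinj, hscal⟩
  let e : ℂ ≃⋆ₐ[ℂ] Q := StarAlgEquiv.ofBijective e0 hbij
  exact h.false ((e.symm : Q ≃⋆ₐ[ℂ] ℂ).toStarAlgHom.comp π)

end P101
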