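import Mathlib.Analysis.CStarAlgebra.ContinuousFunctionalCalculus.Commute
import Vale.Agent.Lib.P101.OZBasicA

/-!
# The cutoff function
-/

open scoped ENNReal Topology
open Filter Matrix

namespace P101

attribute [local instance] CStarAlgebra.spectralOrder CStarAlgebra.spectralOrderedRing

universe u

/-- the cutoff function: `0` on `(-∞, ε]`, `1` on `[2ε, ∞)`, linear in between. -/
noncomputable def cut (ε t : ℝ) : ℝ := min 1 (max 0 (t / ε - 1))

theorem continuous_cut (ε : ℝ) : Continuous (cut ε) := by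
  unfold cut
  fun_prop

/-- `a' = cut_ε(φ(1)) φ(e_00)` -/
noncomputable def cutElt {n : ℕ} [NeZero n] {F : Type u} [CStarAlgebra F] (φ : OZ (Fin n) F)
    (ε : ℝ) : F :=
  cfc (cut ε) (φ.map 1) * φ.map (Matrix.single 0 0 1)

/-- `cutElt` is selfadjoint (`φ(1)` commutes with `φ(e_00)`). -/
theorem cutElt_isSelfAdjoint {n : ℕ} [NeZero n] {F : Type u} [CStarAlgebra F] (φ : OZ (Fin n) F)
    (ε : ℝ) : IsSelfAdjoint (cutElt φ ε) := by
  have h1 : IsSelfAdjoint (cfc (cut ε) (φ.map 1)) := cfc_predicate (cut ε) (φ.map 1)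
  have h2 : IsSelfAdjoint (φ.map (Matrix.single 0 0 1)) := by
    rw [isSelfAdjoint_iff, ← φ.map_star]
    simp [star_eq_conjTranspose]
  have h3 : Commute (φ.map 1) (φ.map (Matrix.single 0 0 1)) := φ.one_mul_comm _
  have h4 : Commute (cfc (cut ε) (φ.map 1)) (φ.map (Matrix.single 0 0 1)) := h3.cfc_real (cut ε)
  unfold cutElt
  exact (h1.commute_iff h2).1 h4

end P101
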