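import Vale.Agent.Lib.P101.OZBasic
import Vale.Agent.Lib.P101.CutDef

/-!
# Exact coefficients
-/

open scoped ENNReal Topology
open Filter Matrix

namespace P101

attribute [local instance] CStarAlgebra.spectralOrder CStarAlgebra.spectralOrderedRing

universe u

/-- `(∑ y_l)* (∑ y_l) ≤ N ∑ y_l* y_l` -/
theorem coeff_sum_sq_le {F : Type u} [CStarAlgebra F] {N : ℕ} (y : Fin N → F) :
    star (∑ l, y l) * (∑ l, y l) ≤ (N : ℝ) • ∑ l, star (y l) * y l := by
  have h : 0 ≤ ∑ l, ∑ m, star (y l - y m) * (y l - y m) :=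
    Finset.sum_nonneg fun l _ => Finset.sum_nonneg fun m _ => star_mul_self_nonneg _
  have e : ∑ l, ∑ m, star (y l - y m) * (y l - y m) =
      (2 : ℝ) • ((N : ℝ) • (∑ l, star (y l) * y l) - star (∑ l, y l) * (∑ l, y l)) := by
    have e1 : ∀ l m, star (y l - y m) * (y l - y m) =
        star (y l) * y l + star (y m) * y m - star (y l) * y m - star (y m) * y l := by
      intro l m
      rw [star_sub, sub_mul, mul_sub, mul_sub]
      abel
    simp only [e1, Finset.sum_add_distrib, Finset.sum_sub_distrib, Finset.sum_const,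
      Finset.card_univ, Fintype.card_fin]
    rw [Finset.sum_comm (f := fun l m => star (y m) * y l), star_sum, Finset.sum_mul]
    have e2 : ∀ l, ∑ m, star (y l) * y m = star (y l) * ∑ m, y m := fun l => by
      rw [Finset.mul_sum]
    simp only [e2]
    rw [← Nat.cast_smul_eq_nsmul ℝ N, ← Finset.smul_sum, ← Nat.cast_smul_eq_nsmul ℝ N, two_smul]
    abel
  rw [e] at h
  have h2 : 0 ≤ (N : ℝ) • (∑ l, star (y l) * y l) - star (∑ l, y l) * (∑ l, y l) := by
    have := smul_nonneg (by norm_num : (0 : ℝ) ≤ 1 / 2) h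
    rwa [smul_smul, show (1 / 2 : ℝ) * 2 = 1 by norm_num, one_smul] at this
  exact sub_nonneg.1 h2

/-- `‖e - cut_ε(h) e‖² ≤ 2 ε ‖e‖` -/
theorem coeff_cut_norm {n : ℕ} [NeZero n] {F : Type u} [CStarAlgebra F]
    (φ : OZ (Fin n) F) {ε : ℝ} (hε : 0 < ε) :
    ‖φ.map (Matrix.single 0 0 1) - cutElt φ ε‖ ^ 2 ≤ 2 * ε * ‖φ.map (Matrix.single 0 0 1)‖ := by
  obtain ⟨e, he⟩ : ∃ e, e = φ.map (Matrix.single 0 0 1) := ⟨_, rfl⟩
  obtain ⟨h, hh⟩ : ∃ h, h = φ.map 1 := ⟨_, rfl⟩
  have hsa : IsSelfAdjoint h := hh ▸ φ.one_isSelfAdjoint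
  have h0 : 0 ≤ h := hh ▸ φ.one_nonneg
  have hes : star e = e := by
    rw [he, ← φ.map_star]
    simp [star_eq_conjTranspose]
  have hee : e * e = h * e := by
    rw [he, hh, φ.map_mul]
    simp
  have hcom : Commute h e := by
    rw [he, hh]; exact φ.one_mul_comm _
  have hcut : ContinuousOn (cut ε) (spectrum ℝ h) := (continuous_cut ε).continuousOn
  have hk : ContinuousOn (fun t => 1 - cut ε t) (spectrum ℝ h) := continuousOn_const.sub hcut
  have e1 : e - cutElt φ ε = cfc (fun t => 1 - cut ε t) h * e := by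
    rw [cutElt, ← he, ← hh, cfc_sub (fun _ : ℝ => (1 : ℝ)) _ h continuousOn_const hcut,
      cfc_const_one ℝ h, sub_mul, one_mul]
  obtain ⟨k, hk'⟩ : ∃ k, k = cfc (fun t => 1 - cut ε t) h := ⟨_, rfl⟩
  have hks : star k = k := by rw [hk']; exact (cfc_predicate _ h : IsSelfAdjoint _).star_eq
  have hke : Commute k e := by rw [hk']; exact hcom.cfc_real _
  have e2 : star (k * e) * (k * e) = (k * (k * h)) * e := by
    have a1 : e * (k * (k * e)) = k * (k * (e * e)) := by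
      rw [← mul_assoc e k, ← hke.eq, mul_assoc k e, ← mul_assoc e k, ← hke.eq, mul_assoc k e]
    rw [star_mul, hks, hes, mul_assoc, a1, hee]
    simp only [mul_assoc]
  have e3 : k * (k * h) = cfc (fun t => (1 - cut ε t) * ((1 - cut ε t) * t)) h := by
    rw [hk', cfc_mul (fun t => 1 - cut ε t) (fun t => (1 - cut ε t) * t) h hk
      (hk.mul continuousOn_id), cfc_mul (fun t => 1 - cut ε t) (fun t => t) h hk continuousOn_id,
      cfc_id' ℝ h]
  have e4 : ‖k * (k * h)‖ ≤ 2 * ε := by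
    rw [e3]
    refine norm_cfc_le (by positivity) fun t ht => ?_
    have ht0 : 0 ≤ t := spectrum_nonneg_of_nonneg h0 ht
    have c0 : 0 ≤ cut ε t := le_min zero_le_one (le_max_left _ _)
    have c1 : cut ε t ≤ 1 := min_le_left _ _
    have k0 : 0 ≤ 1 - cut ε t := by linarith
    have k1 : 1 - cut ε t ≤ 1 := by linarith
    rw [Real.norm_eq_abs, abs_of_nonneg (by positivity)]
    rcases le_or_gt (2 * ε) t with h2 | h2
    · have : cut ε t = 1 := by
        unfold cut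
        refine min_eq_left (le_max_of_le_right ?_)
        rw [le_sub_iff_add_le, le_div_iff₀ hε]
        linarith
      rw [this]
      simp
      positivity
    · calc (1 - cut ε t) * ((1 - cut ε t) * t) ≤ 1 * (1 * t) :=
            mul_le_mul k1 (mul_le_mul_of_nonneg_right k1 ht0) (by positivity) zero_le_one
        _ ≤ 2 * ε := by linarith
  rw [← he, e1, ← hk', pow_two, ← CStarRing.norm_star_mul_self, e2]
  exact (norm_mul_le _ _).trans (mul_le_mul_of_nonneg_right e4 (norm_nonneg e))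

/-- **Exact coefficients.**  If `φ` is a full order zero map then for some `ε > 0` and
`c_0, …, c_{N-1} ∈ F`: `∑ c_i* a'² c_i = 1`, `a' = cut_ε(φ(1)) φ(e_00)`.

Proof.  `OZ.full_single` : `1 = ∑_{l<N} u_l e v_l`, `e = φ(e_00)`.  `‖e - cut_ε(h) e‖ → 0` as
`ε → 0`: `(e - cut_ε(h) e)² = (1 - cut_ε(h))² e² = (1 - cut_ε(h))² h e ≤ 2ε e`-ish (norm
`≤ 2 ε ‖e‖`), `h = φ(1)`.  Choose `ε` with `‖∑ u_l (e - a') v_l‖ < 1`; then `x = ∑ u_l a' v_l` is
invertible.  `x* x ≤ N ∑ v_l* a' u_l* u_l a' v_l ≤ K ∑ v_l* a'² v_l` (`K = N max ‖u_l‖² + 1`;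
`(∑ y_l)* (∑ y_l) ≤ N ∑ y_l* y_l`), and `x* x ≥ δ > 0` because `x` is invertible.  So
`Z = ∑ (K/δ) v_l* a'² v_l ≥ 1` is invertible; with `c_l = (K/δ)^{1/2} v_l Z^{-1/2}` we get
`∑ c_l* a'² c_l = Z^{-1/2} Z Z^{-1/2} = 1`. -/
theorem exists_coeff {n : ℕ} [NeZero n] {F : Type u} [CStarAlgebra F] [Nontrivial F]
    (φ : OZ (Fin n) F) (h : InIdeal {φ.map 1} (1 : F)) :
    ∃ (ε : ℝ) (_ : 0 < ε) (N : ℕ) (c : Fin N → F),
      ∑ i, star (c i) * (cutElt φ ε * cutElt φ ε) * c i = 1 := by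
  obtain ⟨N, u, w, v, hw, h1⟩ := φ.full_single 0 h
  obtain ⟨e, he⟩ : ∃ e, e = φ.map (Matrix.single 0 0 1) := ⟨_, rfl⟩
  have hwe : ∀ l, w l = e := fun l => by rw [he]; exact hw l
  simp only [hwe] at h1
  obtain ⟨S, hS⟩ : ∃ S, S = ∑ l, ‖u l‖ * ‖v l‖ := ⟨_, rfl⟩
  have hS0 : 0 ≤ S := by rw [hS]; positivity
  obtain ⟨ε, hεdef⟩ : ∃ ε, ε = 1 / (2 * (S ^ 2 + 1) * (‖e‖ + 1)) := ⟨_, rfl⟩
  have hε : 0 < ε := by rw [hεdef]; positivity
  obtain ⟨a, ha⟩ : ∃ a, a = cutElt φ ε := ⟨_, rfl⟩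
  have has : star a = a := by rw [ha]; exact (cutElt_isSelfAdjoint φ ε).star_eq
  -- the perturbation is small
  have hd : ‖e - a‖ ^ 2 ≤ 2 * ε * ‖e‖ := by rw [ha, he]; exact coeff_cut_norm φ hε
  have hsmall : ‖∑ l, u l * (e - a) * v l‖ < 1 := by
    have b1 : ‖∑ l, u l * (e - a) * v l‖ ≤ S * ‖e - a‖ := by
      refine (norm_sum_le _ _).trans ?_
      rw [hS, Finset.sum_mul]
      refine Finset.sum_le_sum fun l _ => ?_
      calc ‖u l * (e - a) * v l‖ ≤ ‖u l‖ * ‖e - a‖ * ‖v l‖ :=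
            (norm_mul_le _ _).trans (mul_le_mul_of_nonneg_right (norm_mul_le _ _) (norm_nonneg _))
        _ = ‖u l‖ * ‖v l‖ * ‖e - a‖ := by ring
    have b2 : (S * ‖e - a‖) ^ 2 < 1 := by
      rw [mul_pow]
      calc S ^ 2 * ‖e - a‖ ^ 2 ≤ S ^ 2 * (2 * ε * ‖e‖) :=
            mul_le_mul_of_nonneg_left hd (by positivity)
        _ = (S ^ 2 * ‖e‖) / ((S ^ 2 + 1) * (‖e‖ + 1)) := by
            rw [hεdef]
            field_simp
        _ < 1 := by
            rw [div_lt_one (by positivity)]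
            nlinarith [norm_nonneg e, sq_nonneg S]
    have b3 : S * ‖e - a‖ < 1 := by
      have hnn : 0 ≤ S * ‖e - a‖ := by positivity
      nlinarith
    exact b1.trans_lt b3
  -- `x` is invertible
  have hx : IsUnit (∑ l, u l * a * v l) := by
    have hh := isUnit_one_sub_of_norm_lt_one hsmall
    have e1 : 1 - ∑ l, u l * (e - a) * v l = ∑ l, u l * a * v l := by
      nth_rewrite 1 [h1]
      rw [← Finset.sum_sub_distrib]
      refine Finset.sum_congr rfl fun l _ => ?_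
      rw [mul_sub, sub_mul, sub_sub_cancel]
    rwa [e1] at hh
  obtain ⟨x, hxdef⟩ : ∃ x, x = ∑ l, u l * a * v l := ⟨_, rfl⟩
  rw [← hxdef] at hx
  obtain ⟨K, hK⟩ : ∃ K, K = (N : ℝ) * (∑ l, ‖star (u l) * u l‖) + 1 := ⟨_, rfl⟩
  have hK0 : 0 < K := by rw [hK]; positivity
  obtain ⟨Z, hZ⟩ : ∃ Z, Z = ∑ l, star (v l) * (a * a) * v l := ⟨_, rfl⟩
  have hterm : ∀ l, 0 ≤ star (v l) * (a * a) * v l := fun l => by
    have : a * a = star a * a := by rw [has]
    rw [this]
    exact star_left_conjugate_nonneg (star_mul_self_nonneg a) _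
  have hZ0 : 0 ≤ Z := by rw [hZ]; exact Finset.sum_nonneg fun l _ => hterm l
  have hle : star x * x ≤ K • Z := by
    rw [hxdef]
    refine (coeff_sum_sq_le _).trans ?_
    have c1 : ∀ l, star (u l * a * v l) * (u l * a * v l) ≤
        (∑ m, ‖star (u m) * u m‖) • (star (v l) * (a * a) * v l) := by
      intro l
      have d1 : star (u l * a * v l) * (u l * a * v l) =
          star (a * v l) * (star (u l) * u l) * (a * v l) := by
        simp only [star_mul, mul_assoc]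
      have d2 : star (v l) * (a * a) * v l = star (a * v l) * (a * v l) := by
        rw [star_mul, has]; simp only [mul_assoc]
      rw [d1, d2]
      refine (CStarAlgebra.star_left_conjugate_le_norm_smul
        (IsSelfAdjoint.star_mul_self (u l))).trans ?_
      refine smul_le_smul_of_nonneg_right ?_ (star_mul_self_nonneg _)
      exact Finset.single_le_sum (f := fun m => ‖star (u m) * u m‖)
        (fun m _ => norm_nonneg _) (Finset.mem_univ l)
    calc (N : ℝ) • ∑ l, star (u l * a * v l) * (u l * a * v l) ≤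
          (N : ℝ) • ∑ l, (∑ m, ‖star (u m) * u m‖) • (star (v l) * (a * a) * v l) :=
          smul_le_smul_of_nonneg_left (Finset.sum_le_sum fun l _ => c1 l) (Nat.cast_nonneg N)
      _ = ((N : ℝ) * (∑ m, ‖star (u m) * u m‖)) • Z := by
          rw [← Finset.smul_sum, smul_smul, hZ]
      _ ≤ K • Z := smul_le_smul_of_nonneg_right (by rw [hK]; linarith) hZ0
  have hKZ : IsUnit (K • Z) :=
    CStarAlgebra.isUnit_of_le (star x * x) hle
      (IsStrictlyPositive.iff_of_unital.2 ⟨star_mul_self_nonneg x, hx.star.mul hx⟩)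
  have hZu : IsUnit Z := by
    have e1 : K • Z = (algebraMap ℝ F K) * Z := by rw [Algebra.smul_def]
    have hKu : IsUnit (algebraMap ℝ F K) := (IsUnit.mk0 K hK0.ne').map (algebraMap ℝ F)
    rw [e1] at hKZ
    exact (hKu.mul_left_iff).1 hKZ
  have hZp : IsStrictlyPositive Z := IsStrictlyPositive.iff_of_unital.2 ⟨hZ0, hZu⟩
  obtain ⟨R, hR⟩ : ∃ R : F, R = Z ^ (-(1 / 2) : ℝ) := ⟨_, rfl⟩
  have hRs : star R = R := by
    rw [hR]; exact (CFC.rpow_nonneg (a := Z) (y := -(1 / 2))).isSelfAdjoint.star_eq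
  refine ⟨ε, hε, N, fun l => v l * R, ?_⟩
  have hfin : ∀ l, star (v l * R) * (cutElt φ ε * cutElt φ ε) * (v l * R) =
      R * (star (v l) * (a * a) * v l) * R := by
    intro l
    rw [star_mul, hRs, ← ha]
    simp only [mul_assoc]
  simp only [hfin]
  rw [← Finset.sum_mul, ← Finset.mul_sum, ← hZ, hR]
  exact CFC.conjugate_rpow_neg_one_half Z hZp

end P101
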