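import Vale.Agent.Lib.P101.Defs

/-!
# Untwisting the dimension drop algebra

A unital *-homomorphism `Λ` from `I(n, n+1)` to `C([0,1], M_n ⊗ M_{n+1})` with
`Λ f = 1 ⊗ x` on `[0,1/3]` and `Λ f = m ⊗ E_00 + 1 ⊗ m` on `[2/3,1]`, for `f(0) = m ⊗ 1`,
`f(1) = 1 ⊗ x`.

Proof.  `τ : [0,1] → [0,1]` continuous with `τ = 0` on `[0,1/3]`, `τ = 1` on `[2/3,1]`
(`τ t = min 1 (max 0 (3 t - 1))`).  Let `S` be the flip on `ℂ^n ⊗ ℂ^n ⊂ ℂ^n ⊗ ℂ^{n+1}` (embedded by
`j ↦ j+1` in the second factor), extended by `0` on `ℂ^n ⊗ e_0`, and `P_0 = 1 ⊗ E_00`, `P_1 = 1 - P_0`.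
So `S* = S`, `S² = P_1`, `S P_0 = 0`.  `u(θ) = P_0 + cos θ P_1 + i sin θ S` is unitary:
`u* u = P_0 + (cos² + sin²) P_1 + i cos sin (S - S) = 1`.
`Λ f (t) = u(π τ(t)/2)* f(1 - τ(t)) u(π τ(t)/2)`.
`t ≤ 1/3`: `τ = 0`, `u = 1`, `f(1) = 1 ⊗ x`.  `t ≥ 2/3`: `τ = 1`, `u = P_0 + i S` and
`u* (m ⊗ 1) u = P_0 (m ⊗ 1) P_0 + S (m ⊗ 1) S = m ⊗ E_00 + 1 ⊗ m` where the last `m` is embedded in
`M_{n+1}` by `embSucc` (the cross terms vanish: `P_0 (m ⊗ 1) S = (m ⊗ 1) P_0 S = 0`).
-/

open scoped ENNReal Topology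
open Filter Matrix

namespace P101

/-- `m : M_n` placed in the lower right corner of `M_{n+1}`. -/
def embSucc {n : ℕ} (m : Matrix (Fin n) (Fin n) ℂ) : Matrix (Fin (n + 1)) (Fin (n + 1)) ℂ :=
  Matrix.of fun a b => Fin.cases 0 (fun k => Fin.cases 0 (fun j => m k j) b) a

/-- the basic product of the unitary path -/
theorem path_aux {B : Type*} [Ring B] [Algebra ℂ B] {P S : B} (hP : P * P = P) (hPS : P * S = 0)
    (hSP : S * P = 0) (hSS : S * S = 1 - P) (c d : ℂ) (h : c * c - d * d = 1) :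
    (P + c • (1 - P) + d • S) * (P + c • (1 - P) + (-d) • S) = 1 := by
  have h1 : P * (1 - P) = 0 := by rw [mul_sub, mul_one, hP, sub_self]
  have h2 : (1 - P) * P = 0 := by rw [sub_mul, one_mul, hP, sub_self]
  have h3 : (1 - P) * (1 - P) = 1 - P := by rw [mul_sub, mul_one, h2, sub_zero]
  have h4 : (1 - P) * S = S := by rw [sub_mul, one_mul, hPS, sub_zero]
  have h5 : S * (1 - P) = S := by rw [mul_sub, mul_one, hSP, sub_zero]
  have h6 : (P + c • (1 - P) + d • S) * (P + c • (1 - P) + (-d) • S)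
      = P + (c * c - d * d) • (1 - P) := by
    simp only [add_mul, mul_add, smul_mul_assoc, mul_smul_comm, hP, hPS, hSP, hSS, h1, h2, h3,
      h4, h5, smul_zero, add_zero, zero_add, mul_neg, neg_smul, smul_add, smul_smul,
      mul_comm d c, sub_smul]
    abel
  rw [h6, h, one_smul, add_sub_cancel]

/-- conjugation by a unitary -/
def pathConj {B : Type*} [Ring B] [StarRing B] [Algebra ℂ B] (U : B) (h1 : star U * U = 1)
    (h2 : U * star U = 1) : B →⋆ₐ[ℂ] B where
  toFun x := star U * x * U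
  map_one' := by rw [mul_one, h1]
  map_mul' x y := by
    calc star U * (x * y) * U = star U * x * 1 * y * U := by simp only [mul_assoc, one_mul]
      _ = star U * x * (U * star U) * y * U := by rw [h2]
      _ = star U * x * U * (star U * y * U) := by simp only [mul_assoc]
  map_zero' := by simp
  map_add' x y := by rw [mul_add, add_mul]
  commutes' r := by rw [← Algebra.commutes, mul_assoc, h1, mul_one]
  map_star' x := by rw [star_mul, star_mul, star_star, mul_assoc]

/-- the flip -/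
def pathS (n : ℕ) : Matrix (Fin n × Fin (n + 1)) (Fin n × Fin (n + 1)) ℂ :=
  Matrix.of fun i j => if i.2 = j.1.succ ∧ j.2 = i.1.succ then 1 else 0

/-- the projection onto the first column -/
def pathP (n : ℕ) : Matrix (Fin n × Fin (n + 1)) (Fin n × Fin (n + 1)) ℂ :=
  kroneckerMap (· * ·) 1 (Matrix.single 0 0 1)

theorem pathS_mul_zero {n : ℕ} (X : Matrix (Fin n × Fin (n + 1)) (Fin n × Fin (n + 1)) ℂ)
    (a : Fin n) (j : Fin n × Fin (n + 1)) : (pathS n * X) (a, 0) j = 0 := by
  rw [Matrix.mul_apply]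
  apply Finset.sum_eq_zero
  intro i _
  have : ¬ ((0 : Fin (n + 1)) = i.1.succ ∧ i.2 = a.succ) := fun h => Fin.succ_ne_zero _ h.1.symm
  simp only [pathS, Matrix.of_apply, if_neg this, zero_mul]

theorem pathS_mul_succ {n : ℕ} (X : Matrix (Fin n × Fin (n + 1)) (Fin n × Fin (n + 1)) ℂ)
    (a k : Fin n) (j : Fin n × Fin (n + 1)) : (pathS n * X) (a, k.succ) j = X (k, a.succ) j := by
  rw [Matrix.mul_apply, Finset.sum_eq_single (k, a.succ)]
  · simp [pathS]
  · intro i _ hi
    have : ¬ (k.succ = i.1.succ ∧ i.2 = a.succ) := by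
      rintro ⟨h1, h2⟩
      apply hi
      exact Prod.ext (Fin.succ_injective _ h1).symm h2
    simp only [pathS, Matrix.of_apply, if_neg this, zero_mul]
  · intro h
    exact absurd (Finset.mem_univ _) h

theorem mul_pathS_zero {n : ℕ} (X : Matrix (Fin n × Fin (n + 1)) (Fin n × Fin (n + 1)) ℂ)
    (a : Fin n) (j : Fin n × Fin (n + 1)) : (X * pathS n) j (a, 0) = 0 := by
  rw [Matrix.mul_apply]
  apply Finset.sum_eq_zero
  intro i _
  have : ¬ (i.2 = a.succ ∧ (0 : Fin (n + 1)) = i.1.succ) := fun h => Fin.succ_ne_zero _ h.2.symm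
  simp only [pathS, Matrix.of_apply, if_neg this, mul_zero]

theorem mul_pathS_succ {n : ℕ} (X : Matrix (Fin n × Fin (n + 1)) (Fin n × Fin (n + 1)) ℂ)
    (a k : Fin n) (j : Fin n × Fin (n + 1)) : (X * pathS n) j (a, k.succ) = X j (k, a.succ) := by
  rw [Matrix.mul_apply, Finset.sum_eq_single (k, a.succ)]
  · simp [pathS]
  · intro i _ hi
    have : ¬ (i.2 = a.succ ∧ k.succ = i.1.succ) := by
      rintro ⟨h1, h2⟩
      apply hi
      exact Prod.ext (Fin.succ_injective _ h2).symm h1
    simp only [pathS, Matrix.of_apply, if_neg this, mul_zero]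
  · intro h
    exact absurd (Finset.mem_univ _) h

theorem pathS_star (n : ℕ) : star (pathS n) = pathS n := by
  rw [star_eq_conjTranspose]
  ext i j
  simp only [pathS, Matrix.conjTranspose_apply, Matrix.of_apply]
  by_cases h : i.2 = j.1.succ ∧ j.2 = i.1.succ
  · rw [if_pos h, if_pos ⟨h.2, h.1⟩, star_one]
  · rw [if_neg h, if_neg (fun h' => h ⟨h'.2, h'.1⟩), star_zero]

theorem pathP_star (n : ℕ) : star (pathP n) = pathP n := by
  rw [star_eq_conjTranspose]
  ext i j
  simp only [pathP, Matrix.conjTranspose_apply, kroneckerMap_apply, Matrix.one_apply,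
    Matrix.single_apply]
  by_cases h1 : i.1 = j.1
  · by_cases h2 : (0 : Fin (n + 1)) = i.2 ∧ (0 : Fin (n + 1)) = j.2
    · simp [h1, h2.1.symm, h2.2.symm]
    · have h3 : ¬ ((0 : Fin (n + 1)) = j.2 ∧ (0 : Fin (n + 1)) = i.2) := fun h => h2 ⟨h.2, h.1⟩
      rw [if_neg h2, if_neg h3]
      simp
  · have h3 : ¬ (j.1 = i.1) := fun h => h1 h.symm
    rw [if_neg h1, if_neg h3]
    simp

theorem pathP_mul_self (n : ℕ) : pathP n * pathP n = pathP n := by
  unfold pathP
  rw [← mul_kronecker_mul, mul_one]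
  simp

theorem pathP_apply_succ_left {n : ℕ} (a k : Fin n) (j : Fin n × Fin (n + 1)) :
    pathP n (a, k.succ) j = 0 := by
  have : ¬ ((0 : Fin (n + 1)) = k.succ ∧ (0 : Fin (n + 1)) = j.2) :=
    fun h => Fin.succ_ne_zero _ h.1.symm
  simp only [pathP, kroneckerMap_apply, Matrix.single_apply, if_neg this, mul_zero]

theorem pathP_apply_succ_right {n : ℕ} (a k : Fin n) (j : Fin n × Fin (n + 1)) :
    pathP n j (a, k.succ) = 0 := by
  have : ¬ ((0 : Fin (n + 1)) = j.2 ∧ (0 : Fin (n + 1)) = k.succ) :=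
    fun h => Fin.succ_ne_zero _ h.2.symm
  simp only [pathP, kroneckerMap_apply, Matrix.single_apply, if_neg this, mul_zero]

theorem pathP_apply_zero {n : ℕ} (a b : Fin n) :
    pathP n (a, 0) (b, 0) = (1 : Matrix (Fin n) (Fin n) ℂ) a b := by
  simp [pathP, kroneckerMap_apply]

theorem pathS_mul_pathP (n : ℕ) : pathS n * pathP n = 0 := by
  ext i j
  obtain ⟨a, b⟩ := i
  refine Fin.cases ?_ (fun k => ?_) b
  · rw [pathS_mul_zero]
    rfl
  · rw [pathS_mul_succ, pathP_apply_succ_left]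
    rfl

theorem pathP_mul_pathS (n : ℕ) : pathP n * pathS n = 0 := by
  ext i j
  obtain ⟨a, b⟩ := j
  refine Fin.cases ?_ (fun k => ?_) b
  · rw [mul_pathS_zero]
    rfl
  · rw [mul_pathS_succ, pathP_apply_succ_right]
    rfl

/-- the flip intertwines `m ⊗ 1` and `1 ⊗ m` -/
theorem pathS_conj {n : ℕ} (m : Matrix (Fin n) (Fin n) ℂ) :
    pathS n * kroneckerMap (· * ·) m (1 : Matrix (Fin (n + 1)) (Fin (n + 1)) ℂ) * pathS n
      = kroneckerMap (· * ·) (1 : Matrix (Fin n) (Fin n) ℂ) (embSucc m) := by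
  ext i j
  obtain ⟨a, b⟩ := i
  obtain ⟨c, d⟩ := j
  refine Fin.cases ?_ (fun l => ?_) d
  · rw [mul_pathS_zero]
    have : embSucc m b 0 = 0 := by
      refine Fin.cases ?_ (fun k => ?_) b
      · rfl
      · rfl
    rw [kroneckerMap_apply]
    simp only [this, mul_zero]
  · rw [mul_pathS_succ]
    refine Fin.cases ?_ (fun k => ?_) b
    · rw [pathS_mul_zero]
      have : embSucc m 0 l.succ = 0 := rfl
      rw [kroneckerMap_apply]
      simp only [this, mul_zero]
    · rw [pathS_mul_succ]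
      have : embSucc m k.succ l.succ = m k l := rfl
      rw [kroneckerMap_apply, kroneckerMap_apply]
      simp only [this, Matrix.one_apply, Fin.succ_inj]
      rw [mul_comm]

theorem pathS_mul_self (n : ℕ) : pathS n * pathS n = 1 - pathP n := by
  ext i j
  obtain ⟨a, b⟩ := i
  obtain ⟨c, d⟩ := j
  rw [Matrix.sub_apply]
  refine Fin.cases ?_ (fun k => ?_) b
  · rw [pathS_mul_zero]
    refine Fin.cases ?_ (fun l => ?_) d
    · rw [pathP_apply_zero]
      by_cases h : a = c
      · subst h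
        rw [Matrix.one_apply_eq, Matrix.one_apply_eq, sub_self]
      · rw [Matrix.one_apply_ne h, Matrix.one_apply_ne (fun h' => h (congrArg Prod.fst h'))]
        ring
    · rw [pathP_apply_succ_right, Matrix.one_apply_ne]
      · ring
      · intro h
        exact Fin.succ_ne_zero _ (congrArg Prod.snd h).symm
  · rw [pathS_mul_succ, pathP_apply_succ_left, sub_zero]
    simp only [pathS, Matrix.of_apply, Matrix.one_apply, Prod.mk.injEq, Fin.succ_inj]
    by_cases h : a = c ∧ k.succ = d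
    · rw [if_pos h, if_pos ⟨h.1, h.2.symm⟩]
    · rw [if_neg h, if_neg (fun h' => h ⟨h'.1, h'.2.symm⟩)]

/-- the reparametrisation: `1` on `[0, 1/3]` and `0` on `[2/3, 1]` -/
noncomputable def pathR : C(unitInterval, unitInterval) where
  toFun t := Set.projIcc 0 1 zero_le_one (2 - 3 * (t : ℝ))
  continuous_toFun := by
    apply continuous_projIcc.comp
    fun_prop

theorem pathR_left {t : unitInterval} (ht : (t : ℝ) ≤ 1 / 3) : pathR t = 1 := by
  change Set.projIcc 0 1 zero_le_one (2 - 3 * (t : ℝ)) = 1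
  rw [Set.projIcc_of_right_le]
  · rfl
  · linarith

theorem pathR_right {t : unitInterval} (ht : 2 / 3 ≤ (t : ℝ)) : pathR t = 0 := by
  change Set.projIcc 0 1 zero_le_one (2 - 3 * (t : ℝ)) = 0
  rw [Set.projIcc_of_le_left]
  · rfl
  · linarith

/-- the angle -/
noncomputable def pathAngle (t : unitInterval) : ℝ := Real.pi / 2 * (1 - (pathR t : ℝ))

theorem pathAngle_continuous : Continuous pathAngle := by
  unfold pathAngle
  have := pathR.continuous
  fun_prop

/-- the unitary path -/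
noncomputable def pathU (n : ℕ) :
    C(unitInterval, Matrix (Fin n × Fin (n + 1)) (Fin n × Fin (n + 1)) ℂ) where
  toFun t := pathP n + ((Real.cos (pathAngle t) : ℝ) : ℂ) • (1 - pathP n)
    + (Complex.I * ((Real.sin (pathAngle t) : ℝ) : ℂ)) • pathS n
  continuous_toFun := by
    have := pathAngle_continuous
    fun_prop

theorem pathU_apply (n : ℕ) (t : unitInterval) : pathU n t =
    pathP n + ((Real.cos (pathAngle t) : ℝ) : ℂ) • (1 - pathP n)
    + (Complex.I * ((Real.sin (pathAngle t) : ℝ) : ℂ)) • pathS n := rfl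

theorem pathU_star_apply (n : ℕ) (t : unitInterval) : star (pathU n t) =
    pathP n + ((Real.cos (pathAngle t) : ℝ) : ℂ) • (1 - pathP n)
    + (-(Complex.I * ((Real.sin (pathAngle t) : ℝ) : ℂ))) • pathS n := by
  rw [pathU_apply, star_add, star_add, star_smul, star_smul, star_sub, star_one, pathP_star,
    pathS_star]
  congr 3
  · exact Complex.conj_ofReal _
  · rw [star_mul', Complex.star_def, Complex.conj_I, Complex.conj_ofReal]
    ring

theorem pathU_sq (t : unitInterval) :
    ((Real.cos (pathAngle t) : ℝ) : ℂ) * ((Real.cos (pathAngle t) : ℝ) : ℂ)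
      - (Complex.I * ((Real.sin (pathAngle t) : ℝ) : ℂ))
        * (Complex.I * ((Real.sin (pathAngle t) : ℝ) : ℂ)) = 1 := by
  have h1 : ((Real.cos (pathAngle t) : ℝ) : ℂ) * ((Real.cos (pathAngle t) : ℝ) : ℂ)
      + ((Real.sin (pathAngle t) : ℝ) : ℂ) * ((Real.sin (pathAngle t) : ℝ) : ℂ) = 1 := by
    rw [← Complex.ofReal_mul, ← Complex.ofReal_mul, ← Complex.ofReal_add]
    have := Real.cos_sq_add_sin_sq (pathAngle t)
    rw [← sq, ← sq, this, Complex.ofReal_one]
  have h2 : Complex.I * ((Real.sin (pathAngle t) : ℝ) : ℂ)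
        * (Complex.I * ((Real.sin (pathAngle t) : ℝ) : ℂ))
      = Complex.I * Complex.I *
        (((Real.sin (pathAngle t) : ℝ) : ℂ) * ((Real.sin (pathAngle t) : ℝ) : ℂ)) := by ring
  rw [h2, Complex.I_mul_I]
  linear_combination h1

theorem pathU_mul_star (n : ℕ) : pathU n * star (pathU n) = 1 := by
  ext1 t
  rw [ContinuousMap.mul_apply, ContinuousMap.star_apply, pathU_star_apply, pathU_apply]
  exact path_aux (pathP_mul_self n) (pathP_mul_pathS n) (pathS_mul_pathP n) (pathS_mul_self n)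
    _ _ (pathU_sq t)

theorem pathU_star_mul (n : ℕ) : star (pathU n) * pathU n = 1 := by
  ext1 t
  rw [ContinuousMap.mul_apply, ContinuousMap.star_apply, pathU_star_apply, pathU_apply]
  have h := path_aux (pathP_mul_self n) (pathP_mul_pathS n) (pathS_mul_pathP n)
    (pathS_mul_self n) ((Real.cos (pathAngle t) : ℝ) : ℂ)
    (-(Complex.I * ((Real.sin (pathAngle t) : ℝ) : ℂ))) (by
      rw [neg_mul_neg]
      exact pathU_sq t)
  rw [neg_neg] at h
  exact h

theorem pathU_left (n : ℕ) {t : unitInterval} (ht : (t : ℝ) ≤ 1 / 3) : pathU n t = 1 := by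
  have h : pathAngle t = 0 := by
    unfold pathAngle
    rw [pathR_left ht]
    simp
  rw [pathU_apply, h]
  simp

theorem pathU_right (n : ℕ) {t : unitInterval} (ht : 2 / 3 ≤ (t : ℝ)) :
    pathU n t = pathP n + Complex.I • pathS n ∧
      star (pathU n t) = pathP n + (-Complex.I) • pathS n := by
  have h : pathAngle t = Real.pi / 2 := by
    unfold pathAngle
    rw [pathR_right ht]
    simp
  rw [pathU_star_apply, pathU_apply, h]
  constructor <;> simp

theorem exists_path (n : ℕ) :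
    ∃ Λ : dimDrop n (n + 1) →⋆ₐ[ℂ]
        C(unitInterval, Matrix (Fin n × Fin (n + 1)) (Fin n × Fin (n + 1)) ℂ),
      ∀ (f : dimDrop n (n + 1)) (m : Matrix (Fin n) (Fin n) ℂ)
        (x : Matrix (Fin (n + 1)) (Fin (n + 1)) ℂ),
        (f : C(unitInterval, Matrix (Fin n × Fin (n + 1)) (Fin n × Fin (n + 1)) ℂ)) 0 =
          kroneckerMap (· * ·) m 1 →
        (f : C(unitInterval, Matrix (Fin n × Fin (n + 1)) (Fin n × Fin (n + 1)) ℂ)) 1 =
          kroneckerMap (· * ·) 1 x →
        (∀ t : unitInterval, (t : ℝ) ≤ 1 / 3 → Λ f t = kroneckerMap (· * ·) 1 x) ∧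
        (∀ t : unitInterval, 2 / 3 ≤ (t : ℝ) → Λ f t =
          kroneckerMap (· * ·) m (Matrix.single 0 0 1) + kroneckerMap (· * ·) 1 (embSucc m)) := by
  refine ⟨((pathConj (pathU n) (pathU_star_mul n) (pathU_mul_star n)).comp
    (ContinuousMap.compStarAlgHom' ℂ _ pathR)).comp (dimDrop n (n + 1)).subtype, ?_⟩
  intro f m x hm hx
  have happ : ∀ t : unitInterval,
      (((pathConj (pathU n) (pathU_star_mul n) (pathU_mul_star n)).comp
        (ContinuousMap.compStarAlgHom' ℂ _ pathR)).comp (dimDrop n (n + 1)).subtype) f t =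
      star (pathU n t) *
        (f : C(unitInterval, Matrix (Fin n × Fin (n + 1)) (Fin n × Fin (n + 1)) ℂ)) (pathR t) *
        pathU n t := fun t => rfl
  refine ⟨fun t ht => ?_, fun t ht => ?_⟩
  · rw [happ, pathU_left n ht, pathR_left ht, hx, star_one, one_mul, mul_one]
  · rw [happ, pathR_right ht, hm, (pathU_right n ht).2, (pathU_right n ht).1]
    set X := kroneckerMap (· * ·) m (1 : Matrix (Fin (n + 1)) (Fin (n + 1)) ℂ) with hX
    have e1 : X * pathP n = kroneckerMap (· * ·) m (Matrix.single 0 0 1) := by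
      rw [hX]
      unfold pathP
      rw [← mul_kronecker_mul, mul_one, one_mul]
    have e2 : pathP n * X = X * pathP n := by
      rw [e1, hX]
      unfold pathP
      rw [← mul_kronecker_mul, mul_one, one_mul]
    have e3 : pathS n * X * pathS n = kroneckerMap (· * ·) 1 (embSucc m) := pathS_conj m
    have e4 : pathP n * X * pathS n = 0 := by
      rw [e2, mul_assoc, pathP_mul_pathS, mul_zero]
    have e5 : pathS n * X * pathP n = 0 := by
      rw [mul_assoc, ← e2, ← mul_assoc, pathS_mul_pathP, zero_mul]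
    have e6 : pathP n * X * pathP n = X * pathP n := by
      rw [e2, mul_assoc, pathP_mul_self]
    rw [← e1, ← e3]
    simp only [add_mul, mul_add, smul_mul_assoc, mul_smul_comm, e4, e5, e6, smul_zero, add_zero,
      zero_add, smul_smul, mul_neg, Complex.I_mul_I, neg_neg, one_smul]

end P101
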