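import Vale.Agent.Lib.P101.DropRho
import Vale.Agent.Lib.P101.DropPath

/-!
# A unital *-homomorphism from `I(n, n+1)`

Let `φ : M_n → F` be an order zero map, `h = φ(1)`, `s ∈ F` with `s* s = 1 - h` and
`φ(e_00) s = s`.  Then there is a unital *-homomorphism `dimDrop n (n+1) → F`.

**Relations.**  `0 ≤ h ≤ 1` (`1 - h = s* s ≥ 0`); `h s = s` (`h s = h φ(e_00) s = φ(e_00)² s = s`).
`ρ : scalarNear n → F` from `exists_rho`.  Put `s_0 = ρ((1-t)^{1/2} 1)` (selfadjoint) and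
`s_{j+1} = φ(e_{j0}) s` for `j : Fin n`; so `s_a`, `a : Fin (n+1)`.  Then
* (R1) `s_a* s_b = δ_ab (1 - h)`:
  `s_0² = ρ((1-t) 1) = 1 - h`;
  `s_{j+1}* s_{k+1} = s* φ(e_0j) φ(e_k0) s = δ_jk s* h φ(e_00) s = δ_jk s* s`;
  `s_0 s_{j+1} = ρ((1-t)^{1/2} 1) φ(e_j0) s = φ(0) s = 0` by (b) of `exists_rho` with `y = s`;
* (R2) `ρ(q) s_{j+1} = φ(q(1) e_j0) s = ∑_k q(1)_kj s_{k+1}` (again (b)),
  `ρ(q) s_0 = s_0 ρ(q)` (scalar functions are central in `scalarNear n`).

**The homomorphism.**  `Λ` from `exists_path`, `τ(t) = min 1 (max 0 (3t-1))`,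
`w(t) = 1/max(1-t, 1/3)`.  For `f ∈ dimDrop n (n+1)`, `f(0) = m ⊗ 1`
(`m_ij = f(0) (i,0) (j,0)`), `f(1) = 1 ⊗ x`, put `f^(t) = τ(t) m ⊗ E_00 + 1 ⊗ embSucc m` and
`G = Λ f - f^`.  `G = 0` on `[2/3, 1]`, and `G = 1 ⊗ (x - embSucc m)` on `[0, 1/3]`, so the block
`G_ab : [0,1] → M_n`, `(G_ab)_ij = G (i,a) (j,b)` is in `scalarNear n`.
`Ξ(f) = ∑_{ab} s_a ρ(w G_ab) s_b* + ρ(τ m)`   (`τ m ∈ scalarNear n` as `τ = 0` on `[0,1/3]`).

**Verification.**  Let `Θ(G) = ∑_{ab} s_a ρ(w G_ab) s_b*` for `G` continuous, `0` on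
`[2/3,1]` and with all blocks in `scalarNear n`.  By (R1)
`Θ(G) Θ(G') = ∑_{abd} s_a ρ(w G_ab) (1-h) ρ(w G'_bd) s_d* = ∑_{abd} s_a ρ(w G_ab G'_bd) s_d* = Θ(G G')`
(`w (1-t) = 1` for `t ≤ 2/3` and `G = 0` for `t ≥ 2/3`, so `w (1-t) w G_ab G'_bd = w G_ab G'_bd`),
`Θ(G)* = Θ(G*)`.  By (R2) with `q = τ m`, `q(1) = m`:
`ρ(τ m) Θ(G) = Θ(f^ G)` and, taking adjoints, `Θ(G) ρ(τ m) = Θ(G f^)`, where
`f^ = τ m ⊗ E_00 + 1 ⊗ embSucc m`: `(f^ G)_{0b} = τ m G_0b`,
`(f^ G)_{k+1,b} = ∑_j m_kj G_{j+1,b}`.  Finally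
`ρ(τ m) ρ(τ m') - ρ(τ m m') = ρ((τ² - τ) m m') = Θ((τ² - τ) m m' ⊗ E_00)`
(since `s_0 ρ(w q) s_0 = ρ((1-t) w q) = ρ(q)` when `q = 0` on `[2/3,1]`), which is exactly
`Θ(f^ g^ - (fg)^)`, where `(fg)^ = τ m m' ⊗ E_00 + 1 ⊗ embSucc (m m')`.
Hence `Ξ(f) Ξ(g) = Θ(F G' + F g^ + f^ G' + f^ g^ - (fg)^) + ρ(τ m m') = Ξ(f g)`
(`F = Λ f - f^`, `G' = Λ g - g^`).  `Ξ(1) = 1`: `Λ 1 = 1`, `m = 1`,
`f^ = τ 1 ⊗ E_00 + 1 ⊗ (1 - E_00)`, `G = (1-τ) 1 ⊗ E_00`, `Θ(G) = ρ((1-τ) 1)`, `ρ(τ 1)`; sum `1`.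
-/

open scoped ENNReal Topology
open Filter Matrix

namespace P101

attribute [local instance] CStarAlgebra.spectralOrder CStarAlgebra.spectralOrderedRing

universe u

section Abs

variable {F : Type*} [Ring F] [StarRing F] [Algebra ℂ F] [StarModule ℂ F]
variable {Q : Type*} [Ring Q] [StarRing Q] [Algebra ℂ Q] [StarModule ℂ Q]
variable {ι : Type*} [Fintype ι] [DecidableEq ι]

/-- entrywise application -/
def Rm (ρ : Q →⋆ₐ[ℂ] F) (X : Matrix ι ι Q) : Matrix ι ι F := X.map ρ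

theorem Rm_mul (ρ : Q →⋆ₐ[ℂ] F) (X Y : Matrix ι ι Q) : Rm ρ (X * Y) = Rm ρ X * Rm ρ Y := by
  ext i j
  simp [Rm, Matrix.mul_apply]

theorem Rm_add (ρ : Q →⋆ₐ[ℂ] F) (X Y : Matrix ι ι Q) : Rm ρ (X + Y) = Rm ρ X + Rm ρ Y := by
  ext i j
  simp [Rm]

theorem Rm_star (ρ : Q →⋆ₐ[ℂ] F) (X : Matrix ι ι Q) : Rm ρ Xᴴ = (Rm ρ X)ᴴ := by
  ext i j
  simp [Rm, Matrix.conjTranspose_apply, map_star]

theorem Rm_smul (ρ : Q →⋆ₐ[ℂ] F) (z : ℂ) (X : Matrix ι ι Q) : Rm ρ (z • X) = z • Rm ρ X := by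
  ext i j
  simp [Rm]

/-- the map `Θ` -/
def Th (ρ : Q →⋆ₐ[ℂ] F) (S : Matrix Unit ι F) (w : Q) (X : Matrix ι ι Q) : F :=
  (S * Rm ρ (w • X) * Sᴴ) () ()

variable (ρ : Q →⋆ₐ[ℂ] F) (S : Matrix Unit ι F) (w : Q)

theorem Th_add (X Y : Matrix ι ι Q) : Th ρ S w (X + Y) = Th ρ S w X + Th ρ S w Y := by
  simp only [Th, smul_add, Rm_add, Matrix.mul_add, Matrix.add_mul, Matrix.add_apply]

theorem Th_smul (z : ℂ) (X : Matrix ι ι Q) : Th ρ S w (z • X) = z • Th ρ S w X := by
  simp only [Th, smul_comm w z X, Rm_smul, Matrix.mul_smul, Matrix.smul_mul, Matrix.smul_apply]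

theorem mul_central_smul (hw : ∀ x, w * x = x * w) (X Y : Matrix ι ι Q) :
    X * (w • Y) = w • (X * Y) := by
  ext i j
  simp only [Matrix.mul_apply, Matrix.smul_apply, smul_eq_mul, Finset.mul_sum]
  refine Finset.sum_congr rfl fun k _ => ?_
  rw [← mul_assoc, ← mul_assoc, hw]

theorem Th_star (hw : ∀ x, w * x = x * w) (hws : star w = w) (X : Matrix ι ι Q) :
    Th ρ S w Xᴴ = star (Th ρ S w X) := by
  have h1 : (w • X)ᴴ = w • Xᴴ := by
    ext i j
    simp only [Matrix.conjTranspose_apply, Matrix.smul_apply, smul_eq_mul, star_mul, hws, hw]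
  have h2 : (S * Rm ρ (w • X) * Sᴴ)ᴴ = S * Rm ρ (w • Xᴴ) * Sᴴ := by
    rw [Matrix.conjTranspose_mul, Matrix.conjTranspose_mul, Matrix.conjTranspose_conjTranspose,
      ← Rm_star, h1, Matrix.mul_assoc]
  exact (congrFun (congrFun h2 ()) ()).symm

theorem Th_mul (hw : ∀ x, w * x = x * w) (e : Q) (he : ∀ x, e * x = x * e)
    (hS : Sᴴ * S = Rm ρ (e • (1 : Matrix ι ι Q))) (X Y : Matrix ι ι Q)
    (hY : (w * e) • Y = Y) : Th ρ S w (X * Y) = Th ρ S w X * Th ρ S w Y := by
  have h1 : Th ρ S w X * Th ρ S w Y =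
      ((S * Rm ρ (w • X) * Sᴴ) * (S * Rm ρ (w • Y) * Sᴴ)) () () := by
    rw [Matrix.mul_apply]
    simp [Th]
  have h2 : (S * Rm ρ (w • X) * Sᴴ) * (S * Rm ρ (w • Y) * Sᴴ) =
      S * Rm ρ (w • X * (e • (1 : Matrix ι ι Q)) * (w • Y)) * Sᴴ := by
    rw [Rm_mul, Rm_mul, ← hS]
    simp only [Matrix.mul_assoc]
  have h3 : w • X * (e • (1 : Matrix ι ι Q)) * (w • Y) = w • (X * Y) := by
    rw [Matrix.mul_assoc, Matrix.smul_mul e, one_mul, smul_smul, he w, hY, Matrix.smul_mul]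
  rw [h1, h2, h3]
  rfl

theorem Th_left (hw : ∀ x, w * x = x * w) (L : Q →⋆ₐ[ℂ] Matrix ι ι Q)
    (hL : ∀ q, ρ q • S = S * Rm ρ (L q)) (q : Q) (X : Matrix ι ι Q) :
    ρ q * Th ρ S w X = Th ρ S w (L q * X) := by
  have h1 : ρ q * Th ρ S w X = ((ρ q • S) * Rm ρ (w • X) * Sᴴ) () () := by
    rw [Matrix.smul_mul, Matrix.smul_mul, Matrix.smul_apply]
    rfl
  rw [h1, hL, Th, ← mul_central_smul w hw, Rm_mul]
  simp only [Matrix.mul_assoc]

theorem Th_right (hw : ∀ x, w * x = x * w) (hws : star w = w) (L : Q →⋆ₐ[ℂ] Matrix ι ι Q)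
    (hL : ∀ q, ρ q • S = S * Rm ρ (L q)) (q : Q) (X : Matrix ι ι Q) :
    Th ρ S w X * ρ q = Th ρ S w (X * L q) := by
  have h1 := Th_left ρ S w hw L hL (star q) Xᴴ
  have h2 := congrArg star h1
  rw [star_mul, Th_star ρ S w hw hws, star_star, map_star, star_star] at h2
  rw [h2, ← Th_star ρ S w hw hws, Matrix.conjTranspose_mul, Matrix.conjTranspose_conjTranspose]
  congr 2
  have h3 : L (star q) = (L q)ᴴ := by
    rw [map_star]; rfl
  rw [h3, Matrix.conjTranspose_conjTranspose]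

theorem exists_hom_of_data {A₀ : Type*} [Semiring A₀] [Algebra ℂ A₀] [Star A₀]
    (hw : ∀ x, w * x = x * w) (hws : star w = w) (e : Q) (he : ∀ x, e * x = x * e)
    (hes : star e = e)
    (hS : Sᴴ * S = Rm ρ (e • (1 : Matrix ι ι Q))) (L : Q →⋆ₐ[ℂ] Matrix ι ι Q)
    (hL : ∀ q, ρ q • S = S * Rm ρ (L q))
    (hker : ∀ p, (w * e) • L p = L p → Th ρ S w (L p) = ρ p)
    (X : A₀ →⋆ₐ[ℂ] Matrix ι ι Q)
    (hX : ∀ f, ∃ q, (w * e) • (X f - L q) = X f - L q) : Nonempty (A₀ →⋆ₐ[ℂ] F) := by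
  have hTmul := Th_mul ρ S w hw e he hS
  have hTl := Th_left ρ S w hw L hL
  have hTr := Th_right ρ S w hw hws L hL
  have hTs := Th_star ρ S w hw hws
  have hcen : ∀ x, (w * e) * x = x * (w * e) := by
    intro x
    rw [mul_assoc, he, ← mul_assoc, hw, mul_assoc]
  have hcs : star (w * e) = w * e := by
    rw [star_mul, hws, hes, he]
  choose q hq using hX
  -- the value does not depend on the choice
  have hind : ∀ f p, (w * e) • (X f - L p) = X f - L p →
      Th ρ S w (X f - L p) + ρ p = Th ρ S w (X f - L (q f)) + ρ (q f) := by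
    intro f p hp
    have h1 : (w * e) • L (q f - p) = L (q f - p) := by
      have h2 : L (q f - p) = (X f - L p) - (X f - L (q f)) := by
        rw [map_sub]; abel
      rw [h2, smul_sub, hp, hq f]
    have h3 := hker _ h1
    have h4 : X f - L p = (X f - L (q f)) + L (q f - p) := by
      rw [map_sub]; abel
    rw [h4, Th_add, h3, map_sub]
    abel
  have hadd : ∀ f g, (w * e) • (X (f + g) - L (q f + q g)) = X (f + g) - L (q f + q g) := by
    intro f g
    have h2 : X (f + g) - L (q f + q g) = (X f - L (q f)) + (X g - L (q g)) := by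
      rw [map_add, map_add]; abel
    rw [h2, smul_add, hq f, hq g]
  have hmul : ∀ f g, (w * e) • (X (f * g) - L (q f * q g)) = X (f * g) - L (q f * q g) := by
    intro f g
    have h2 : X (f * g) - L (q f * q g) = (X f - L (q f)) * X g + L (q f) * (X g - L (q g)) := by
      rw [map_mul, map_mul]; noncomm_ring
    rw [h2, smul_add, ← Matrix.smul_mul, hq f, ← mul_central_smul _ hcen, hq g]
  have hsmul : ∀ (z : ℂ) f, (w * e) • (X (z • f) - L (z • q f)) = X (z • f) - L (z • q f) := by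
    intro z f
    have h2 : X (z • f) - L (z • q f) = z • (X f - L (q f)) := by
      rw [map_smul, map_smul, smul_sub]
    rw [h2, smul_comm, hq f]
  have hstar : ∀ f, (w * e) • (X (star f) - L (star (q f))) = X (star f) - L (star (q f)) := by
    intro f
    have h2 : X (star f) - L (star (q f)) = (X f - L (q f))ᴴ := by
      rw [map_star, map_star]; exact (star_sub _ _).symm
    have h3 : (w * e) • (X f - L (q f))ᴴ = ((w * e) • (X f - L (q f)))ᴴ := by
      ext i j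
      change (w * e) * star ((X f - L (q f)) j i) = star ((w * e) * (X f - L (q f)) j i)
      rw [star_mul, hcs, hcen]
    rw [h2, h3, hq f]
  have hone : (w * e) • (X 1 - L 1) = X 1 - L 1 := by
    rw [map_one, map_one, sub_self, smul_zero]
  have Th_zero : Th ρ S w 0 = 0 := by
    have := Th_add ρ S w 0 0
    rw [add_zero] at this
    exact left_eq_add.1 this
  refine ⟨{ toFun := fun f => Th ρ S w (X f - L (q f)) + ρ (q f)
            map_one' := ?_
            map_mul' := ?_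
            map_zero' := ?_
            map_add' := ?_
            commutes' := ?_
            map_star' := ?_ }⟩
  · rw [← hind 1 1 hone, map_one, map_one, sub_self, Th_zero, zero_add, map_one]
  · intro f g
    change Th ρ S w (X (f * g) - L (q (f * g))) + ρ (q (f * g)) = _
    rw [← hind _ _ (hmul f g)]
    have h2 : X (f * g) - L (q f * q g) = (X f - L (q f)) * (X g - L (q g)) +
        L (q f) * (X g - L (q g)) + (X f - L (q f)) * L (q g) := by
      rw [map_mul, map_mul]; noncomm_ring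
    rw [h2, Th_add, Th_add, hTmul _ _ (hq g), ← hTl, ← hTr, map_mul]
    noncomm_ring
  · have h0 : (w * e) • (X 0 - L 0) = X 0 - L 0 := by
      rw [map_zero, map_zero, sub_self, smul_zero]
    change Th ρ S w (X 0 - L (q 0)) + ρ (q 0) = 0
    rw [← hind 0 0 h0, map_zero, map_zero, sub_self, Th_zero, zero_add, map_zero]
  · intro f g
    change Th ρ S w (X (f + g) - L (q (f + g))) + ρ (q (f + g)) = _
    rw [← hind _ _ (hadd f g)]
    have h2 : X (f + g) - L (q f + q g) = (X f - L (q f)) + (X g - L (q g)) := by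
      rw [map_add, map_add]; abel
    rw [h2, Th_add, map_add]
    abel
  · intro z
    change Th ρ S w (X (algebraMap ℂ A₀ z) - L (q (algebraMap ℂ A₀ z))) +
      ρ (q (algebraMap ℂ A₀ z)) = _
    have h0 : (w * e) • (X (algebraMap ℂ A₀ z) - L (algebraMap ℂ Q z)) =
        X (algebraMap ℂ A₀ z) - L (algebraMap ℂ Q z) := by
      rw [AlgHomClass.commutes, AlgHomClass.commutes, sub_self, smul_zero]
    rw [← hind _ _ h0, AlgHomClass.commutes, AlgHomClass.commutes, AlgHomClass.commutes,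
      sub_self, Th_zero, zero_add]
  · intro f
    change Th ρ S w (X (star f) - L (q (star f))) + ρ (q (star f)) = _
    rw [← hind _ _ (hstar f)]
    have h2 : X (star f) - L (star (q f)) = (X f - L (q f))ᴴ := by
      rw [map_star, map_star]; exact (star_sub _ _).symm
    change _ = star (Th ρ S w (X f - L (q f)) + ρ (q f))
    rw [h2, hTs, map_star, star_add]

theorem exists_hom_of_data' {A₀ : Type*} [Semiring A₀] [Algebra ℂ A₀] [Star A₀]
    (S : ι → F)
    (hw : ∀ x, w * x = x * w) (hws : star w = w) (e : Q) (he : ∀ x, e * x = x * e)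
    (hes : star e = e)
    (hS : ∀ a b, star (S a) * S b = if a = b then ρ e else 0)
    (L : Q →⋆ₐ[ℂ] Matrix ι ι Q)
    (hL : ∀ q a, ρ q * S a = ∑ b, S b * ρ (L q b a))
    (hker : ∀ p, (∀ a b, (w * e) * L p a b = L p a b) →
      ∑ b, (∑ a, S a * ρ (w * L p a b)) * star (S b) = ρ p)
    (X : A₀ →⋆ₐ[ℂ] Matrix ι ι Q)
    (hX : ∀ f, ∃ q, ∀ a b, (w * e) * (X f a b - L q a b) = X f a b - L q a b) :
    Nonempty (A₀ →⋆ₐ[ℂ] F) := by
  refine exists_hom_of_data ρ (Matrix.of fun _ a => S a) w hw hws e he hes ?_ L ?_ ?_ X ?_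
  · ext a b
    rw [Matrix.mul_apply]
    change ∑ u : Unit, star (S a) * S b = ρ (e * (1 : Matrix ι ι Q) a b)
    rw [Fintype.sum_unique, hS]
    by_cases h : a = b
    · rw [if_pos h, h, Matrix.one_apply_eq, mul_one]
    · rw [if_neg h, Matrix.one_apply_ne h, mul_zero, map_zero]
  · intro q
    ext u a
    exact hL q a
  · intro p hp
    exact hker p fun a b => congrFun (congrFun hp a) b
  · intro f
    obtain ⟨q, hq⟩ := hX f
    refine ⟨q, ?_⟩
    ext a b
    exact hq a b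

end Abs

section Conc

variable {n : ℕ}

/-- the algebra `scalarNear n` as a type -/
def Qn (n : ℕ) : Type := ↥(scalarNear n)

noncomputable instance : Ring (Qn n) := inferInstanceAs (Ring ↥(scalarNear n))
noncomputable instance : StarRing (Qn n) := inferInstanceAs (StarRing ↥(scalarNear n))
noncomputable instance : Algebra ℂ (Qn n) := inferInstanceAs (Algebra ℂ ↥(scalarNear n))
instance : StarModule ℂ (Qn n) := inferInstanceAs (StarModule ℂ ↥(scalarNear n))

/-- the underlying function -/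
def Qn.fn (q : Qn n) : C(unitInterval, Matrix (Fin n) (Fin n) ℂ) :=
  (show ↥(scalarNear n) from q).1

/-- scalar functions as elements of `Qn n` -/
noncomputable def csf (n : ℕ) (r : C(unitInterval, ℂ)) : Qn n :=
  ⟨scalarFun n r, scalarFun_mem n r⟩

/-- evaluation -/
noncomputable def evs (n : ℕ) (t : unitInterval) :
    Qn n →⋆ₐ[ℂ] Matrix (Fin n) (Fin n) ℂ where
  toFun q := q.fn t
  map_one' := rfl
  map_mul' := fun _ _ => rfl
  map_zero' := rfl
  map_add' := fun _ _ => rfl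
  commutes' := fun _ => rfl
  map_star' := fun _ => rfl

theorem evs_apply (t : unitInterval) (q : Qn n) :
    evs n t q = q.fn t := rfl

theorem evs_ext {q q' : Qn n} (h : ∀ t, evs n t q = evs n t q') : q = q' := by
  apply Subtype.ext
  ext1 t
  exact h t

theorem evs_csf (r : C(unitInterval, ℂ)) (t : unitInterval) : evs n t (csf n r) = r t • 1 := rfl

theorem csf_central (r : C(unitInterval, ℂ)) (x : Qn n) : csf n r * x = x * csf n r := by
  refine evs_ext fun t => ?_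
  rw [map_mul, map_mul, evs_csf, smul_mul_assoc, mul_smul_comm, one_mul, mul_one]

theorem csf_mul (r r' : C(unitInterval, ℂ)) : csf n (r * r') = csf n r * csf n r' := by
  refine evs_ext fun t => ?_
  rw [map_mul, evs_csf, evs_csf, evs_csf, smul_mul_smul_comm, one_mul, ContinuousMap.mul_apply]

theorem csf_star (r : C(unitInterval, ℂ)) : star (csf n r) = csf n (star r) := by
  refine evs_ext fun t => ?_
  rw [map_star, evs_csf, evs_csf, star_smul, star_one, ContinuousMap.star_apply]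

/-- real functions -/
noncomputable def rfn (g : C(unitInterval, ℝ)) : C(unitInterval, ℂ) where
  toFun t := ((g t : ℝ) : ℂ)
  continuous_toFun := by fun_prop

theorem csf_real_star (g : C(unitInterval, ℝ)) : star (csf n (rfn g)) = csf n (rfn g) := by
  rw [csf_star]
  congr 1
  ext t
  simp [rfn]

/-- `w(t) = 1/max(1-t, 1/3)` -/
noncomputable def wR : C(unitInterval, ℝ) where
  toFun t := (max (1 - (t : ℝ)) (1 / 3))⁻¹
  continuous_toFun := by
    refine Continuous.inv₀ (by fun_prop) fun t => ?_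
    have : (0 : ℝ) < max (1 - (t : ℝ)) (1 / 3) := lt_max_of_lt_right (by norm_num)
    exact this.ne'

/-- `e(t) = 1 - t` -/
noncomputable def eR : C(unitInterval, ℝ) where
  toFun t := 1 - (t : ℝ)
  continuous_toFun := by fun_prop

/-- `√(1 - t)` -/
noncomputable def sR : C(unitInterval, ℝ) where
  toFun t := Real.sqrt (1 - (t : ℝ))
  continuous_toFun := by fun_prop

/-- `τ(t) = min 1 (max 0 (3t-1))` -/
noncomputable def tauR : C(unitInterval, ℝ) where
  toFun t := min 1 (max 0 (3 * (t : ℝ) - 1))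
  continuous_toFun := by fun_prop

/-- the *-homomorphism `L q = q E_00 + 1 ⊗ embSucc (q 1)` -/
noncomputable def Lfun (n : ℕ) (q : Qn n) :
    Matrix (Fin (n + 1)) (Fin (n + 1)) (Qn n) :=
  Matrix.of fun a b => Fin.cases (Fin.cases q (fun _ => 0) b)
    (fun k => Fin.cases 0 (fun j => algebraMap ℂ (Qn n) (evs n 1 q k j)) b) a

theorem Lfun_zero_zero (q : Qn n) : Lfun n q 0 0 = q := rfl
theorem Lfun_zero_succ (q : Qn n) (j : Fin n) : Lfun n q 0 j.succ = 0 := rfl
theorem Lfun_succ_zero (q : Qn n) (k : Fin n) : Lfun n q k.succ 0 = 0 := rfl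
theorem Lfun_succ_succ (q : Qn n) (k j : Fin n) :
    Lfun n q k.succ j.succ = algebraMap ℂ (Qn n) (evs n 1 q k j) := rfl

noncomputable def Lhom (n : ℕ) : Qn n →⋆ₐ[ℂ] Matrix (Fin (n + 1)) (Fin (n + 1)) (Qn n) where
  toFun := Lfun n
  map_one' := by
    ext1 a b
    refine Fin.cases ?_ (fun k => ?_) a <;> refine Fin.cases ?_ (fun j => ?_) b
    · rfl
    · rw [Lfun_zero_succ, Matrix.one_apply_ne (Fin.succ_ne_zero j).symm]
    · rw [Lfun_succ_zero, Matrix.one_apply_ne (Fin.succ_ne_zero k)]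
    · rw [Lfun_succ_succ, map_one, Matrix.one_apply, Matrix.one_apply]
      by_cases h : k = j
      · rw [if_pos h, if_pos (by rw [h]), map_one]
      · rw [if_neg h, if_neg (fun hh => h (Fin.succ_injective _ hh)), map_zero]
  map_mul' := by
    intro x y
    ext1 a b
    rw [Matrix.mul_apply, Fin.sum_univ_succ]
    refine Fin.cases ?_ (fun k => ?_) a <;> refine Fin.cases ?_ (fun j => ?_) b
    · simp only [Lfun_zero_zero, Lfun_zero_succ, zero_mul, Finset.sum_const_zero, add_zero]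
    · simp only [Lfun_zero_zero, Lfun_zero_succ, zero_mul, mul_zero, Finset.sum_const_zero, add_zero]
    · simp only [Lfun_succ_zero, zero_mul, mul_zero, Finset.sum_const_zero, add_zero]
    · simp only [Lfun_succ_succ, Lfun_succ_zero, zero_mul, zero_add, map_mul, Matrix.mul_apply,
        map_sum]
  map_zero' := by
    ext1 a b
    refine Fin.cases ?_ (fun k => ?_) a <;> refine Fin.cases ?_ (fun j => ?_) b
    · rfl
    · rfl
    · rfl
    · rw [Lfun_succ_succ, map_zero, Matrix.zero_apply, map_zero, Matrix.zero_apply]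
  map_add' := by
    intro x y
    ext1 a b
    rw [Matrix.add_apply]
    refine Fin.cases ?_ (fun k => ?_) a <;> refine Fin.cases ?_ (fun j => ?_) b
    · rfl
    · simp only [Lfun_zero_succ, add_zero]
    · simp only [Lfun_succ_zero, add_zero]
    · simp only [Lfun_succ_succ, map_add, Matrix.add_apply]
  commutes' := by
    intro z
    ext1 a b
    rw [Matrix.algebraMap_matrix_apply]
    refine Fin.cases ?_ (fun k => ?_) a <;> refine Fin.cases ?_ (fun j => ?_) b
    · rfl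
    · rw [Lfun_zero_succ, if_neg (Fin.succ_ne_zero j).symm]
    · rw [Lfun_succ_zero, if_neg (Fin.succ_ne_zero k)]
    · rw [Lfun_succ_succ, AlgHomClass.commutes, Matrix.algebraMap_matrix_apply]
      by_cases h : k = j
      · rw [if_pos h, if_pos (by rw [h])]; rfl
      · rw [if_neg h, if_neg (fun hh => h (Fin.succ_injective _ hh)), map_zero]
  map_star' := by
    intro x
    ext1 a b
    rw [Matrix.star_apply]
    refine Fin.cases ?_ (fun k => ?_) a <;> refine Fin.cases ?_ (fun j => ?_) b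
    · rfl
    · rw [Lfun_zero_succ, Lfun_succ_zero, star_zero]
    · rw [Lfun_zero_succ, Lfun_succ_zero, star_zero]
    · rw [Lfun_succ_succ, Lfun_succ_succ, map_star, Matrix.star_apply,
        ← algebraMap_star_comm]

/-- the block `(a, b)` -/
noncomputable def blk
    (G : C(unitInterval, Matrix (Fin n × Fin (n + 1)) (Fin n × Fin (n + 1)) ℂ))
    (a b : Fin (n + 1)) : C(unitInterval, Matrix (Fin n) (Fin n) ℂ) where
  toFun t := Matrix.of fun i j => G t (i, a) (j, b)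
  continuous_toFun := by
    refine continuous_matrix fun i j => ?_
    exact G.continuous.matrix_elem (i, a) (j, b)

/-- the blocks of a *-homomorphism -/
noncomputable def Xhom {A₀ : Type*} [Semiring A₀] [Algebra ℂ A₀] [Star A₀]
    (Λ : A₀ →⋆ₐ[ℂ] C(unitInterval, Matrix (Fin n × Fin (n + 1)) (Fin n × Fin (n + 1)) ℂ))
    (h : ∀ f a b, blk (Λ f) a b ∈ scalarNear n) :
    A₀ →⋆ₐ[ℂ] Matrix (Fin (n + 1)) (Fin (n + 1)) (Qn n) where
  toFun f := Matrix.of fun a b => ⟨blk (Λ f) a b, h f a b⟩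
  map_one' := by
    ext1 a b
    refine evs_ext fun t => ?_
    ext i j
    change Λ 1 t (i, a) (j, b) = _
    rw [map_one, Matrix.one_apply, ContinuousMap.one_apply, Matrix.one_apply]
    by_cases hab : a = b
    · subst hab
      rw [if_pos rfl, map_one, Matrix.one_apply]
      simp
    · rw [if_neg hab, map_zero, if_neg (by simp [hab])]
      rfl
  map_mul' := by
    intro f g
    ext1 a b
    refine evs_ext fun t => ?_
    ext i j
    rw [Matrix.mul_apply, map_sum, Matrix.sum_apply]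
    change Λ (f * g) t (i, a) (j, b) = _
    rw [map_mul, ContinuousMap.mul_apply, Matrix.mul_apply, Fintype.sum_prod_type,
      Finset.sum_comm]
    refine Finset.sum_congr rfl fun c _ => ?_
    rw [map_mul, Matrix.mul_apply]
    rfl
  map_zero' := by
    ext1 a b
    refine evs_ext fun t => ?_
    ext i j
    change Λ 0 t (i, a) (j, b) = _
    rw [map_zero]
    rfl
  map_add' := by
    intro f g
    ext1 a b
    refine evs_ext fun t => ?_
    ext i j
    change Λ (f + g) t (i, a) (j, b) = _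
    rw [map_add]
    rfl
  commutes' := by
    intro z
    ext1 a b
    refine evs_ext fun t => ?_
    ext i j
    change Λ (algebraMap ℂ A₀ z) t (i, a) (j, b) = _
    rw [AlgHomClass.commutes, Matrix.algebraMap_matrix_apply]
    change algebraMap ℂ (Matrix (Fin n × Fin (n + 1)) (Fin n × Fin (n + 1)) ℂ) z (i, a) (j, b) = _
    rw [Matrix.algebraMap_matrix_apply]
    by_cases hab : a = b
    · subst hab
      rw [if_pos rfl, AlgHomClass.commutes, Matrix.algebraMap_matrix_apply]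
      simp
    · rw [if_neg hab, map_zero, if_neg (by simp [hab])]
      rfl
  map_star' := by
    intro f
    ext1 a b
    refine evs_ext fun t => ?_
    ext i j
    change Λ (star f) t (i, a) (j, b) = _
    rw [map_star]
    rfl

theorem Xhom_apply {A₀ : Type*} [Semiring A₀] [Algebra ℂ A₀] [Star A₀]
    (Λ : A₀ →⋆ₐ[ℂ] C(unitInterval, Matrix (Fin n × Fin (n + 1)) (Fin n × Fin (n + 1)) ℂ))
    (h : ∀ f a b, blk (Λ f) a b ∈ scalarNear n) (f : A₀) (t : unitInterval)
    (a b : Fin (n + 1)) (i j : Fin n) :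
    evs n t (Xhom Λ h f a b) i j = Λ f t (i, a) (j, b) := rfl

theorem wR_mul_eR (t : unitInterval) (ht : (t : ℝ) ≤ 2 / 3) : rfn wR t * rfn eR t = 1 := by
  have h1 : max (1 - (t : ℝ)) (1 / 3) = 1 - (t : ℝ) := max_eq_left (by linarith)
  have h2 : (1 : ℝ) - t ≠ 0 := by
    have : (0 : ℝ) < 1 - t := by linarith
    exact this.ne'
  have h3 : wR t * eR t = 1 := by
    change (max (1 - (t : ℝ)) (1 / 3))⁻¹ * (1 - (t : ℝ)) = 1
    rw [h1, inv_mul_cancel₀ h2]
  change ((wR t : ℝ) : ℂ) * ((eR t : ℝ) : ℂ) = 1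
  rw [← Complex.ofReal_mul, h3, Complex.ofReal_one]

theorem sR_mul_sR : (rfn sR * rfn sR : C(unitInterval, ℂ)) = rfn eR := by
  ext t
  rw [ContinuousMap.mul_apply]
  change ((Real.sqrt (1 - (t : ℝ)) : ℝ) : ℂ) * ((Real.sqrt (1 - (t : ℝ)) : ℝ) : ℂ) =
    ((1 - (t : ℝ) : ℝ) : ℂ)
  rw [← Complex.ofReal_mul, Real.mul_self_sqrt (by linarith [t.2.2])]

theorem mul_single_eq (M : Matrix (Fin n) (Fin n) ℂ) (j i : Fin n) :
    M * Matrix.single j i 1 = ∑ k, M k j • Matrix.single k i (1 : ℂ) := by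
  ext a b
  rw [Matrix.sum_apply, Matrix.mul_apply]
  by_cases hib : i = b <;> simp [Matrix.single_apply, Matrix.smul_apply, hib]


section Rel

variable {F : Type u} [CStarAlgebra F]

/-- the row of the elements `s_a` -/
noncomputable def rowS (φ : OZ (Fin n) F) (ρ : Qn n →⋆ₐ[ℂ] F) [NeZero n] (s : F)
    (a : Fin (n + 1)) : F :=
  Fin.cases (ρ (csf n (rfn sR))) (fun j => φ.map (Matrix.single j 0 1) * s) a

theorem rowS_zero [NeZero n] (φ : OZ (Fin n) F) (ρ : Qn n →⋆ₐ[ℂ] F) (s : F) :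
    rowS φ ρ s 0 = ρ (csf n (rfn sR)) := rfl

theorem rowS_succ [NeZero n] (φ : OZ (Fin n) F) (ρ : Qn n →⋆ₐ[ℂ] F) (s : F)
    (j : Fin n) : rowS φ ρ s j.succ = φ.map (Matrix.single j 0 1) * s := rfl

theorem sq_mul_sq : csf n (rfn sR) * csf n (rfn sR) = csf n (rfn eR) := by
  rw [← csf_mul, sR_mul_sR]

theorem evs_sq : evs n 1 (csf n (rfn sR)) = 0 := by
  rw [evs_csf]
  have h5 : rfn sR 1 = 0 := by
    change ((Real.sqrt (1 - ((1 : unitInterval) : ℝ)) : ℝ) : ℂ) = 0
    simp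
  rw [h5, zero_smul]

theorem evs_e : evs n 1 (csf n (rfn eR)) = 0 := by
  rw [evs_csf]
  have h5 : rfn eR 1 = 0 := by
    change ((1 - ((1 : unitInterval) : ℝ) : ℝ) : ℂ) = 0
    simp
  rw [h5, zero_smul]

theorem e_eq : csf n (rfn eR) = 1 - csf n coordFun := by
  refine evs_ext fun t => ?_
  have h1 : evs n t (1 - csf n coordFun) = evs n t 1 - evs n t (csf n coordFun) :=
    map_sub (evs n t) 1 (csf n coordFun)
  rw [h1, map_one, evs_csf, evs_csf]
  change ((1 - (t : ℝ) : ℝ) : ℂ) • (1 : Matrix (Fin n) (Fin n) ℂ) = 1 - ((t : ℝ) : ℂ) • 1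
  rw [Complex.ofReal_sub, Complex.ofReal_one, sub_smul, one_smul]

variable [NeZero n] (φ : OZ (Fin n) F) (ρ : Qn n →⋆ₐ[ℂ] F) (s : F)

theorem rel_h (hs' : φ.map (Matrix.single 0 0 1) * s = s) : φ.map 1 * s = s := by
  have h3 : φ.map 1 * (φ.map (Matrix.single 0 0 1) * s) =
      φ.map (Matrix.single 0 0 1) * (φ.map (Matrix.single 0 0 1) * s) := by
    rw [← mul_assoc, ← mul_assoc, φ.map_mul (Matrix.single 0 0 1) (Matrix.single 0 0 1),
      Matrix.single_mul_single_same, one_mul]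
  rw [hs', hs'] at h3
  exact h3

theorem rel_0s (h2 : φ.map 1 * s = s)
    (hρ2 : ∀ (q : Qn n) (m : Matrix (Fin n) (Fin n) ℂ) (y : F), φ.map 1 * y = y →
        ρ q * (φ.map m * y) = φ.map (evs n 1 q * m) * y) (j : Fin n) :
    ρ (csf n (rfn sR)) * (φ.map (Matrix.single j 0 1) * s) = 0 := by
  rw [hρ2 _ _ s h2, evs_sq, zero_mul, map_zero, zero_mul]

theorem rel_s0 (h2 : φ.map 1 * s = s)
    (hρ2 : ∀ (q : Qn n) (m : Matrix (Fin n) (Fin n) ℂ) (y : F), φ.map 1 * y = y →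
        ρ q * (φ.map m * y) = φ.map (evs n 1 q * m) * y) (j : Fin n) :
    star (φ.map (Matrix.single j 0 1) * s) * ρ (csf n (rfn sR)) = 0 := by
  have h6 := congrArg star (rel_0s φ ρ s h2 hρ2 j)
  rw [star_mul, ← map_star, csf_real_star, star_zero] at h6
  exact h6

theorem rel_ss (hs : star s * s = 1 - φ.map 1) (hs' : φ.map (Matrix.single 0 0 1) * s = s)
    (h2 : φ.map 1 * s = s) (k j : Fin n) :
    star (φ.map (Matrix.single k 0 1) * s) * (φ.map (Matrix.single j 0 1) * s) =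
      if k = j then 1 - φ.map 1 else 0 := by
  have h7 : star (Matrix.single k 0 1 : Matrix (Fin n) (Fin n) ℂ) = Matrix.single 0 k 1 := by
    rw [Matrix.star_eq_conjTranspose, Matrix.conjTranspose_single, star_one]
  rw [star_mul, ← φ.map_star, h7, mul_assoc, ← mul_assoc (φ.map _) (φ.map _), φ.map_mul]
  by_cases hkj : k = j
  · subst hkj
    rw [Matrix.single_mul_single_same, one_mul, mul_assoc, hs', h2, hs, if_pos rfl]
  · rw [Matrix.single_mul_single_of_ne (h := hkj), map_zero, mul_zero, zero_mul, mul_zero,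
      if_neg hkj]

theorem rel_SS (hs : star s * s = 1 - φ.map 1) (hs' : φ.map (Matrix.single 0 0 1) * s = s)
    (h2 : φ.map 1 * s = s) (hρ1 : ρ (csf n coordFun) = φ.map 1)
    (hρ2 : ∀ (q : Qn n) (m : Matrix (Fin n) (Fin n) ℂ) (y : F), φ.map 1 * y = y →
        ρ q * (φ.map m * y) = φ.map (evs n 1 q * m) * y) :
    ∀ a b, star (rowS φ ρ s a) * rowS φ ρ s b = if a = b then ρ (csf n (rfn eR)) else 0 := by
  have hρe : ρ (csf n (rfn eR)) = 1 - φ.map 1 := by
    have h1 : ρ (1 - csf n coordFun) = ρ 1 - ρ (csf n coordFun) := map_sub ρ 1 (csf n coordFun)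
    rw [e_eq, h1, map_one, hρ1]
  intro a b
  refine Fin.cases ?_ (fun k => ?_) a <;> refine Fin.cases ?_ (fun j => ?_) b
  · rw [rowS_zero, if_pos rfl, ← map_star, csf_real_star, ← map_mul, sq_mul_sq]
  · rw [rowS_zero, rowS_succ, if_neg (Fin.succ_ne_zero j).symm,
      ← map_star, csf_real_star, rel_0s φ ρ s h2 hρ2]
  · rw [rowS_zero, rowS_succ, if_neg (Fin.succ_ne_zero k), rel_s0 φ ρ s h2 hρ2]
  · rw [rowS_succ, rowS_succ, rel_ss φ s hs hs' h2]
    by_cases hkj : k = j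
    · subst hkj
      rw [if_pos rfl, if_pos rfl, hρe]
    · rw [if_neg hkj, if_neg (fun hh => hkj (Fin.succ_injective _ hh))]

theorem rel_L (h2 : φ.map 1 * s = s)
    (hρ2 : ∀ (q : Qn n) (m : Matrix (Fin n) (Fin n) ℂ) (y : F), φ.map 1 * y = y →
        ρ q * (φ.map m * y) = φ.map (evs n 1 q * m) * y) (q : Qn n) :
    ∀ a, ρ q * rowS φ ρ s a = ∑ b, rowS φ ρ s b * ρ (Lhom n q b a) := by
  intro a
  rw [Fin.sum_univ_succ]
  change ρ q * rowS φ ρ s a = rowS φ ρ s 0 * ρ (Lfun n q 0 a) +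
    ∑ k : Fin n, rowS φ ρ s k.succ * ρ (Lfun n q k.succ a)
  refine Fin.cases ?_ (fun j => ?_) a
  · simp only [Lfun_zero_zero, Lfun_succ_zero, map_zero, mul_zero, Finset.sum_const_zero,
      add_zero]
    rw [rowS_zero, ← map_mul, ← map_mul]
    congr 1
    exact (csf_central _ q).symm
  · simp only [Lfun_zero_succ, Lfun_succ_succ, map_zero, mul_zero, zero_add]
    rw [rowS_succ, hρ2 q _ s h2, mul_single_eq, map_sum, Finset.sum_mul]
    refine Finset.sum_congr rfl fun k _ => ?_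
    rw [rowS_succ, map_smul, AlgHomClass.commutes, ← Algebra.commutes, Algebra.smul_def, mul_assoc]

theorem rel_p1 (p : Qn n)
    (hp : ∀ a b, (csf n (rfn wR) * csf n (rfn eR)) * Lhom n p a b = Lhom n p a b) :
    evs n 1 p = 0 := by
  ext k j
  have h11 : (csf n (rfn wR) * csf n (rfn eR)) * Lfun n p k.succ j.succ =
      Lfun n p k.succ j.succ := hp k.succ j.succ
  rw [Lfun_succ_succ] at h11
  have h12 := congrArg (evs n 1) h11
  rw [map_mul, map_mul, evs_e, mul_zero, zero_mul, AlgHomClass.commutes] at h12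
  have h14 := congrFun (congrFun h12 0) 0
  rw [Matrix.algebraMap_matrix_apply, if_pos rfl] at h14
  exact h14.symm

theorem rel_ker (p : Qn n)
    (hp : ∀ a b, (csf n (rfn wR) * csf n (rfn eR)) * Lhom n p a b = Lhom n p a b) :
    ∑ b, (∑ a, rowS φ ρ s a * ρ (csf n (rfn wR) * Lhom n p a b)) * star (rowS φ ρ s b) = ρ p := by
  have h9 : (csf n (rfn wR) * csf n (rfn eR)) * p = p := hp 0 0
  have h10 : evs n 1 p = 0 := rel_p1 p hp
  change ∑ b, (∑ a, rowS φ ρ s a * ρ (csf n (rfn wR) * Lfun n p a b)) * star (rowS φ ρ s b) = ρ p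
  have h16 : ∀ b, (∑ a, rowS φ ρ s a * ρ (csf n (rfn wR) * Lfun n p a b)) =
      ρ (csf n (rfn sR)) * ρ (csf n (rfn wR) * Lfun n p 0 b) := by
    intro b
    rw [Fin.sum_univ_succ]
    have h17 : ∑ i : Fin n, rowS φ ρ s i.succ * ρ (csf n (rfn wR) * Lfun n p i.succ b) = 0 := by
      refine Finset.sum_eq_zero fun k _ => ?_
      refine Fin.cases ?_ (fun j => ?_) b
      · rw [Lfun_succ_zero, mul_zero, map_zero, mul_zero]
      · rw [Lfun_succ_succ, h10, Matrix.zero_apply, map_zero, mul_zero, map_zero, mul_zero]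
    rw [h17, add_zero, rowS_zero]
  simp only [h16]
  rw [Fin.sum_univ_succ, Lfun_zero_zero, rowS_zero]
  have h18 : ∑ i : Fin n, ρ (csf n (rfn sR)) * ρ (csf n (rfn wR) * Lfun n p 0 i.succ) *
      star (rowS φ ρ s i.succ) = 0 := by
    refine Finset.sum_eq_zero fun k _ => ?_
    rw [Lfun_zero_succ, mul_zero, map_zero, mul_zero, zero_mul]
  rw [h18, add_zero, ← map_star, csf_real_star, ← map_mul, ← map_mul]
  congr 1
  rw [csf_central (rfn sR) (csf n (rfn wR) * p), mul_assoc, sq_mul_sq, mul_assoc,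
      ← csf_central (rfn eR) p, ← mul_assoc, h9]

end Rel

section XX

variable (Λ : dimDrop n (n + 1) →⋆ₐ[ℂ]
        C(unitInterval, Matrix (Fin n × Fin (n + 1)) (Fin n × Fin (n + 1)) ℂ))
  (hΛ : ∀ (f : dimDrop n (n + 1)) (m : Matrix (Fin n) (Fin n) ℂ)
        (x : Matrix (Fin (n + 1)) (Fin (n + 1)) ℂ),
        (f : C(unitInterval, Matrix (Fin n × Fin (n + 1)) (Fin n × Fin (n + 1)) ℂ)) 0 =
          kroneckerMap (· * ·) m 1 →
        (f : C(unitInterval, Matrix (Fin n × Fin (n + 1)) (Fin n × Fin (n + 1)) ℂ)) 1 =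
          kroneckerMap (· * ·) 1 x →
        (∀ t : unitInterval, (t : ℝ) ≤ 1 / 3 → Λ f t = kroneckerMap (· * ·) 1 x) ∧
        (∀ t : unitInterval, 2 / 3 ≤ (t : ℝ) → Λ f t =
          kroneckerMap (· * ·) m (Matrix.single 0 0 1) + kroneckerMap (· * ·) 1 (embSucc m)))

include hΛ

theorem blk_mem (f : dimDrop n (n + 1)) (a b : Fin (n + 1)) : blk (Λ f) a b ∈ scalarNear n := by
  intro t ht
  obtain ⟨⟨m, hm⟩, ⟨x, hx⟩⟩ := f.2
  refine ⟨x a b, ?_⟩
  have h8 := (hΛ f m x hm hx).1 t ht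
  ext i j
  change Λ f t (i, a) (j, b) = _
  rw [h8]
  change (1 : Matrix (Fin n) (Fin n) ℂ) i j * x a b = x a b * (1 : Matrix (Fin n) (Fin n) ℂ) i j
  ring

omit hΛ in
theorem embSucc_zero_left (m : Matrix (Fin n) (Fin n) ℂ) (b : Fin (n + 1)) :
    embSucc m 0 b = 0 := rfl

omit hΛ in
theorem embSucc_zero_right (m : Matrix (Fin n) (Fin n) ℂ) (a : Fin (n + 1)) :
    embSucc m a 0 = 0 := by
  refine Fin.cases ?_ (fun k => ?_) a <;> rfl

omit hΛ in
theorem embSucc_succ (m : Matrix (Fin n) (Fin n) ℂ) (k j : Fin n) :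
    embSucc m k.succ j.succ = m k j := rfl

omit hΛ in
theorem tau_near (m : Matrix (Fin n) (Fin n) ℂ) :
    ∃ q : Qn n, ∀ t : unitInterval, 2 / 3 ≤ (t : ℝ) → evs n t q = m := by
  let q0 : C(unitInterval, Matrix (Fin n) (Fin n) ℂ) :=
    { toFun := fun t => rfn tauR t • m
      continuous_toFun := by fun_prop }
  have hq0 : q0 ∈ scalarNear n := by
    intro t ht
    refine ⟨0, ?_⟩
    change ((min 1 (max 0 (3 * (t : ℝ) - 1)) : ℝ) : ℂ) • m = _
    rw [max_eq_left (by linarith), min_eq_right (by norm_num)]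
    simp
  refine ⟨⟨q0, hq0⟩, ?_⟩
  intro t ht
  have htau : rfn tauR t = 1 := by
    change ((min 1 (max 0 (3 * (t : ℝ) - 1)) : ℝ) : ℂ) = 1
    rw [max_eq_right (by linarith), min_eq_left (by linarith)]
    simp
  change rfn tauR t • m = m
  rw [htau, one_smul]

theorem rel_X (f : dimDrop n (n + 1)) (h : ∀ f a b, blk (Λ f) a b ∈ scalarNear n) :
    ∃ q, ∀ a b, (csf n (rfn wR) * csf n (rfn eR)) * (Xhom Λ h f a b - Lhom n q a b) =
      Xhom Λ h f a b - Lhom n q a b := by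
  obtain ⟨⟨m, hm⟩, ⟨x, hx⟩⟩ := f.2
  have hΛ2 := (hΛ f m x hm hx).2
  obtain ⟨q, hq⟩ := tau_near m
  have hq1 : evs n 1 q = m := hq 1 (by norm_num)
  refine ⟨q, fun a b => ?_⟩
  refine evs_ext fun t => ?_
  change evs n t ((csf n (rfn wR) * csf n (rfn eR)) * (Xhom Λ h f a b - Lfun n q a b)) =
    evs n t (Xhom Λ h f a b - Lfun n q a b)
  rcases le_total (t : ℝ) (2 / 3) with ht | ht
  · have h20 : evs n t (csf n (rfn wR) * csf n (rfn eR)) = 1 := by
      rw [map_mul, evs_csf, evs_csf, smul_mul_smul_comm, wR_mul_eR t ht, one_mul, one_smul]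
    rw [map_mul, h20, one_mul]
  · have h21 : evs n t (Xhom Λ h f a b) = evs n t (Lfun n q a b) := by
      ext i j
      rw [Xhom_apply, hΛ2 t ht]
      change m i j * (Matrix.single 0 0 1 : Matrix (Fin (n + 1)) (Fin (n + 1)) ℂ) a b +
        (1 : Matrix (Fin n) (Fin n) ℂ) i j * embSucc m a b = _
      refine Fin.cases ?_ (fun k => ?_) a <;> refine Fin.cases ?_ (fun l => ?_) b
      · rw [Lfun_zero_zero, Matrix.single_apply_same, embSucc_zero_left, mul_one, mul_zero,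
          add_zero, hq t ht]
      · rw [Lfun_zero_succ, map_zero, embSucc_zero_left, Matrix.single_apply_of_ne, mul_zero,
          mul_zero, add_zero]
        · rfl
        · intro hh; exact (Fin.succ_ne_zero l) hh.2.symm
      · rw [Lfun_succ_zero, map_zero, embSucc_zero_right, Matrix.single_apply_of_ne, mul_zero,
          mul_zero, add_zero]
        · rfl
        · intro hh; exact (Fin.succ_ne_zero k) hh.1.symm
      · rw [Lfun_succ_succ, hq1, AlgHomClass.commutes, Matrix.algebraMap_matrix_apply,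
          embSucc_succ, Matrix.single_apply_of_ne, mul_zero, zero_add, Matrix.one_apply]
        · by_cases hij : i = j
          · rw [if_pos hij, if_pos hij]; simp
          · rw [if_neg hij, if_neg hij]; simp
        · intro hh; exact (Fin.succ_ne_zero k) hh.1.symm
    have h22 : evs n t (Xhom Λ h f a b - Lfun n q a b) =
        evs n t (Xhom Λ h f a b) - evs n t (Lfun n q a b) := map_sub (evs n t) _ _
    rw [map_mul, h22, h21, sub_self, mul_zero]

end XX

end Conc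

theorem exists_rho' {n : ℕ} [NeZero n] {F : Type u} [CStarAlgebra F] (φ : OZ (Fin n) F)
    (h1 : φ.map 1 ≤ 1) :
    ∃ ρ : Qn n →⋆ₐ[ℂ] F, ρ (csf n coordFun) = φ.map 1 ∧
      ∀ (q : Qn n) (m : Matrix (Fin n) (Fin n) ℂ) (y : F), φ.map 1 * y = y →
        ρ q * (φ.map m * y) = φ.map (evs n 1 q * m) * y :=
  exists_rho φ h1

theorem exists_dimDrop_hom {n : ℕ} [NeZero n] {F : Type u} [CStarAlgebra F]
    (φ : OZ (Fin n) F) (s : F) (hs : star s * s = 1 - φ.map 1)
    (hs' : φ.map (Matrix.single 0 0 1) * s = s) :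
    Nonempty (dimDrop n (n + 1) →⋆ₐ[ℂ] F) := by
  have h1 : φ.map 1 ≤ 1 := by
    rw [← sub_nonneg, ← hs]
    exact star_mul_self_nonneg s
  have h2 := rel_h φ s hs'
  obtain ⟨ρ, hρ1, hρ2⟩ := exists_rho' φ h1
  obtain ⟨Λ, hΛ⟩ := exists_path n
  exact exists_hom_of_data' ρ (csf n (rfn wR)) (rowS φ ρ s) (csf_central _) (csf_real_star _)
    (csf n (rfn eR)) (csf_central _) (csf_real_star _) (rel_SS φ ρ s hs hs' h2 hρ1 hρ2)
    (Lhom n) (rel_L φ ρ s h2 hρ2) (rel_ker φ ρ s) (Xhom Λ (blk_mem Λ hΛ))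
    (fun f => rel_X Λ hΛ f (blk_mem Λ hΛ))

end P101
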