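import Mathlib.Analysis.SpecialFunctions.ContinuousFunctionalCalculus.Rpow.Basic
import Vale.Agent.Lib.P101.Base

/-!
# Gluing two commuting order zero maps

`φ₁, φ₂ : M_ι → F` order zero maps with commuting ranges, `h₁ = φ₁(1)`, `h₂ = φ₂(1)`.  Then
`Φ(m) = ½ ( h₁ φ₁(m) + h₂ φ₂(m) + i ∑_{i,j} (φ₁(e_ij) φ₂(m e_ji) - φ₁(m e_ij) φ₂(e_ji)) )`
is an order zero map, with `Φ(1) = ½ (h₁² + h₂²)`.

(Heuristically `Φ(m) = ½ V (m ⊗ 1) V*` with `V = s + i t (flip)`.)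

**Proof.**  Let `B : Matrix (ι × ι) (ι × ι) ℂ →ₗ F`,
`B(X) = ∑_{i,j,k,l} X (i,k) (j,l) • φ₁(e_ij) φ₂(e_kl)`, so `B(a ⊗ₖ b) = φ₁(a) φ₂(b)`
(`Matrix.kroneckerMap (· * ·)`), and `B(X) B(Y) = h₁ h₂ B(X Y)`, `B(X)* = B(X*)` (check on
`e_ij ⊗ e_kl` and use bilinearity).  Let `S` be the flip matrix (`S = ∑ e_ij ⊗ e_ji`,
`S² = 1`, `S* = S`, `S (a ⊗ b) = (b ⊗ a) S`).  Then `Φ(m) = ½ (L(m) + R(m) + C(m))`,
`L(m) = h₁ φ₁(m)`, `R(m) = h₂ φ₂(m)`, `C(m) = i B((1 ⊗ m - m ⊗ 1) S)`.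
With `φ₁(m) B(X) = h₁ B((m ⊗ 1) X)`, `B(X) φ₁(m) = h₁ B(X (m ⊗ 1))` and similarly for `φ₂`:
* `L(m) L(m') = h₁² L(m m')`, `R(m) R(m') = h₂² R(m m')`,
* `L(m) R(m') = h₁ h₂ B(m ⊗ m')`, `R(m) L(m') = h₁ h₂ B(m' ⊗ m)`,
* `L(m) C(m') = i h₁² B((m ⊗ m' - m m' ⊗ 1) S)`, `C(m) L(m') = i h₁² B((1 ⊗ m m' - m ⊗ m') S)`,
* `R(m) C(m') = i h₂² B((1 ⊗ m m' - m' ⊗ m) S)`, `C(m) R(m') = i h₂² B((m' ⊗ m - m m' ⊗ 1) S)`,
* `C(m) C(m') = - h₁ h₂ B(m' ⊗ m + m ⊗ m' - 1 ⊗ m m' - m m' ⊗ 1)`.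
The sum is `(h₁² + h₂²)(L + R + C)(m m')`, because `h₁ h₂ B(1 ⊗ m m') = h₁² R(m m')` and
`h₁ h₂ B(m m' ⊗ 1) = h₂² L(m m')`.  Star: `C(m)* = -i B(S (1 ⊗ m* - m* ⊗ 1))
= -i B((m* ⊗ 1 - 1 ⊗ m*) S) = C(m*)`.  `Φ(1) = ½(h₁² + h₂²)` is `≥ 0`, hence of the form `k* k`
(`C(1) = 0`).
-/

open scoped ENNReal Topology
open Filter Matrix

namespace P101

attribute [local instance] CStarAlgebra.spectralOrder CStarAlgebra.spectralOrderedRing

universe u

section Aux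

variable {ι : Type} [Fintype ι] [DecidableEq ι] {F : Type u} [CStarAlgebra F]

theorem glue_shift1 (f g : Matrix ι ι ℂ →ₗ[ℂ] F) (x : Matrix ι ι ℂ) :
    ∑ i, ∑ j, f (Matrix.single i j 1 * x) * g (Matrix.single j i 1) =
      ∑ i, ∑ j, f (Matrix.single i j 1) * g (x * Matrix.single j i 1) := by
  induction x using Matrix.induction_on' with
  | h_zero => simp
  | h_add p q hp hq =>
    simp only [mul_add, add_mul, map_add, Finset.sum_add_distrib, hp, hq]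
  | h_std_basis k l c =>
    apply Finset.sum_congr rfl
    intro i _
    rw [Finset.sum_eq_single k, Finset.sum_eq_single l]
    · rw [Matrix.single_mul_single_same, Matrix.single_mul_single_same, one_mul, mul_one]
      have e1 : Matrix.single i l c = c • Matrix.single i l (1 : ℂ) := by simp
      have e2 : Matrix.single k i c = c • Matrix.single k i (1 : ℂ) := by simp
      rw [e1, e2, map_smul, map_smul, smul_mul_assoc, mul_smul_comm]
    · intro j _ hj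
      rw [Matrix.single_mul_single_of_ne (h := fun h => hj h.symm)]
      simp
    · intro h
      exact absurd (Finset.mem_univ _) h
    · intro j _ hj
      rw [Matrix.single_mul_single_of_ne (h := hj)]
      simp
    · intro h
      exact absurd (Finset.mem_univ _) h

theorem glue_shift2 (f g : Matrix ι ι ℂ →ₗ[ℂ] F) (x : Matrix ι ι ℂ) :
    ∑ i, ∑ j, f (x * Matrix.single i j 1) * g (Matrix.single j i 1) =
      ∑ i, ∑ j, f (Matrix.single i j 1) * g (Matrix.single j i 1 * x) := by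
  induction x using Matrix.induction_on' with
  | h_zero => simp
  | h_add p q hp hq =>
    simp only [mul_add, add_mul, map_add, Finset.sum_add_distrib, hp, hq]
  | h_std_basis k l c =>
    have hL : ∑ i, ∑ j, f (Matrix.single k l c * Matrix.single i j 1) * g (Matrix.single j i 1) =
        ∑ j, f (Matrix.single k l c * Matrix.single l j 1) * g (Matrix.single j l 1) := by
      rw [Finset.sum_eq_single l]
      · intro i _ hi
        apply Finset.sum_eq_zero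
        intro j _
        rw [Matrix.single_mul_single_of_ne (h := fun h => hi h.symm)]
        simp
      · intro h
        exact absurd (Finset.mem_univ _) h
    have hR : ∑ i, ∑ j, f (Matrix.single i j 1) * g (Matrix.single j i 1 * Matrix.single k l c) =
        ∑ j, f (Matrix.single k j 1) * g (Matrix.single j k 1 * Matrix.single k l c) := by
      rw [Finset.sum_eq_single k]
      · intro i _ hi
        apply Finset.sum_eq_zero
        intro j _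
        rw [Matrix.single_mul_single_of_ne (h := hi)]
        simp
      · intro h
        exact absurd (Finset.mem_univ _) h
    rw [hL, hR]
    apply Finset.sum_congr rfl
    intro j _
    rw [Matrix.single_mul_single_same, Matrix.single_mul_single_same, one_mul, mul_one]
    have e1 : Matrix.single k j c = c • Matrix.single k j (1 : ℂ) := by simp
    have e2 : Matrix.single j l c = c • Matrix.single j l (1 : ℂ) := by simp
    rw [e1, e2, map_smul, map_smul, smul_mul_assoc, mul_smul_comm]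

/-- the sum `∑ φ₁(a e_ij) φ₂(b e_ji)` -/
noncomputable def glueT (φ₁ φ₂ : OZ ι F) (a b : Matrix ι ι ℂ) : F :=
  ∑ i, ∑ j, φ₁.map (a * Matrix.single i j 1) * φ₂.map (b * Matrix.single j i 1)

variable (φ₁ φ₂ : OZ ι F) (hc : ∀ a b, Commute (φ₁.map a) (φ₂.map b))

theorem glueT_left1 (a b c : Matrix ι ι ℂ) :
    φ₁.map a * glueT φ₁ φ₂ b c = φ₁.map 1 * glueT φ₁ φ₂ (a * b) c := by
  unfold glueT
  rw [Finset.mul_sum, Finset.mul_sum]
  apply Finset.sum_congr rfl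
  intro i _
  rw [Finset.mul_sum, Finset.mul_sum]
  apply Finset.sum_congr rfl
  intro j _
  rw [← mul_assoc, φ₁.map_mul, mul_assoc, ← mul_assoc a]

include hc in
theorem glueT_left2 (a b c : Matrix ι ι ℂ) :
    φ₂.map a * glueT φ₁ φ₂ b c = φ₂.map 1 * glueT φ₁ φ₂ b (a * c) := by
  unfold glueT
  rw [Finset.mul_sum, Finset.mul_sum]
  apply Finset.sum_congr rfl
  intro i _
  rw [Finset.mul_sum, Finset.mul_sum]
  apply Finset.sum_congr rfl
  intro j _
  rw [← mul_assoc, ← (hc _ a).eq, mul_assoc, φ₂.map_mul, ← mul_assoc, (hc _ 1).eq, mul_assoc,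
    ← mul_assoc a]

/-- moving a factor from the right of the first leg to the left of the second leg -/
theorem glueT_shift1 (b c x : Matrix ι ι ℂ) :
    ∑ i, ∑ j, φ₁.map (b * Matrix.single i j 1 * x) * φ₂.map (c * Matrix.single j i 1) =
      glueT φ₁ φ₂ b (c * x) := by
  have h := glue_shift1 (φ₁.map ∘ₗ LinearMap.mulLeft ℂ b) (φ₂.map ∘ₗ LinearMap.mulLeft ℂ c) x
  simp only [LinearMap.comp_apply, LinearMap.mulLeft_apply, ← mul_assoc] at h
  exact h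

/-- moving a factor from the right of the second leg to the left of the first leg -/
theorem glueT_shift2 (b c x : Matrix ι ι ℂ) :
    ∑ i, ∑ j, φ₁.map (b * Matrix.single i j 1) * φ₂.map (c * Matrix.single j i 1 * x) =
      glueT φ₁ φ₂ (b * x) c := by
  have h := glue_shift2 (φ₁.map ∘ₗ LinearMap.mulLeft ℂ b) (φ₂.map ∘ₗ LinearMap.mulLeft ℂ c) x
  simp only [LinearMap.comp_apply, LinearMap.mulLeft_apply, ← mul_assoc] at h
  exact h.symm

include hc in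
theorem glueT_right1 (a b c : Matrix ι ι ℂ) :
    glueT φ₁ φ₂ b c * φ₁.map a = φ₁.map 1 * glueT φ₁ φ₂ b (c * a) := by
  rw [← glueT_shift1 φ₁ φ₂ b c a]
  unfold glueT
  rw [Finset.sum_mul, Finset.mul_sum]
  apply Finset.sum_congr rfl
  intro i _
  rw [Finset.sum_mul, Finset.mul_sum]
  apply Finset.sum_congr rfl
  intro j _
  rw [mul_assoc, ← (hc a _).eq, ← mul_assoc, φ₁.map_mul, mul_assoc]

include hc in
theorem glueT_right2 (a b c : Matrix ι ι ℂ) :
    glueT φ₁ φ₂ b c * φ₂.map a = φ₂.map 1 * glueT φ₁ φ₂ (b * a) c := by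
  rw [← glueT_shift2 φ₁ φ₂ b c a]
  unfold glueT
  rw [Finset.sum_mul, Finset.mul_sum]
  apply Finset.sum_congr rfl
  intro i _
  rw [Finset.sum_mul, Finset.mul_sum]
  apply Finset.sum_congr rfl
  intro j _
  rw [mul_assoc, φ₂.map_mul, ← mul_assoc, (hc _ 1).eq, mul_assoc]

theorem glueT_single (a b : Matrix ι ι ℂ) (k l : ι) :
    glueT φ₁ φ₂ (a * Matrix.single l k 1) (b * Matrix.single k l 1) =
      φ₁.map (a * Matrix.single l l 1) * φ₂.map (b * Matrix.single k k 1) := by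
  unfold glueT
  rw [Finset.sum_eq_single k, Finset.sum_eq_single l]
  · rw [mul_assoc, mul_assoc, Matrix.single_mul_single_same, Matrix.single_mul_single_same,
      one_mul]
  · intro j _ hj
    rw [mul_assoc b, Matrix.single_mul_single_of_ne (h := fun h => hj h.symm)]
    simp
  · intro h
    exact absurd (Finset.mem_univ _) h
  · intro i _ hi
    apply Finset.sum_eq_zero
    intro j _
    rw [mul_assoc a, Matrix.single_mul_single_of_ne (h := fun h => hi h.symm)]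
    simp
  · intro h
    exact absurd (Finset.mem_univ _) h

theorem glue_sum_diag (φ : OZ ι F) (a : Matrix ι ι ℂ) :
    ∑ k, φ.map (a * Matrix.single k k 1) = φ.map a := by
  rw [← map_sum, ← Finset.mul_sum]
  congr 1
  have : ∑ k : ι, Matrix.single k k (1 : ℂ) = 1 := by
    ext i j
    rw [Matrix.sum_apply, Finset.sum_eq_single i]
    · by_cases h : i = j
      · subst h
        simp
      · rw [Matrix.single_apply, Matrix.one_apply_ne h, if_neg (fun h2 => h h2.2)]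
    · intro k _ hk
      rw [Matrix.single_apply, if_neg (fun h2 => hk h2.1)]
    · intro h
      exact absurd (Finset.mem_univ _) h
  rw [this, mul_one]

include hc in
theorem glueT_mul (a b c d : Matrix ι ι ℂ) :
    glueT φ₁ φ₂ a b * glueT φ₁ φ₂ c d =
      φ₁.map 1 * φ₂.map 1 * (φ₁.map (a * d) * φ₂.map (b * c)) := by
  have h : ∀ k l, glueT φ₁ φ₂ a b *
      (φ₁.map (c * Matrix.single k l 1) * φ₂.map (d * Matrix.single l k 1)) =
      φ₁.map 1 * φ₂.map 1 * (φ₁.map (a * d * Matrix.single l l 1) *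
        φ₂.map (b * c * Matrix.single k k 1)) := by
    intro k l
    rw [← mul_assoc, glueT_right1 φ₁ φ₂ hc, mul_assoc, glueT_right2 φ₁ φ₂ hc, ← mul_assoc,
      ← mul_assoc a, ← mul_assoc b, glueT_single]
  have e : glueT φ₁ φ₂ c d =
      ∑ k, ∑ l, φ₁.map (c * Matrix.single k l 1) * φ₂.map (d * Matrix.single l k 1) := rfl
  rw [e, Finset.mul_sum, ← glue_sum_diag φ₁ (a * d), ← glue_sum_diag φ₂ (b * c),
    Finset.sum_mul_sum, Finset.sum_comm, Finset.mul_sum]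
  apply Finset.sum_congr rfl
  intro k _
  rw [Finset.mul_sum, Finset.mul_sum]
  apply Finset.sum_congr rfl
  intro l _
  exact h k l

include hc in
theorem glueT_star (a b : Matrix ι ι ℂ) :
    star (glueT φ₁ φ₂ a b) = glueT φ₁ φ₂ (star b) (star a) := by
  have h1 : star (glueT φ₁ φ₂ a b) = ∑ i, ∑ j, φ₁.map (Matrix.single j i 1 * star a) *
      φ₂.map (Matrix.single i j 1 * star b) := by
    unfold glueT
    rw [star_sum]
    apply Finset.sum_congr rfl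
    intro i _
    rw [star_sum]
    apply Finset.sum_congr rfl
    intro j _
    rw [star_mul, ← φ₁.map_star, ← φ₂.map_star, ← (hc _ _).eq, star_mul, star_mul]
    simp [Matrix.star_eq_conjTranspose, Matrix.conjTranspose_single]
  rw [h1, Finset.sum_comm]
  have h2 := glue_shift1 φ₁.map (φ₂.map ∘ₗ LinearMap.mulRight ℂ (star b)) (star a)
  simp only [LinearMap.comp_apply, LinearMap.mulRight_apply] at h2
  rw [h2]
  have h3 := glueT_shift2 φ₁ φ₂ 1 (star a) (star b)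
  simp only [one_mul] at h3
  exact h3

theorem glueT_add_left (a a' b : Matrix ι ι ℂ) :
    glueT φ₁ φ₂ (a + a') b = glueT φ₁ φ₂ a b + glueT φ₁ φ₂ a' b := by
  unfold glueT
  simp only [add_mul, map_add, Finset.sum_add_distrib]

theorem glueT_add_right (a b b' : Matrix ι ι ℂ) :
    glueT φ₁ φ₂ a (b + b') = glueT φ₁ φ₂ a b + glueT φ₁ φ₂ a b' := by
  unfold glueT
  simp only [add_mul, mul_add, map_add, Finset.sum_add_distrib]

theorem glueT_smul_left (c : ℂ) (a b : Matrix ι ι ℂ) :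
    glueT φ₁ φ₂ (c • a) b = c • glueT φ₁ φ₂ a b := by
  unfold glueT
  simp only [smul_mul_assoc, map_smul, Finset.smul_sum]

theorem glueT_smul_right (c : ℂ) (a b : Matrix ι ι ℂ) :
    glueT φ₁ φ₂ a (c • b) = c • glueT φ₁ φ₂ a b := by
  unfold glueT
  simp only [smul_mul_assoc, map_smul, Finset.smul_sum, mul_smul_comm]

/-- the linear map of the glued order zero map -/
noncomputable def glueMap : Matrix ι ι ℂ →ₗ[ℂ] F where
  toFun m := (2 : ℂ)⁻¹ • (φ₁.map 1 * φ₁.map m + φ₂.map 1 * φ₂.map m +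
    Complex.I • (glueT φ₁ φ₂ 1 m - glueT φ₁ φ₂ m 1))
  map_add' := by
    intro a b
    rw [map_add, map_add, glueT_add_left, glueT_add_right, mul_add, mul_add]
    module
  map_smul' := by
    intro c a
    rw [map_smul, map_smul, glueT_smul_left, glueT_smul_right, mul_smul_comm, mul_smul_comm,
      RingHom.id_apply]
    module

theorem glueMap_apply (m : Matrix ι ι ℂ) : glueMap φ₁ φ₂ m =
    (2 : ℂ)⁻¹ • (φ₁.map 1 * φ₁.map m + φ₂.map 1 * φ₂.map m +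
      Complex.I • (glueT φ₁ φ₂ 1 m - glueT φ₁ φ₂ m 1)) := rfl

theorem glueMap_one : glueMap φ₁ φ₂ 1 =
    (2 : ℂ)⁻¹ • (φ₁.map 1 * φ₁.map 1 + φ₂.map 1 * φ₂.map 1) := by
  rw [glueMap_apply, sub_self, smul_zero, add_zero]

include hc in
theorem glueMap_star (m : Matrix ι ι ℂ) : glueMap φ₁ φ₂ (star m) = star (glueMap φ₁ φ₂ m) := by
  rw [glueMap_apply, glueMap_apply, star_smul, star_add, star_add, star_smul, star_sub,
    glueT_star φ₁ φ₂ hc, glueT_star φ₁ φ₂ hc, star_mul, star_mul, ← φ₁.map_star, ← φ₁.map_star,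
    ← φ₂.map_star, ← φ₂.map_star, star_one, φ₁.one_mul_comm, φ₂.one_mul_comm]
  have h2 : star ((2 : ℂ)⁻¹) = (2 : ℂ)⁻¹ := by simp
  have hI : star Complex.I = - Complex.I := by simp
  rw [h2, hI]
  congr 2
  module

include hc in
theorem glueMap_mul (m n : Matrix ι ι ℂ) :
    glueMap φ₁ φ₂ m * glueMap φ₁ φ₂ n = glueMap φ₁ φ₂ 1 * glueMap φ₁ φ₂ (m * n) := by
  rw [glueMap_one, glueMap_apply, glueMap_apply, glueMap_apply]
  rw [smul_mul_smul_comm, smul_mul_smul_comm]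
  congr 1
  -- names
  have h11 : ∀ a, φ₁.map a * φ₁.map 1 = φ₁.map 1 * φ₁.map a := fun a => (φ₁.one_mul_comm a).symm
  have h22 : ∀ a, φ₂.map a * φ₂.map 1 = φ₂.map 1 * φ₂.map a := fun a => (φ₂.one_mul_comm a).symm
  have h21 : ∀ a b, φ₂.map a * φ₁.map b = φ₁.map b * φ₂.map a := fun a b => ((hc b a).eq).symm
  have t1 : ∀ a b, glueT φ₁ φ₂ a b * φ₁.map 1 = φ₁.map 1 * glueT φ₁ φ₂ a b := by
    intro a b
    rw [glueT_right1 φ₁ φ₂ hc, mul_one]
  have t2 : ∀ a b, glueT φ₁ φ₂ a b * φ₂.map 1 = φ₂.map 1 * glueT φ₁ φ₂ a b := by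
    intro a b
    rw [glueT_right2 φ₁ φ₂ hc, mul_one]
  -- the nine products
  have p1 : (φ₁.map 1 * φ₁.map m) * (φ₁.map 1 * φ₁.map n) =
      φ₁.map 1 * φ₁.map 1 * (φ₁.map 1 * φ₁.map (m * n)) := by
    rw [mul_assoc (φ₁.map 1) (φ₁.map m), ← mul_assoc (φ₁.map m), h11, mul_assoc (φ₁.map 1) (φ₁.map m),
      φ₁.map_mul m n, ← mul_assoc]
  have p2 : (φ₁.map 1 * φ₁.map m) * (φ₂.map 1 * φ₂.map n) =
      φ₁.map 1 * φ₂.map 1 * (φ₁.map m * φ₂.map n) := by
    rw [mul_assoc (φ₁.map 1) (φ₁.map m), ← mul_assoc (φ₁.map m), (hc m 1).eq,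
      mul_assoc (φ₂.map 1) (φ₁.map m), ← mul_assoc]
  have p3 : (φ₂.map 1 * φ₂.map m) * (φ₁.map 1 * φ₁.map n) =
      φ₁.map 1 * φ₂.map 1 * (φ₁.map n * φ₂.map m) := by
    rw [mul_assoc (φ₂.map 1) (φ₂.map m), ← mul_assoc (φ₂.map m), h21 m 1,
      mul_assoc (φ₁.map 1) (φ₂.map m), h21 m n, ← mul_assoc, h21 1 1]
  have p4 : (φ₂.map 1 * φ₂.map m) * (φ₂.map 1 * φ₂.map n) =
      φ₂.map 1 * φ₂.map 1 * (φ₂.map 1 * φ₂.map (m * n)) := by
    rw [mul_assoc (φ₂.map 1) (φ₂.map m), ← mul_assoc (φ₂.map m), h22, mul_assoc (φ₂.map 1) (φ₂.map m),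
      φ₂.map_mul m n, ← mul_assoc]
  have q1 : ∀ a b, (φ₁.map 1 * φ₁.map m) * glueT φ₁ φ₂ a b =
      φ₁.map 1 * φ₁.map 1 * glueT φ₁ φ₂ (m * a) b := by
    intro a b
    rw [mul_assoc, glueT_left1, ← mul_assoc]
  have q2 : ∀ a b, (φ₂.map 1 * φ₂.map m) * glueT φ₁ φ₂ a b =
      φ₂.map 1 * φ₂.map 1 * glueT φ₁ φ₂ a (m * b) := by
    intro a b
    rw [mul_assoc, glueT_left2 φ₁ φ₂ hc, ← mul_assoc]
  have q3 : ∀ a b, glueT φ₁ φ₂ a b * (φ₁.map 1 * φ₁.map n) =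
      φ₁.map 1 * φ₁.map 1 * glueT φ₁ φ₂ a (b * n) := by
    intro a b
    rw [← mul_assoc, t1, mul_assoc, glueT_right1 φ₁ φ₂ hc, ← mul_assoc]
  have q4 : ∀ a b, glueT φ₁ φ₂ a b * (φ₂.map 1 * φ₂.map n) =
      φ₂.map 1 * φ₂.map 1 * glueT φ₁ φ₂ (a * n) b := by
    intro a b
    rw [← mul_assoc, t2, mul_assoc, glueT_right2 φ₁ φ₂ hc, ← mul_assoc]
  have r1 : φ₁.map 1 * φ₁.map 1 * (φ₂.map 1 * φ₂.map (m * n)) =
      φ₁.map 1 * φ₂.map 1 * (φ₁.map 1 * φ₂.map (m * n)) := by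
    rw [mul_assoc (φ₁.map 1) (φ₁.map 1), ← mul_assoc (φ₁.map 1) (φ₂.map 1), (hc 1 1).eq,
      mul_assoc (φ₂.map 1) (φ₁.map 1), ← mul_assoc (φ₁.map 1) (φ₂.map 1), (hc 1 1).eq]
  have r2 : φ₂.map 1 * φ₂.map 1 * (φ₁.map 1 * φ₁.map (m * n)) =
      φ₁.map 1 * φ₂.map 1 * (φ₁.map (m * n) * φ₂.map 1) := by
    rw [(hc (m * n) 1).eq, mul_assoc (φ₂.map 1) (φ₂.map 1), ← mul_assoc (φ₂.map 1) (φ₁.map 1),
      ← (hc 1 1).eq, mul_assoc (φ₁.map 1) (φ₂.map 1), ← mul_assoc (φ₂.map 1) (φ₁.map 1),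
      ← (hc 1 1).eq]
  simp only [mul_add, add_mul, mul_sub, sub_mul, smul_add, smul_sub, mul_smul_comm,
    smul_mul_assoc, p1, p2, p3, p4, q1, q2, q3, q4, glueT_mul φ₁ φ₂ hc, one_mul, mul_one]
  rw [r1, r2]
  simp only [smul_smul, Complex.I_mul_I]
  module

include hc in
theorem exists_glue_aux : ∃ Φ : OZ ι F, Φ.map = glueMap φ₁ φ₂ := by
  refine ⟨⟨glueMap φ₁ φ₂, glueMap_star φ₁ φ₂ hc, glueMap_mul φ₁ φ₂ hc, ?_⟩, rfl⟩
  rw [glueMap_one]
  have h1 : star (φ₁.map 1) = φ₁.map 1 := φ₁.one_isSelfAdjoint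
  have h2 : star (φ₂.map 1) = φ₂.map 1 := φ₂.one_isSelfAdjoint
  set c : ℂ := (((Real.sqrt 2)⁻¹ : ℝ) : ℂ) with hcdef
  have hcc : c * c = (2 : ℂ)⁻¹ := by
    rw [hcdef, ← Complex.ofReal_mul, ← mul_inv, Real.mul_self_sqrt (by norm_num)]
    simp
  have hcs : star c = c := by
    rw [hcdef]
    exact Complex.conj_ofReal _
  have e : (2 : ℂ)⁻¹ • (φ₁.map 1 * φ₁.map 1 + φ₂.map 1 * φ₂.map 1) =
      star (c • φ₁.map 1) * (c • φ₁.map 1) + star (c • φ₂.map 1) * (c • φ₂.map 1) := by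
    rw [star_smul, star_smul, h1, h2, hcs, smul_mul_smul_comm, smul_mul_smul_comm, hcc, smul_add]
  have hnn : 0 ≤ (2 : ℂ)⁻¹ • (φ₁.map 1 * φ₁.map 1 + φ₂.map 1 * φ₂.map 1) := by
    rw [e]
    exact add_nonneg (star_mul_self_nonneg _) (star_mul_self_nonneg _)
  exact CStarAlgebra.nonneg_iff_eq_star_mul_self.1 hnn

end Aux

theorem exists_glue {ι : Type} [Fintype ι] [DecidableEq ι] {F : Type u} [CStarAlgebra F]
    (φ₁ φ₂ : OZ ι F) (hc : ∀ a b, Commute (φ₁.map a) (φ₂.map b)) :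
    ∃ Φ : OZ ι F, ∀ m, Φ.map m = (2 : ℂ)⁻¹ • (φ₁.map 1 * φ₁.map m + φ₂.map 1 * φ₂.map m +
      Complex.I • ∑ i, ∑ j, (φ₁.map (Matrix.single i j 1) * φ₂.map (m * Matrix.single j i 1) -
        φ₁.map (m * Matrix.single i j 1) * φ₂.map (Matrix.single j i 1))) := by
  obtain ⟨Φ, hΦ⟩ := exists_glue_aux φ₁ φ₂ hc
  refine ⟨Φ, fun m => ?_⟩
  rw [hΦ, glueMap_apply]
  unfold glueT
  simp only [one_mul, Finset.sum_sub_distrib]

/-- In particular `Φ(1) = ½ (φ₁(1)² + φ₂(1)²)`. -/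
theorem glue_one {ι : Type} [Fintype ι] [DecidableEq ι] {F : Type u} [CStarAlgebra F]
    (φ₁ φ₂ Φ : OZ ι F)
    (hΦ : ∀ m, Φ.map m = (2 : ℂ)⁻¹ • (φ₁.map 1 * φ₁.map m + φ₂.map 1 * φ₂.map m +
      Complex.I • ∑ i, ∑ j, (φ₁.map (Matrix.single i j 1) * φ₂.map (m * Matrix.single j i 1) -
        φ₁.map (m * Matrix.single i j 1) * φ₂.map (Matrix.single j i 1)))) :
    Φ.map 1 = (2 : ℂ)⁻¹ • (φ₁.map 1 * φ₁.map 1 + φ₂.map 1 * φ₂.map 1) := by
  rw [hΦ 1]
  simp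

end P101
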