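import Vale.Agent.Lib.P101.OZBasicA
import Vale.Agent.Lib.P101.Glue

/-!
# Iterated glue

Notation: `e_ij = Matrix.single i j 1` in `M_n`, `n ≥ 1`.
-/

open scoped ENNReal Topology
open Filter Matrix

namespace P101

attribute [local instance] CStarAlgebra.spectralOrder CStarAlgebra.spectralOrderedRing

universe u

/-- `Φ` is the iterated glue of `φ 0, φ 1, …`: `Φ 0 = 0`, `Φ (k+1) = glue (Φ k) (φ k)`. -/
def IsIterGlue {n : ℕ} {F : Type u} [CStarAlgebra F] (φ Φ : ℕ → OZ (Fin n) F) : Prop :=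
  (∀ a, (Φ 0).map a = 0) ∧
  ∀ k m, (Φ (k + 1)).map m = (2 : ℂ)⁻¹ • ((Φ k).map 1 * (Φ k).map m +
    (φ k).map 1 * (φ k).map m + Complex.I • ∑ i, ∑ j,
      ((Φ k).map (Matrix.single i j 1) * (φ k).map (m * Matrix.single j i 1) -
        (Φ k).map (m * Matrix.single i j 1) * (φ k).map (Matrix.single j i 1)))

/-- the zero map is an order zero map -/
noncomputable def IterGlue_zero {n : ℕ} {F : Type u} [CStarAlgebra F] : OZ (Fin n) F where
  map := 0
  map_star := by intro a; simp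
  map_mul := by intro a b; simp
  nonneg := ⟨0, by simp⟩

/-- an element commuting with both maps commutes with the glue expression -/
theorem IterGlue_commute {n : ℕ} {F : Type u} [CStarAlgebra F] (Ψ φ : OZ (Fin n) F) (x : F)
    (h1 : ∀ a, Commute x (Ψ.map a)) (h2 : ∀ a, Commute x (φ.map a))
    (m : Matrix (Fin n) (Fin n) ℂ) :
    Commute x ((2 : ℂ)⁻¹ • (Ψ.map 1 * Ψ.map m + φ.map 1 * φ.map m +
      Complex.I • ∑ i, ∑ j, (Ψ.map (Matrix.single i j 1) * φ.map (m * Matrix.single j i 1) -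
        Ψ.map (m * Matrix.single i j 1) * φ.map (Matrix.single j i 1)))) := by
  refine Commute.smul_right ?_ _
  refine Commute.add_right (Commute.add_right ((h1 _).mul_right (h1 _))
    ((h2 _).mul_right (h2 _))) ?_
  refine Commute.smul_right ?_ _
  refine Commute.sum_right _ _ _ fun i _ => Commute.sum_right _ _ _ fun j _ => ?_
  exact Commute.sub_right ((h1 _).mul_right (h2 _)) ((h1 _).mul_right (h2 _))

section

variable {n : ℕ} {F : Type u} [CStarAlgebra F] (S : ℕ → StarSubalgebra ℂ F)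
  (hS : ∀ i j, i ≠ j → ∀ x ∈ S i, ∀ y ∈ S j, Commute x y) (φ : ℕ → OZ (Fin n) F)
  (hφ : ∀ j a, (φ j).map a ∈ S j)

include hS hφ in
/-- Existence of the iterated glue, with the property that an element commuting with `S j` for all
`j < k` commutes with `(Φ k).map a`.  (Recursion on `k` with `exists_glue`; build the sequence from
the statement `∀ Ψ : OZ, (commuting property for k) → ∃ Ψ', (glue formula) ∧ (property for k+1)`,
e.g. with `Nat.rec` on the subtype or `exists_seq`-like choice.) -/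
theorem exists_iterGlue : ∃ Φ : ℕ → OZ (Fin n) F, IsIterGlue φ Φ ∧
    ∀ k a (x : F), (∀ j, j < k → ∀ y ∈ S j, Commute x y) → Commute x ((Φ k).map a) := by
  have step : ∀ (k : ℕ) (Ψ : {Ψ : OZ (Fin n) F // ∀ a (x : F),
      (∀ j, j < k → ∀ y ∈ S j, Commute x y) → Commute x (Ψ.map a)}),
      ∃ Ψ' : {Ψ : OZ (Fin n) F // ∀ a (x : F),
        (∀ j, j < k + 1 → ∀ y ∈ S j, Commute x y) → Commute x (Ψ.map a)},
      ∀ m, Ψ'.1.map m = (2 : ℂ)⁻¹ • (Ψ.1.map 1 * Ψ.1.map m + (φ k).map 1 * (φ k).map m +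
        Complex.I • ∑ i, ∑ j, (Ψ.1.map (Matrix.single i j 1) *
          (φ k).map (m * Matrix.single j i 1) -
            Ψ.1.map (m * Matrix.single i j 1) * (φ k).map (Matrix.single j i 1))) := by
    intro k Ψ
    have hc : ∀ a b, Commute (Ψ.1.map a) ((φ k).map b) := by
      intro a b
      refine (Ψ.2 a _ fun j hj y hy => ?_).symm
      exact hS k j (by omega) _ (hφ k b) y hy
    obtain ⟨Ψ', hΨ'⟩ := exists_glue Ψ.1 (φ k) hc
    refine ⟨⟨Ψ', fun a x hx => ?_⟩, hΨ'⟩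
    rw [hΨ' a]
    exact IterGlue_commute Ψ.1 (φ k) x
      (fun b => Ψ.2 b x fun j hj => hx j (by omega)) (fun b => hx k (by omega) _ (hφ k b)) a
  choose next hnext using step
  let Φ : (k : ℕ) → {Ψ : OZ (Fin n) F // ∀ a (x : F),
      (∀ j, j < k → ∀ y ∈ S j, Commute x y) → Commute x (Ψ.map a)} := fun k =>
    Nat.rec ⟨IterGlue_zero, fun a x _ => by
      change Commute x (0 : F)
      exact Commute.zero_right x⟩ (fun k Ψ => next k Ψ) k
  exact ⟨fun k => (Φ k).1, ⟨fun a => rfl, fun k m => hnext k (Φ k) m⟩, fun k => (Φ k).2⟩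

include hS hφ in
/-- `φ j (1)` commutes with every `(Φ k).map a`.  (Induction on `k`: `φ j (1)` commutes with
`φ j (a)` by `OZ.one_mul_comm`, with `φ i (a)`, `i ≠ j`, by `hS`; use the glue formula.) -/
theorem one_commute_iterGlue {Φ : ℕ → OZ (Fin n) F} (hΦ : IsIterGlue φ Φ) (j k : ℕ)
    (a : Matrix (Fin n) (Fin n) ℂ) : Commute ((φ j).map 1) ((Φ k).map a) := by
  induction k generalizing a with
  | zero =>
    rw [hΦ.1 a]
    exact Commute.zero_right _
  | succ k ih =>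
    rw [hΦ.2 k a]
    refine IterGlue_commute (Φ k) (φ k) _ ih (fun b => ?_) a
    by_cases hjk : j = k
    · subst hjk
      exact (φ j).one_mul_comm b
    · exact hS j k hjk _ (hφ j 1) _ (hφ k b)

/-- `Φ (k+1) (1) = ½ (Φ k (1)² + φ k (1)²)`. -/
theorem iterGlue_one {Φ : ℕ → OZ (Fin n) F} (hΦ : IsIterGlue φ Φ) (k : ℕ) :
    (Φ (k + 1)).map 1 =
      (2 : ℂ)⁻¹ • ((Φ k).map 1 * (Φ k).map 1 + (φ k).map 1 * (φ k).map 1) :=
  glue_one (Φ k) (φ k) (Φ (k + 1)) (hΦ.2 k)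

/-- If `‖φ j (1)‖ ≤ 1` for all `j` then `‖Φ k (1)‖ ≤ 1`. -/
theorem norm_iterGlue_one_le {Φ : ℕ → OZ (Fin n) F} (hΦ : IsIterGlue φ Φ)
    (h1 : ∀ j, ‖(φ j).map 1‖ ≤ 1) (k : ℕ) : ‖(Φ k).map 1‖ ≤ 1 := by
  induction k with
  | zero =>
    rw [hΦ.1 1, norm_zero]
    exact zero_le_one
  | succ k ih =>
    rw [glue_one (Φ k) (φ k) (Φ (k + 1)) (hΦ.2 k)]
    have h2 : ‖(Φ k).map 1 * (Φ k).map 1‖ ≤ 1 := by
      refine (norm_mul_le _ _).trans ?_
      exact mul_le_one₀ ih (norm_nonneg _) ih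
    have h3 : ‖(φ k).map 1 * (φ k).map 1‖ ≤ 1 := by
      refine (norm_mul_le _ _).trans ?_
      exact mul_le_one₀ (h1 k) (norm_nonneg _) (h1 k)
    rw [norm_smul]
    have h4 : ‖((2 : ℂ)⁻¹)‖ = 1 / 2 := by simp
    rw [h4]
    have h5 := norm_add_le ((Φ k).map 1 * (Φ k).map 1) ((φ k).map 1 * (φ k).map 1)
    linarith

end

end P101
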