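import Vale.Agent.Lib.P101.CutDef
import Vale.Agent.Lib.P101.IterGlue

/-!
# Cutoff lemmas, part A
-/

open scoped ENNReal Topology
open Filter Matrix

namespace P101

attribute [local instance] CStarAlgebra.spectralOrder CStarAlgebra.spectralOrderedRing

universe u

variable {F : Type u} [CStarAlgebra F]

theorem cut_nonneg_aux (ε s : ℝ) : 0 ≤ cut ε s :=
  le_min zero_le_one (le_max_left _ _)

theorem cut_le_one_aux (ε s : ℝ) : cut ε s ≤ 1 := min_le_left _ _

theorem cut_eq_zero_aux {ε s : ℝ} (hε : 0 < ε) (h : s ≤ ε) : cut ε s = 0 := by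
  have h1 : s / ε - 1 ≤ 0 := by
    have : s / ε ≤ 1 := (div_le_one hε).2 h
    linarith
  unfold cut
  rw [max_eq_left h1]
  exact min_eq_right zero_le_one

theorem cut_eq_one_aux {ε s : ℝ} (hε : 0 < ε) (h : 2 * ε ≤ s) : cut ε s = 1 := by
  have h1 : 1 ≤ s / ε - 1 := by
    have : 2 ≤ s / ε := (le_div_iff₀ hε).2 h
    linarith
  unfold cut
  exact min_eq_left (h1.trans (le_max_right _ _))

theorem one_sub_cut_mul_le_aux {ε s : ℝ} (hε : 0 < ε) :
    (1 - cut ε s) * s ≤ 2 * ε * (1 - cut ε s) := by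
  rcases le_or_gt (2 * ε) s with h | h
  · rw [cut_eq_one_aux hε h]
    simp
  · have := cut_le_one_aux ε s
    nlinarith

theorem sq_mul_cut_le_aux {ε s : ℝ} (hε : 0 < ε) :
    ε ^ 2 * cut ε s ≤ cut ε s * s ^ 2 := by
  rcases le_or_gt s ε with h | h
  · rw [cut_eq_zero_aux hε h]
    simp
  · have := cut_nonneg_aux ε s
    have h2 : ε ^ 2 ≤ s ^ 2 := by
      apply pow_le_pow_left₀ hε.le h.le
    nlinarith

theorem one_sub_cut_mul_one_sub_cut_aux {t t' s : ℝ} (ht : 0 < t) (ht' : 0 < t')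
    (h : 2 * t' ≤ t) : (1 - cut t' s) * (1 - cut t s) = 1 - cut t' s := by
  rcases le_or_gt (2 * t') s with h' | h'
  · rw [cut_eq_one_aux ht' h']
    simp
  · rw [cut_eq_zero_aux ht (h'.le.trans h)]
    simp

/-- For commuting positive `a, b` with `½ a² ≤ b` and `2 t' < ½ t²`, `t, t' > 0`:
`(1 - cut_{t'}(b)) cut_t(a) = 0`.

Proof.  `u = 1 - cut_{t'}(b) ≥ 0`, `v = cut_t(a) ≥ 0` commute with each other and with `a, b`.
`u v (b - ½ a²) ≥ 0`.  `u b ≤ 2 t' u` (scalar inequality `(1 - cut t' s) s ≤ 2 t' (1 - cut t' s)`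
for `s ≥ 0`) and `t² v ≤ v a²` (scalar: `t² cut t s ≤ cut t s · s²` for `s ≥ 0`).  So
`0 ≤ u v (b - ½ a²) ≤ (2 t' - ½ t²) u v`, with `u v ≥ 0` and `2 t' - ½ t² < 0`: `u v ≤ 0`,
`u v = 0`. -/
theorem one_sub_cut_mul_cut {a b : F} (ha : 0 ≤ a) (hb : 0 ≤ b) (hab : Commute a b)
    (h : (2 : ℂ)⁻¹ • (a * a) ≤ b) {t t' : ℝ} (ht : 0 < t) (ht' : 0 < t')
    (htt : 2 * t' < 2⁻¹ * t ^ 2) : (1 - cfc (cut t') b) * cfc (cut t) a = 0 := by
  have hasa : IsSelfAdjoint a := IsSelfAdjoint.of_nonneg ha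
  have hbsa : IsSelfAdjoint b := IsSelfAdjoint.of_nonneg hb
  have hc := continuous_cut t
  have hc' := continuous_cut t'
  set u : F := 1 - cfc (cut t') b with hu
  set v : F := cfc (cut t) a with hv
  have hu1 : u = cfc (fun s => 1 - cut t' s) b := by
    rw [hu, cfc_sub (fun _ => (1 : ℝ)) (cut t') b (by fun_prop) hc'.continuousOn, cfc_const_one ℝ b]
  have hu0 : 0 ≤ u := by
    rw [hu1]
    exact cfc_nonneg fun s _ => sub_nonneg.2 (cut_le_one_aux t' s)
  have hv0 : 0 ≤ v := by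
    rw [hv]
    exact cfc_nonneg fun s _ => cut_nonneg_aux t s
  -- commutations
  have hub : Commute u b := by
    rw [hu1]
    exact (Commute.refl b).cfc_real _
  have hua : Commute u a := by
    rw [hu1]
    exact hab.symm.cfc_real _
  have hvb : Commute v b := by
    rw [hv]
    exact hab.cfc_real _
  have hva : Commute v a := by
    rw [hv]
    exact (Commute.refl a).cfc_real _
  have huv : Commute u v := by
    rw [hv]
    exact (hua.symm.cfc_real _).symm
  -- first inequality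
  have h1 : 0 ≤ (2 * t') • u - u * b := by
    have e : (2 * t') • u - u * b =
        cfc (fun s => 2 * t' * (1 - cut t' s) - (1 - cut t' s) * s) b := by
      rw [cfc_sub (fun s => 2 * t' * (1 - cut t' s)) (fun s => (1 - cut t' s) * s) b
        (by fun_prop) (by fun_prop), cfc_const_mul (2 * t') (fun s => 1 - cut t' s) b (by fun_prop),
        cfc_mul (fun s => 1 - cut t' s) (fun s => s) b (by fun_prop) (by fun_prop),
        cfc_id' ℝ b, hu1]
    rw [e]
    exact cfc_nonneg fun s _ => sub_nonneg.2 (one_sub_cut_mul_le_aux ht')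
  have h2 : 0 ≤ v * (a * a) - (t ^ 2) • v := by
    have e : v * (a * a) - (t ^ 2) • v =
        cfc (fun s => cut t s * (s * s) - t ^ 2 * cut t s) a := by
      rw [cfc_sub (fun s => cut t s * (s * s)) (fun s => t ^ 2 * cut t s) a
        (by fun_prop) (by fun_prop), cfc_const_mul (t ^ 2) (fun s => cut t s) a (by fun_prop),
        cfc_mul (fun s => cut t s) (fun s => s * s) a (by fun_prop) (by fun_prop),
        cfc_mul (fun s => s) (fun s => s) a (by fun_prop) (by fun_prop),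
        cfc_id' ℝ a, hv]
    rw [e]
    refine cfc_nonneg fun s _ => sub_nonneg.2 ?_
    have := sq_mul_cut_le_aux (s := s) ht
    rw [sq s] at this
    exact this
  have h3 : 0 ≤ b - (2 : ℂ)⁻¹ • (a * a) := sub_nonneg.2 h
  have h2half : (2 : ℂ)⁻¹ • (a * a) = (2 : ℝ)⁻¹ • (a * a) := by
    rw [← Complex.coe_smul (2 : ℝ)⁻¹ (a * a)]
    norm_num
  rw [h2half] at h3
  have huv0 : 0 ≤ u * v := huv.mul_nonneg hu0 hv0
  -- three products
  have c1 : Commute ((2 * t') • u - u * b) v := by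
    apply Commute.sub_left
    · exact huv.smul_left _
    · exact huv.mul_left hvb.symm
  have p1 : 0 ≤ ((2 * t') • u - u * b) * v := c1.mul_nonneg h1 hv0
  have c2 : Commute u (v * (a * a) - (t ^ 2) • v) := by
    apply Commute.sub_right
    · exact huv.mul_right (hua.mul_right hua)
    · exact huv.smul_right _
  have p2 : 0 ≤ u * (v * (a * a) - (t ^ 2) • v) := c2.mul_nonneg hu0 h2
  have c3 : Commute (u * v) (b - (2 : ℝ)⁻¹ • (a * a)) := by
    apply Commute.sub_right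
    · exact hub.mul_left hvb
    · exact (((hua.mul_left hva).mul_right (hua.mul_left hva))).smul_right _
  have p3 : 0 ≤ (u * v) * (b - (2 : ℝ)⁻¹ • (a * a)) := c3.mul_nonneg huv0 h3
  have p2' : 0 ≤ (2 : ℝ)⁻¹ • (u * (v * (a * a) - (t ^ 2) • v)) :=
    smul_nonneg (by norm_num) p2
  have hsum : ((2 * t') • u - u * b) * v + (u * v) * (b - (2 : ℝ)⁻¹ • (a * a)) +
      (2 : ℝ)⁻¹ • (u * (v * (a * a) - (t ^ 2) • v)) = -((2⁻¹ * t ^ 2 - 2 * t') • (u * v)) := by
    have e1 : u * b * v = u * v * b := by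
      rw [mul_assoc, hvb.symm.eq, ← mul_assoc]
    clear_value u v
    rw [sub_mul ((2 * t') • u), mul_sub (u * v), mul_sub u, smul_sub (2 : ℝ)⁻¹, e1, smul_mul_assoc,
      mul_smul_comm, mul_smul_comm, sub_smul, smul_smul, ← mul_assoc u v (a * a)]
    abel
  have hneg : 0 ≤ -((2⁻¹ * t ^ 2 - 2 * t') • (u * v)) := by
    rw [← hsum]
    exact add_nonneg (add_nonneg p1 p3) p2'
  have hpos : 0 ≤ (2⁻¹ * t ^ 2 - 2 * t') • (u * v) :=
    smul_nonneg (sub_pos.2 htt).le huv0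
  have hzero : (2⁻¹ * t ^ 2 - 2 * t') • (u * v) = 0 :=
    le_antisymm (neg_nonneg.1 hneg) hpos
  exact (smul_eq_zero.1 hzero).resolve_left (sub_pos.2 htt).ne'

/-- For `Φ` the iterated glue of `φ` (with `φ j (1)` commuting with `Φ k (1)` and with each other),
`k : ℕ` and `ε > 0` there is `t₁ > 0` such that for all `0 < t ≤ t₁` and `j < k`:
`(1 - cut_t(Φ k (1))) cut_ε(φ j (1)) = 0`.

Proof.  Note that `(1 - cut_t(b)) x = 0` and `t' ≤ t/2` imply `(1 - cut_{t'}(b)) x = 0`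
(`(1 - cut t') (1 - cut t) = 1 - cut t'` for `2 t' ≤ t`: then `(1 - cut_{t'}) x =
(1 - cut_{t'})(1 - cut_t) x = 0`).
Induction on `k`.  For `k + 1`: `H_{k+1} = ½ (H_k² + h_k²) ≥ ½ h_k²`, `≥ ½ H_k²`.
`j = k`: `one_sub_cut_mul_cut` with `a = h_k`, `b = H_{k+1}`.  `j < k`: let `t₁` be as in the
induction hypothesis for `k`; then `cut_ε(h_j) = cut_{t₁}(H_k) cut_ε(h_j)`, and
`(1 - cut_t(H_{k+1})) cut_{t₁}(H_k) = 0` for `2 t < ½ t₁²` by `one_sub_cut_mul_cut`. -/
theorem exists_cut_iterGlue {n : ℕ} {φ Φ : ℕ → OZ (Fin n) F} (hΦ : IsIterGlue φ Φ)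
    (hc : ∀ j k, Commute ((φ j).map 1) ((Φ k).map 1)) (k : ℕ) {ε : ℝ} (hε : 0 < ε) :
    ∃ t₁ : ℝ, 0 < t₁ ∧ ∀ t, 0 < t → t ≤ t₁ → ∀ j, j < k →
      (1 - cfc (cut t) ((Φ k).map 1)) * cfc (cut ε) ((φ j).map 1) = 0 := by
  induction k with
  | zero => exact ⟨1, one_pos, fun t _ _ j hj => absurd hj (Nat.not_lt_zero j)⟩
  | succ k ih =>
    obtain ⟨t₁, ht₁, ih⟩ := ih
    have hφ0 : 0 ≤ (φ k).map 1 := (φ k).one_nonneg
    have hΦ0 : 0 ≤ (Φ k).map 1 := (Φ k).one_nonneg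
    have hS0 : 0 ≤ (Φ (k + 1)).map 1 := (Φ (k + 1)).one_nonneg
    have hsq : ∀ x : F, 0 ≤ x → 0 ≤ (2 : ℂ)⁻¹ • (x * x) := by
      intro x hx
      have e : (2 : ℂ)⁻¹ • (x * x) = (2 : ℝ)⁻¹ • (x * x) := by
        rw [← Complex.coe_smul (2 : ℝ)⁻¹ (x * x)]
        norm_num
      rw [e]
      exact smul_nonneg (by norm_num) ((Commute.refl x).mul_nonneg hx hx)
    have hone := iterGlue_one φ hΦ k
    have hle1 : (2 : ℂ)⁻¹ • ((φ k).map 1 * (φ k).map 1) ≤ (Φ (k + 1)).map 1 := by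
      rw [hone, smul_add]
      exact le_add_of_nonneg_left (hsq _ hΦ0)
    have hle2 : (2 : ℂ)⁻¹ • ((Φ k).map 1 * (Φ k).map 1) ≤ (Φ (k + 1)).map 1 := by
      rw [hone, smul_add]
      exact le_add_of_nonneg_right (hsq _ hφ0)
    have hc2 : Commute ((Φ k).map 1) ((Φ (k + 1)).map 1) := by
      rw [hone]
      exact ((((Commute.refl _).mul_right (Commute.refl _)).add_right
        ((hc k k).symm.mul_right (hc k k).symm))).smul_right _
    refine ⟨min (ε ^ 2 / 8) (t₁ ^ 2 / 8), by positivity, fun t ht htle j hj => ?_⟩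
    rcases Nat.lt_succ_iff_lt_or_eq.1 hj with hjk | hjk
    · have h1 : (1 - cfc (cut t) ((Φ (k + 1)).map 1)) * cfc (cut t₁) ((Φ k).map 1) = 0 := by
        refine one_sub_cut_mul_cut hΦ0 hS0 hc2 hle2 ht₁ ht ?_
        have h4 := htle.trans (min_le_right _ _)
        have h5 : 0 < t₁ ^ 2 := by positivity
        linarith
      have h2 := ih t₁ ht₁ le_rfl j hjk
      rw [sub_mul, one_mul, sub_eq_zero] at h2
      rw [h2, ← mul_assoc, h1, zero_mul]
    · subst hjk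
      refine one_sub_cut_mul_cut hφ0 hS0 (hc j (j + 1)) hle1 hε ht ?_
      have h4 := htle.trans (min_le_left _ _)
      have h5 : 0 < ε ^ 2 := by positivity
      linarith

end P101
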