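import Mathlib.Analysis.SpecialFunctions.ContinuousFunctionalCalculus.Rpow.Basic
import Vale.Agent.Lib.P101.CutDef

/-!
# Cutoff lemmas, part B
-/

open scoped ENNReal Topology
open Filter Matrix

namespace P101

attribute [local instance] CStarAlgebra.spectralOrder CStarAlgebra.spectralOrderedRing

universe u

variable {F : Type u} [CStarAlgebra F]

theorem cut_nonneg' (ε t : ℝ) : 0 ≤ cut ε t := by
  unfold cut
  exact le_min zero_le_one (le_max_left _ _)

theorem cut_le_one' (ε t : ℝ) : cut ε t ≤ 1 := min_le_left _ _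

theorem cut_eq_zero_of_le {ε t : ℝ} (hε : 0 < ε) (h : t ≤ ε) : cut ε t = 0 := by
  unfold cut
  have h1 : t / ε - 1 ≤ 0 := by
    rw [sub_nonpos, div_le_one hε]
    exact h
  rw [max_eq_left h1, min_eq_right zero_le_one]

theorem cut_eq_one_of_le {ε t : ℝ} (hε : 0 < ε) (h : 2 * ε ≤ t) : cut ε t = 1 := by
  unfold cut
  have h1 : 1 ≤ t / ε - 1 := by
    rw [le_sub_iff_add_le, le_div_iff₀ hε]
    linarith
  exact min_eq_left (h1.trans (le_max_right _ _))

theorem one_sub_cfc_cut {h : F} (hh : IsSelfAdjoint h) (δ : ℝ) :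
    1 - cfc (cut δ) h = cfc (fun t => 1 - cut δ t) h := by
  rw [cfc_sub (fun _ : ℝ => (1 : ℝ)) (cut δ) h continuousOn_const
    (continuous_cut δ).continuousOn, cfc_const_one ℝ h hh]

/-- `κ = 1 - cut_δ(h)` for `0 ≤ h`: `‖κ‖ ≤ 1`, `‖h κ‖ ≤ 2 δ`. -/
theorem norm_one_sub_cut_le {h : F} (hh : 0 ≤ h) {δ : ℝ} (hδ : 0 < δ) :
    ‖1 - cfc (cut δ) h‖ ≤ 1 ∧ ‖h * (1 - cfc (cut δ) h)‖ ≤ 2 * δ := by
  have hsa : IsSelfAdjoint h := IsSelfAdjoint.of_nonneg hh
  have hcont : Continuous (fun t => 1 - cut δ t) := continuous_const.sub (continuous_cut δ)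
  rw [one_sub_cfc_cut hsa]
  constructor
  · refine norm_cfc_le zero_le_one fun x _ => ?_
    rw [Real.norm_eq_abs, abs_le]
    constructor <;> linarith [cut_nonneg' δ x, cut_le_one' δ x]
  · have h1 : h * cfc (fun t => 1 - cut δ t) h = cfc (fun t => t * (1 - cut δ t)) h := by
      rw [cfc_mul (fun t : ℝ => t) (fun t => 1 - cut δ t) h continuousOn_id hcont.continuousOn,
        cfc_id' ℝ h hsa]
    rw [h1]
    refine norm_cfc_le (by positivity) fun x hx => ?_
    have hx0 : 0 ≤ x := spectrum_nonneg_of_nonneg hh hx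
    rw [Real.norm_eq_abs, abs_of_nonneg (mul_nonneg hx0 (by linarith [cut_le_one' δ x]))]
    rcases le_total (2 * δ) x with hc | hc
    · rw [cut_eq_one_of_le hδ hc]
      simp [hδ.le]
    · calc x * (1 - cut δ x) ≤ x * 1 :=
            mul_le_mul_of_nonneg_left (by linarith [cut_nonneg' δ x]) hx0
        _ ≤ 2 * δ := by linarith

/-- `(1 - cut_δ(h)) cut_ε(h) = 0` if `2 δ ≤ ε`. -/
theorem one_sub_cut_mul_cut_self {h : F} (hh : 0 ≤ h) {δ ε : ℝ} (hδ : 0 < δ) (hδε : 2 * δ ≤ ε) :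
    (1 - cfc (cut δ) h) * cfc (cut ε) h = 0 := by
  have hsa : IsSelfAdjoint h := IsSelfAdjoint.of_nonneg hh
  have hcont : Continuous (fun t => 1 - cut δ t) := continuous_const.sub (continuous_cut δ)
  rw [one_sub_cfc_cut hsa, ← cfc_mul (fun t => 1 - cut δ t) (cut ε) h hcont.continuousOn
    (continuous_cut ε).continuousOn]
  have h0 : (fun t => (1 - cut δ t) * cut ε t) = fun _ => 0 := by
    funext t
    rcases le_total t ε with hc | hc
    · rw [cut_eq_zero_of_le (by linarith) hc, mul_zero]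
    · rw [cut_eq_one_of_le hδ (hδε.trans hc), sub_self, zero_mul]
  rw [h0]
  exact cfc_const_zero ℝ h

/-- the function `cut t s / s`, continuous (it vanishes for `s ≤ t`). -/
noncomputable def cutDiv (t s : ℝ) : ℝ := cut t s / max s t

theorem continuous_cutDiv {t : ℝ} (ht : 0 < t) : Continuous (cutDiv t) := by
  unfold cutDiv
  refine (continuous_cut t).div (continuous_id.max continuous_const) fun s => ?_
  exact (lt_of_lt_of_le ht (le_max_right s t)).ne'

theorem cutDiv_mul {t : ℝ} (ht : 0 < t) {s : ℝ} : cutDiv t s * s = cut t s := by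
  unfold cutDiv
  rcases le_total s t with hc | hc
  · rw [cut_eq_zero_of_le ht hc, zero_div, zero_mul]
  · rw [max_eq_left hc, div_mul_cancel₀]
    exact (lt_of_lt_of_le ht hc).ne'

theorem cutDiv_nonneg {t : ℝ} (ht : 0 < t) (s : ℝ) : 0 ≤ cutDiv t s :=
  div_nonneg (cut_nonneg' t s) (ht.le.trans (le_max_right s t))

/-- **Functional calculus of an order zero map**: `ψ(m) = cutDiv_t(H) Φ(m)`, `H = Φ(1)`, is an order
zero map with `ψ(1) = cut_t(H)`; moreover `‖cutDiv_t(H)‖ ≤ 1/t`. -/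
theorem exists_cutOZ {n : ℕ} (Φ : OZ (Fin n) F) {t : ℝ} (ht : 0 < t) :
    ∃ ψ : OZ (Fin n) F, (∀ m, ψ.map m = cfc (cutDiv t) (Φ.map 1) * Φ.map m) ∧
      ψ.map 1 = cfc (cut t) (Φ.map 1) := by
  have hsa : IsSelfAdjoint (Φ.map 1) := Φ.one_isSelfAdjoint
  set X : F := cfc (cutDiv t) (Φ.map 1) with hX
  have hXsa : star X = X := (cfc_predicate (R := ℝ) (cutDiv t) (Φ.map 1)).star_eq
  have hcomm : ∀ m, Commute X (Φ.map m) := fun m =>
    Commute.cfc_real (show Commute (Φ.map 1) (Φ.map m) from Φ.one_mul_comm m) _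
  have h1 : X * Φ.map 1 = cfc (cut t) (Φ.map 1) := by
    calc X * Φ.map 1 = cfc (cutDiv t) (Φ.map 1) * cfc (fun s : ℝ => s) (Φ.map 1) := by
          rw [cfc_id' ℝ (Φ.map 1) hsa]
      _ = cfc (fun s => cutDiv t s * s) (Φ.map 1) := by
          rw [cfc_mul (cutDiv t) (fun s : ℝ => s) (Φ.map 1) (continuous_cutDiv ht).continuousOn
            continuousOn_id]
      _ = cfc (cut t) (Φ.map 1) := by
          congr 1
          funext s
          exact cutDiv_mul ht
  have hnn : 0 ≤ cfc (cut t) (Φ.map 1) := cfc_nonneg fun s _ => cut_nonneg' t s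
  refine ⟨{ map := (LinearMap.mulLeft ℂ X).comp Φ.map
            map_star := ?_
            map_mul := ?_
            nonneg := ?_ }, fun m => rfl, h1⟩
  · intro a
    change X * Φ.map (star a) = star (X * Φ.map a)
    rw [star_mul, Φ.map_star, hXsa, ← Φ.map_star]
    exact (hcomm (star a)).eq
  · intro a b
    change (X * Φ.map a) * (X * Φ.map b) = (X * Φ.map 1) * (X * Φ.map (a * b))
    calc (X * Φ.map a) * (X * Φ.map b) = X * (Φ.map a * X) * Φ.map b := by
          simp only [mul_assoc]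
      _ = X * X * (Φ.map a * Φ.map b) := by
          rw [← (hcomm a).eq]; simp only [mul_assoc]
      _ = X * X * (Φ.map 1 * Φ.map (a * b)) := by rw [Φ.map_mul]
      _ = X * (Φ.map 1 * X) * Φ.map (a * b) := by
          rw [← (hcomm 1).eq]; simp only [mul_assoc]
      _ = (X * Φ.map 1) * (X * Φ.map (a * b)) := by simp only [mul_assoc]
  · change ∃ k : F, X * Φ.map 1 = star k * k
    rw [h1]
    exact CStarAlgebra.nonneg_iff_eq_star_mul_self.mp hnn

theorem norm_cutDiv_le {h : F} {t : ℝ} (ht : 0 < t) : ‖cfc (cutDiv t) h‖ ≤ 1 / t := by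
  refine norm_cfc_le (by positivity) fun x _ => ?_
  rw [Real.norm_eq_abs, abs_of_nonneg (cutDiv_nonneg ht x)]
  unfold cutDiv
  exact div_le_div₀ zero_le_one (cut_le_one' t x) ht (le_max_right x t)

end P101
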