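import Mathlib.Algebra.Order.Ring.Star
import Mathlib.Analysis.CStarAlgebra.ContinuousFunctionalCalculus.Order
import Vale.Agent.Lib.P101.Base

/-!
# A Douglas type lemma
-/

open scoped ENNReal Topology
open Filter Matrix

namespace P101

attribute [local instance] CStarAlgebra.spectralOrder CStarAlgebra.spectralOrderedRing

universe u

theorem Douglas_norm_le {F : Type u} [CStarAlgebra F] {w b : F} (hw : star w = w)
    (hb : star b = b) (h : w * w ≤ b * b) (y : F) : ‖y * w‖ ≤ ‖y * b‖ := by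
  have h1 : ‖y * w‖ * ‖y * w‖ = ‖y * (w * w) * star y‖ := by
    rw [← CStarRing.norm_self_mul_star, star_mul, hw]
    congr 1
    noncomm_ring
  have h2 : ‖y * b‖ * ‖y * b‖ = ‖y * (b * b) * star y‖ := by
    rw [← CStarRing.norm_self_mul_star, star_mul, hb]
    congr 1
    noncomm_ring
  have h3 : 0 ≤ y * (w * w) * star y := by
    have h4 : y * (w * w) * star y = (y * w) * star (y * w) := by
      rw [star_mul, hw]
      noncomm_ring
    rw [h4]
    exact mul_star_self_nonneg _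
  have h4 : ‖y * (w * w) * star y‖ ≤ ‖y * (b * b) * star y‖ :=
    CStarAlgebra.norm_le_norm_of_nonneg_of_le h3 (star_right_conjugate_le_conjugate h y)
  rw [← h1, ← h2] at h4
  exact (mul_self_le_mul_self_iff (norm_nonneg _) (norm_nonneg _)).2 h4

theorem Douglas_norm_eq {F : Type u} [CStarAlgebra F] {x b : F}
    (hb : star b = b) (h : b * b = star x * x) (z : F) : ‖x * z‖ = ‖b * z‖ := by
  have h1 : ‖x * z‖ * ‖x * z‖ = ‖b * z‖ * ‖b * z‖ := by
    rw [← CStarRing.norm_star_mul_self, ← CStarRing.norm_star_mul_self, star_mul, star_mul, hb]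
    congr 1
    calc star z * star x * (x * z) = star z * (star x * x) * z := by noncomm_ring
      _ = star z * b * (b * z) := by rw [← h]; noncomm_ring
  exact (mul_self_inj (norm_nonneg _) (norm_nonneg _)).1 h1

/-- regularised inverse of a positive element -/
theorem Douglas_exists_inv {F : Type u} [CStarAlgebra F] {b : F} (hb : 0 ≤ b) {s : ℝ}
    (hs : 0 < s) : ∃ G : F, star G = G ∧ b * G = G * b ∧ ‖(1 - b * G) * b‖ ≤ s := by
  have hsa : IsSelfAdjoint b := IsSelfAdjoint.of_nonneg hb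
  have hspec : ∀ t ∈ spectrum ℝ b, 0 ≤ t := fun t ht => spectrum_nonneg_of_nonneg hb ht
  have hcont : ContinuousOn (fun t : ℝ => (s + t)⁻¹) (spectrum ℝ b) := by
    refine ContinuousOn.inv₀ (by fun_prop) ?_
    intro t ht
    have := hspec t ht
    positivity
  have hid : cfc (fun t : ℝ => t) b = b := cfc_id' ℝ b
  have hbG : b * cfc (fun t : ℝ => (s + t)⁻¹) b = cfc (fun t : ℝ => t * (s + t)⁻¹) b := by
    rw [cfc_mul (fun t : ℝ => t) (fun t : ℝ => (s + t)⁻¹) b (by fun_prop) hcont, hid]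
  have hGb : cfc (fun t : ℝ => (s + t)⁻¹) b * b = cfc (fun t : ℝ => t * (s + t)⁻¹) b := by
    have h1 := cfc_mul (fun t : ℝ => (s + t)⁻¹) (fun t : ℝ => t) b hcont (by fun_prop)
    rw [hid] at h1
    rw [← h1]
    exact cfc_congr fun t _ => mul_comm _ _
  refine ⟨cfc (fun t : ℝ => (s + t)⁻¹) b, ?_, ?_, ?_⟩
  · exact (cfc_predicate (fun t : ℝ => (s + t)⁻¹) b).star_eq
  · rw [hbG, hGb]
  · have hcont2 : ContinuousOn (fun t : ℝ => t * (s + t)⁻¹) (spectrum ℝ b) :=
      continuousOn_id.mul hcont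
    have h1 : (1 - b * cfc (fun t : ℝ => (s + t)⁻¹) b) * b =
        cfc (fun t : ℝ => t - t * (s + t)⁻¹ * t) b := by
      rw [cfc_sub (fun t : ℝ => t) (fun t : ℝ => t * (s + t)⁻¹ * t) b (by fun_prop)
        (hcont2.mul continuousOn_id), hid,
        cfc_mul (fun t : ℝ => t * (s + t)⁻¹) (fun t : ℝ => t) b hcont2 (by fun_prop), hid, hbG,
        sub_mul, one_mul]
    rw [h1]
    refine norm_cfc_le hs.le ?_
    intro t ht
    have ht0 := hspec t ht
    have h2 : t - t * (s + t)⁻¹ * t = s * (t / (s + t)) := by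
      have h3 : s + t ≠ 0 := by positivity
      field_simp
      ring
    rw [h2, Real.norm_of_nonneg (by positivity)]
    have h3 : t / (s + t) ≤ 1 := by
      rw [div_le_one (by positivity)]
      linarith
    nlinarith

/-- **Douglas type lemma.**  If `0 ≤ v ≤ x* x` then there is `r` in the closure of `x F` with
`r* r = v`.

Proof.  `c = x* x`, `w = v^{1/2}`, `r_n = x (1/(n+1) + c)^{-1/2} w`.  With
`d = (1/(n+1) + c)^{-1/2} - (1/(m+1) + c)^{-1/2}`:
`‖r_n - r_m‖² = ‖w d c d w‖ = ‖c^{1/2} d v d c^{1/2}‖ ≤ ‖c^{1/2} d c d c^{1/2}‖ = ‖c d‖²`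
(as `‖c^{1/2} d w‖² = ‖c^{1/2} d w w d c^{1/2}‖`), and
`‖c d‖ ≤ sup_{t ≥ 0} |t (1/(n+1) + t)^{-1/2} - t^{1/2}| + (same for m) → 0`
(`0 ≤ t^{1/2} - t (s+t)^{-1/2} ≤ s^{1/2}`).  So `r_n → r`, and
`r_n* r_n = w c (1/(n+1) + c)^{-1} w = v - (1/(n+1)) w (1/(n+1) + c)^{-1} w → v`, because
`‖(1/(n+1)) w (1/(n+1)+c)^{-1} w‖ = (1/(n+1)) ‖(1/(n+1)+c)^{-1/2} v (1/(n+1)+c)^{-1/2}‖ ≤ 1/(n+1)`
(`v ≤ c ≤ 1/(n+1) + c`). -/
theorem exists_star_mul_self_eq {F : Type u} [CStarAlgebra F] {v x : F} (hv : 0 ≤ v)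
    (hvx : v ≤ star x * x) :
    ∃ r ∈ closure (Set.range fun y : F => x * y), star r * r = v := by
  obtain ⟨b, hb0, hbb⟩ : ∃ b : F, 0 ≤ b ∧ b * b = star x * x :=
    ⟨CFC.sqrt (star x * x), CFC.sqrt_nonneg _,
      CFC.sqrt_mul_sqrt_self _ (star_mul_self_nonneg x)⟩
  obtain ⟨w, hw0, hww⟩ : ∃ w : F, 0 ≤ w ∧ w * w = v :=
    ⟨CFC.sqrt v, CFC.sqrt_nonneg _, CFC.sqrt_mul_sqrt_self _ hv⟩
  have hbs : star b = b := (IsSelfAdjoint.of_nonneg hb0).star_eq
  have hws : star w = w := (IsSelfAdjoint.of_nonneg hw0).star_eq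
  have hle : w * w ≤ b * b := by
    rw [hww, hbb]
    exact hvx
  choose G hGs hGc hGn using fun n : ℕ =>
    Douglas_exists_inv hb0 (s := 1 / ((n : ℝ) + 1)) Nat.one_div_pos_of_nat
  have hZ : Tendsto (fun n => b * (G n * w)) atTop (𝓝 w) := by
    rw [tendsto_iff_norm_sub_tendsto_zero]
    refine squeeze_zero (fun n => norm_nonneg _) (fun n => ?_)
      tendsto_one_div_add_atTop_nhds_zero_nat
    have h1 : b * (G n * w) - w = -((1 - b * G n) * w) := by noncomm_ring
    rw [h1, norm_neg]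
    exact (Douglas_norm_le hws hbs hle _).trans (hGn n)
  have hC : CauchySeq fun n => x * (G n * w) := by
    have h1 := hZ.cauchySeq
    rw [Metric.cauchySeq_iff] at h1 ⊢
    intro ε hε
    obtain ⟨N, hN⟩ := h1 ε hε
    refine ⟨N, fun m hm n hn => ?_⟩
    have h2 := hN m hm n hn
    rw [dist_eq_norm] at h2 ⊢
    rw [← mul_sub] at h2 ⊢
    rwa [Douglas_norm_eq hbs hbb]
  obtain ⟨r, hr⟩ := cauchySeq_tendsto_of_complete hC
  refine ⟨r, mem_closure_of_tendsto hr (Eventually.of_forall fun n => ⟨G n * w, rfl⟩), ?_⟩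
  have h1 : Tendsto (fun n => star (x * (G n * w)) * (x * (G n * w))) atTop
      (𝓝 (star r * r)) := (hr.star).mul hr
  have h2 : Tendsto (fun n => star (b * (G n * w)) * (b * (G n * w))) atTop
      (𝓝 (star w * w)) := (hZ.star).mul hZ
  have h3 : (fun n => star (x * (G n * w)) * (x * (G n * w))) =
      fun n => star (b * (G n * w)) * (b * (G n * w)) := by
    funext n
    rw [star_mul, star_mul, star_mul b, hbs]
    calc star w * star (G n) * star x * (x * (G n * w))
        = star w * star (G n) * (star x * x) * (G n * w) := by noncomm_ring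
      _ = star (G n * w) * b * (b * (G n * w)) := by
          rw [← hbb, star_mul]
          noncomm_ring
  rw [h3] at h1
  have h4 := tendsto_nhds_unique h1 h2
  rw [h4, hws, hww]

end P101
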