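import Vale.Agent.Lib.P101.Base

/-!
# Two recursions (elementary symmetric polynomials with and without cutoffs)
-/

open scoped ENNReal Topology
open Filter Matrix

namespace P101

attribute [local instance] CStarAlgebra.spectralOrder CStarAlgebra.spectralOrderedRing

universe u

/-- `eS t k m` is the elementary symmetric polynomial of degree `m` in `t 0, …, t (k-1)`. -/
def eS {F : Type u} [Ring F] (t : ℕ → F) : ℕ → ℕ → F
  | 0, 0 => 1
  | 0, (_ + 1) => 0
  | (k + 1), 0 => eS t k 0
  | (k + 1), (m + 1) => eS t k (m + 1) + eS t k m * t k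

/-- `gR κ τ k m` is the coefficient of `z^m` in `∏_{j<k} (κ j + z τ j)`. -/
def gR {F : Type u} [Ring F] (κ τ : ℕ → F) : ℕ → ℕ → F
  | 0, 0 => 1
  | 0, (_ + 1) => 0
  | (k + 1), 0 => gR κ τ k 0 * κ k
  | (k + 1), (m + 1) => gR κ τ k (m + 1) * κ k + gR κ τ k m * τ k

theorem eS_zero {F : Type u} [Ring F] (t : ℕ → F) (k : ℕ) : eS t k 0 = 1 := by
  induction k with
  | zero => rfl
  | succ k ih => exact ih

theorem Rec_commute_eS {F : Type u} [Ring F] (t : ℕ → F) (k m : ℕ) {x : F}
    (hx : ∀ j, j < k → Commute x (t j)) : Commute x (eS t k m) := by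
  induction k generalizing m with
  | zero =>
    cases m with
    | zero => exact Commute.one_right x
    | succ m => exact Commute.zero_right x
  | succ k ih =>
    have ih' := fun m => ih m (fun j hj => hx j (Nat.lt_succ_of_lt hj))
    cases m with
    | zero => exact ih' 0
    | succ m =>
      exact (ih' (m + 1)).add_right ((ih' m).mul_right (hx k (Nat.lt_succ_self k)))

/-- **Inequality** `e_{i+1}(t_0, …, t_{k-1}) ≥ ∑ t_j - i` for pairwise commuting
`0 ≤ t_j ≤ 1`.

Proof by induction on `k` (simultaneously: `eS t k m ≥ 0`, and `eS t k m` commutes with `t j`).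
`k = 0`: `-i ≤ 0`.  `k + 1`, `i = 0`: `eS t k 1 + t_k ≥ ∑_{j<k} t_j + t_k`.  `k + 1`, `i + 1`: with
`σ = ∑_{j<k} t_j`, `t = t_k`, `eS t k (i+2) + eS t k (i+1) t
= (1 - t) eS t k (i+2) + t (eS t k (i+2) + eS t k (i+1)) ≥ (1 - t)(σ - (i+1)) + t (0 + σ - i)
= σ + t - (i + 1)` (products of commuting positive elements are positive). -/
theorem le_eS {F : Type u} [CStarAlgebra F] (t : ℕ → F) (h0 : ∀ j, 0 ≤ t j) (h1 : ∀ j, t j ≤ 1)
    (hc : ∀ i j, Commute (t i) (t j)) (k i : ℕ) :
    (∑ j ∈ Finset.range k, t j) - (i : ℝ) • (1 : F) ≤ eS t k (i + 1) := by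
  have hpos : ∀ k m, 0 ≤ eS t k m := by
    intro k
    induction k with
    | zero =>
      intro m
      cases m with
      | zero => exact zero_le_one
      | succ m => exact le_refl _
    | succ k ih =>
      intro m
      cases m with
      | zero => exact ih 0
      | succ m =>
        apply add_nonneg (ih (m + 1))
        exact Commute.mul_nonneg (ih m) (h0 k)
          (Rec_commute_eS t k m (fun j _ => hc k j)).symm
  induction k generalizing i with
  | zero =>
    have h2 : (0 : F) ≤ (i : ℝ) • (1 : F) := smul_nonneg (Nat.cast_nonneg i) zero_le_one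
    simpa [eS] using h2
  | succ k ih =>
    rw [Finset.sum_range_succ]
    cases i with
    | zero =>
      have h2 := ih 0
      have e : eS t (k + 1) (0 + 1) = eS t k 1 + t k := by
        show eS t k 1 + eS t k 0 * t k = _
        rw [eS_zero, one_mul]
      rw [e]
      have h3 := add_le_add_left h2 (t k)
      refine le_trans (le_of_eq ?_) h3
      simp
    | succ i =>
      have e : eS t (k + 1) (i + 1 + 1) = eS t k (i + 2) + eS t k (i + 1) * t k := rfl
      rw [e]
      set σ := ∑ j ∈ Finset.range k, t j with hσ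
      have hcσ : Commute (t k) σ := Commute.sum_right _ _ _ (fun j _ => hc k j)
      have hca : Commute (t k) (eS t k (i + 2)) := Rec_commute_eS t k _ (fun j _ => hc k j)
      have hcb : Commute (t k) (eS t k (i + 1)) := Rec_commute_eS t k _ (fun j _ => hc k j)
      have hc1 : ∀ r : ℝ, Commute (t k) (r • (1 : F)) := fun r =>
        (Commute.one_right (t k)).smul_right r
      have p1 : 0 ≤ eS t k (i + 2) - (σ - ((i + 1 : ℕ) : ℝ) • (1 : F)) := sub_nonneg.mpr (ih (i + 1))
      have p2 : 0 ≤ eS t k (i + 2) + (eS t k (i + 1) - (σ - (i : ℝ) • (1 : F))) :=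
        add_nonneg (hpos k _) (sub_nonneg.mpr (ih i))
      have q1 : 0 ≤ (1 - t k) * (eS t k (i + 2) - (σ - ((i + 1 : ℕ) : ℝ) • (1 : F))) := by
        apply Commute.mul_nonneg (sub_nonneg.mpr (h1 k)) p1
        apply Commute.sub_left (Commute.one_left _)
        exact hca.sub_right (hcσ.sub_right (hc1 _))
      have q2 : 0 ≤ t k * (eS t k (i + 2) + (eS t k (i + 1) - (σ - (i : ℝ) • (1 : F)))) := by
        apply Commute.mul_nonneg (h0 k) p2
        exact hca.add_right (hcb.sub_right (hcσ.sub_right (hc1 _)))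
      have q3 := add_nonneg q1 q2
      rw [← sub_nonneg]
      refine le_trans q3 (le_of_eq ?_)
      have e1 : ((i + 1 : ℕ) : ℝ) • (1 : F) = (i : ℝ) • (1 : F) + 1 := by
        push_cast
        rw [add_smul, one_smul]
      rw [e1]
      have e2 : eS t k (i + 1) * t k = t k * eS t k (i + 1) := hcb.eq.symm
      rw [e2]
      generalize (i : ℝ) • (1 : F) = c
      noncomm_ring

section Sites

variable {F : Type u} [CStarAlgebra F] (S : ℕ → StarSubalgebra ℂ F)
  (hS : ∀ i j, i ≠ j → ∀ x ∈ S i, ∀ y ∈ S j, Commute x y)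

/-- an element commuting with all `S j`, `j < k`, commutes with `gR κ τ k m`. -/
theorem commute_gR {κ τ : ℕ → F} (hκ : ∀ j, κ j ∈ S j) (hτ : ∀ j, τ j ∈ S j) (k m : ℕ) {x : F}
    (hx : ∀ j, j < k → ∀ y ∈ S j, Commute x y) : Commute x (gR κ τ k m) := by
  induction k generalizing m with
  | zero =>
    cases m with
    | zero => exact Commute.one_right x
    | succ m => exact Commute.zero_right x
  | succ k ih =>
    have ih' := fun m => ih m (fun j hj => hx j (Nat.lt_succ_of_lt hj))
    have hk := hx k (Nat.lt_succ_self k)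
    cases m with
    | zero => exact (ih' 0).mul_right (hk _ (hκ k))
    | succ m =>
      exact ((ih' (m + 1)).mul_right (hk _ (hκ k))).add_right ((ih' m).mul_right (hk _ (hτ k)))

include hS in
theorem Rec_comm_site {κ τ : ℕ → F} (hκ : ∀ j, κ j ∈ S j) (hτ : ∀ j, τ j ∈ S j) (k m : ℕ) {x : F}
    (hx : x ∈ S k) : x * gR κ τ k m = gR κ τ k m * x :=
  (commute_gR S hκ hτ k m (fun j hj y hy => hS k j (Nat.ne_of_gt hj) x hx y hy)).eq

include hS in
theorem Rec_comm_site_star {κ τ : ℕ → F} (hκ : ∀ j, κ j ∈ S j) (hτ : ∀ j, τ j ∈ S j) (k m : ℕ)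
    {x : F} (hx : x ∈ S k) : x * star (gR κ τ k m) = star (gR κ τ k m) * x := by
  have h := Rec_comm_site S hS hκ hτ k m (star_mem hx)
  have h2 := congrArg star h
  rw [star_mul, star_mul, star_star] at h2
  exact h2.symm

include hS in
/-- **Orthogonality**.  By induction on `k`:
`star (G_m κ + G_{m-1} τ) y (G'_{m'} κ + G'_{m'-1} τ')`, where `κ = κ k`, `τ = τ k`, `τ' = τ' k`
commute with `G = gR κ τ k _`, `G' = gR κ τ' k _` and their adjoints: the four terms are
`κ* (G_m* y G'_{m'}) κ = 0`, `G_m* (κ* y τ') G'_{m'-1} = 0`, `G_{m-1}* (τ* y κ) G'_{m'} = 0`,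
`τ* (G_{m-1}* y G'_{m'-1}) τ' = 0` (cases `m = 0`, `m' = 0` separately). -/
theorem gR_orth {κ τ τ' : ℕ → F} (hκ : ∀ j, κ j ∈ S j) (hτ : ∀ j, τ j ∈ S j)
    (hτ' : ∀ j, τ' j ∈ S j) {y : F} (h1 : ∀ j, star (κ j) * y * τ' j = 0)
    (h2 : ∀ j, star (τ j) * y * κ j = 0) (k m m' : ℕ) (hm : m ≠ m') :
    star (gR κ τ k m) * y * gR κ τ' k m' = 0 := by
  induction k generalizing m m' with
  | zero =>
    cases m with
    | zero =>
      cases m' with
      | zero => exact absurd rfl hm
      | succ m' =>
        show _ * (0 : F) = 0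
        exact mul_zero _
    | succ m =>
      show star (0 : F) * y * _ = 0
      rw [star_zero, zero_mul, zero_mul]
  | succ k ih =>
    have cκ := fun p => Rec_comm_site_star S hS hκ hτ k p (star_mem (hκ k))
    have cτ := fun p => Rec_comm_site_star S hS hκ hτ k p (star_mem (hτ k))
    have dκ := fun p => Rec_comm_site S hS hκ hτ' k p (hκ k)
    have dτ := fun p => Rec_comm_site S hS hκ hτ' k p (hτ' k)
    have T1 : ∀ p q, p ≠ q → star (gR κ τ k p * κ k) * y * (gR κ τ' k q * κ k) = 0 := by
      intro p q hpq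
      have e : star (gR κ τ k p * κ k) * y * (gR κ τ' k q * κ k) =
          star (κ k) * (star (gR κ τ k p) * y * gR κ τ' k q) * κ k := by
        rw [star_mul]
        simp only [mul_assoc]
      rw [e, ih p q hpq, mul_zero, zero_mul]
    have T4 : ∀ p q, p ≠ q → star (gR κ τ k p * τ k) * y * (gR κ τ' k q * τ' k) = 0 := by
      intro p q hpq
      have e : star (gR κ τ k p * τ k) * y * (gR κ τ' k q * τ' k) =
          star (τ k) * (star (gR κ τ k p) * y * gR κ τ' k q) * τ' k := by
        rw [star_mul]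
        simp only [mul_assoc]
      rw [e, ih p q hpq, mul_zero, zero_mul]
    have T2 : ∀ p q, star (gR κ τ k p * κ k) * y * (gR κ τ' k q * τ' k) = 0 := by
      intro p q
      have e : star (gR κ τ k p * κ k) * y * (gR κ τ' k q * τ' k) =
          star (gR κ τ k p) * (star (κ k) * y * τ' k) * gR κ τ' k q := by
        rw [star_mul, cκ p, ← dτ q]
        simp only [mul_assoc]
      rw [e, h1 k, mul_zero, zero_mul]
    have T3 : ∀ p q, star (gR κ τ k p * τ k) * y * (gR κ τ' k q * κ k) = 0 := by
      intro p q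
      have e : star (gR κ τ k p * τ k) * y * (gR κ τ' k q * κ k) =
          star (gR κ τ k p) * (star (τ k) * y * κ k) * gR κ τ' k q := by
        rw [star_mul, cτ p, ← dκ q]
        simp only [mul_assoc]
      rw [e, h2 k, mul_zero, zero_mul]
    cases m with
    | zero =>
      cases m' with
      | zero => exact absurd rfl hm
      | succ m' =>
        show star (gR κ τ k 0 * κ k) * y * (gR κ τ' k (m' + 1) * κ k + gR κ τ' k m' * τ' k) = 0
        rw [mul_add, T1 0 (m' + 1) hm, T2 0 m', add_zero]
    | succ m =>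
      cases m' with
      | zero =>
        show star (gR κ τ k (m + 1) * κ k + gR κ τ k m * τ k) * y * (gR κ τ' k 0 * κ k) = 0
        rw [star_add, add_mul, add_mul, T1 (m + 1) 0 hm, T3 m 0, add_zero]
      | succ m' =>
        show star (gR κ τ k (m + 1) * κ k + gR κ τ k m * τ k) * y *
          (gR κ τ' k (m' + 1) * κ k + gR κ τ' k m' * τ' k) = 0
        rw [star_add, add_mul, add_mul, mul_add, mul_add, T1 (m + 1) (m' + 1) hm, T2 (m + 1) m',
          T3 m (m' + 1), T4 m m' (fun h => hm (by rw [h])), add_zero, add_zero]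

include hS in
/-- **Squares**: if moreover `κ j` is selfadjoint, `κ j * τ j = 0` for all `j` and `κ j * b = b` for
all `j < k`, then `star G_m * G_m * b = e_m(τ_j* τ_j) b`.
By induction on `k`: `star G_{m+1} G_{m+1} = κ² G_{m+1}* G_{m+1} + (G_m* G_m) (τ* τ)`
(cross terms contain `κ τ = 0`, `τ* κ = 0`), and `κ_k` commutes with `eS (τ* τ) k _`
(elements of `S j`, `j < k`). -/
theorem gR_sq {κ τ : ℕ → F} (hκ : ∀ j, κ j ∈ S j) (hτ : ∀ j, τ j ∈ S j)
    (hsa : ∀ j, IsSelfAdjoint (κ j)) (h0 : ∀ j, κ j * τ j = 0) {b : F} (k m : ℕ)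
    (hb : ∀ j, j < k → κ j * b = b) :
    star (gR κ τ k m) * gR κ τ k m * b = eS (fun j => star (τ j) * τ j) k m * b := by
  induction k generalizing m with
  | zero =>
    cases m with
    | zero =>
      show star (1 : F) * 1 * b = 1 * b
      rw [star_one, one_mul]
    | succ m =>
      show star (0 : F) * 0 * b = 0 * b
      rw [mul_zero]
  | succ k ih =>
    have ih' := fun m => ih m (fun j hj => hb j (Nat.lt_succ_of_lt hj))
    have hbk : κ k * b = b := hb k (Nat.lt_succ_self k)
    have hsk : star (κ k) = κ k := hsa k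
    have hxt : ∀ x ∈ S k, ∀ m, x * eS (fun j => star (τ j) * τ j) k m =
        eS (fun j => star (τ j) * τ j) k m * x := by
      intro x hx m
      exact (Rec_commute_eS _ k m (fun j hj => hS k j (Nat.ne_of_gt hj) x hx _
        (mul_mem (star_mem (hτ j)) (hτ j)))).eq
    have cs := fun (x : F) (hx : x ∈ S k) (p : ℕ) => Rec_comm_site_star S hS hκ hτ k p hx
    have cd := fun (x : F) (hx : x ∈ S k) (p : ℕ) => Rec_comm_site S hS hκ hτ k p hx
    cases m with
    | zero =>
      show star (gR κ τ k 0 * κ k) * (gR κ τ k 0 * κ k) * b = eS _ k 0 * b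
      calc star (gR κ τ k 0 * κ k) * (gR κ τ k 0 * κ k) * b =
            κ k * (star (gR κ τ k 0) * gR κ τ k 0 * (κ k * b)) := by
              rw [star_mul, hsk]
              simp only [mul_assoc]
        _ = κ k * (eS (fun j => star (τ j) * τ j) k 0 * b) := by rw [hbk, ih' 0]
        _ = eS (fun j => star (τ j) * τ j) k 0 * b := by
              rw [← mul_assoc, hxt _ (hκ k), mul_assoc, hbk]
    | succ m =>
      show star (gR κ τ k (m + 1) * κ k + gR κ τ k m * τ k) *
        (gR κ τ k (m + 1) * κ k + gR κ τ k m * τ k) * b =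
        (eS (fun j => star (τ j) * τ j) k (m + 1) +
          eS (fun j => star (τ j) * τ j) k m * (star (τ k) * τ k)) * b
      have t1 : star (gR κ τ k (m + 1) * κ k) * (gR κ τ k (m + 1) * κ k) * b =
          eS (fun j => star (τ j) * τ j) k (m + 1) * b := by
        calc star (gR κ τ k (m + 1) * κ k) * (gR κ τ k (m + 1) * κ k) * b =
              κ k * (star (gR κ τ k (m + 1)) * gR κ τ k (m + 1) * (κ k * b)) := by
                rw [star_mul, hsk]
                simp only [mul_assoc]
          _ = κ k * (eS (fun j => star (τ j) * τ j) k (m + 1) * b) := by rw [hbk, ih' (m + 1)]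
          _ = eS (fun j => star (τ j) * τ j) k (m + 1) * b := by
                rw [← mul_assoc, hxt _ (hκ k), mul_assoc, hbk]
      have t2 : star (gR κ τ k (m + 1) * κ k) * (gR κ τ k m * τ k) * b = 0 := by
        calc star (gR κ τ k (m + 1) * κ k) * (gR κ τ k m * τ k) * b =
              star (gR κ τ k (m + 1)) * ((κ k * gR κ τ k m) * τ k) * b := by
                rw [star_mul, hsk, cs _ (hκ k)]
                simp only [mul_assoc]
          _ = star (gR κ τ k (m + 1)) * (gR κ τ k m * (κ k * τ k)) * b := by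
                rw [cd _ (hκ k)]
                simp only [mul_assoc]
          _ = 0 := by rw [h0 k, mul_zero, mul_zero, zero_mul]
      have h0' : star (τ k) * κ k = 0 := by
        have := congrArg star (h0 k)
        rwa [star_mul, star_zero, hsk] at this
      have t3 : star (gR κ τ k m * τ k) * (gR κ τ k (m + 1) * κ k) * b = 0 := by
        calc star (gR κ τ k m * τ k) * (gR κ τ k (m + 1) * κ k) * b =
              star (gR κ τ k m) * ((star (τ k) * gR κ τ k (m + 1)) * κ k) * b := by
                rw [star_mul, cs _ (star_mem (hτ k))]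
                simp only [mul_assoc]
          _ = star (gR κ τ k m) * (gR κ τ k (m + 1) * (star (τ k) * κ k)) * b := by
                rw [cd _ (star_mem (hτ k))]
                simp only [mul_assoc]
          _ = 0 := by rw [h0', mul_zero, mul_zero, zero_mul]
      have hx : star (τ k) * τ k ∈ S k := mul_mem (star_mem (hτ k)) (hτ k)
      have t4 : star (gR κ τ k m * τ k) * (gR κ τ k m * τ k) * b =
          eS (fun j => star (τ j) * τ j) k m * (star (τ k) * τ k) * b := by
        calc star (gR κ τ k m * τ k) * (gR κ τ k m * τ k) * b =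
              star (gR κ τ k m) * ((star (τ k) * gR κ τ k m) * τ k) * b := by
                rw [star_mul, cs _ (star_mem (hτ k))]
                simp only [mul_assoc]
          _ = star (gR κ τ k m) * (gR κ τ k m * (star (τ k) * τ k)) * b := by
                rw [cd _ (star_mem (hτ k))]
                simp only [mul_assoc]
          _ = star (gR κ τ k m) * ((star (τ k) * τ k) * gR κ τ k m) * b := by
                rw [cd _ hx]
          _ = (star (τ k) * τ k) * (star (gR κ τ k m) * gR κ τ k m * b) := by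
                rw [← mul_assoc (star (gR κ τ k m)), ← cs _ hx]
                simp only [mul_assoc]
          _ = (star (τ k) * τ k) * (eS (fun j => star (τ j) * τ j) k m * b) := by rw [ih' m]
          _ = eS (fun j => star (τ j) * τ j) k m * (star (τ k) * τ k) * b := by
                rw [← mul_assoc, hxt _ hx]
      rw [star_add, add_mul, mul_add, mul_add, add_mul, add_mul, add_mul, add_mul, t1, t2, t3, t4]
      simp

include hS in
/-- if `u * τ j = 0` for all `j < k` then `u * gR κ τ k (m+1) = 0`. -/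
theorem mul_gR_eq_zero {κ τ : ℕ → F} (hκ : ∀ j, κ j ∈ S j) (hτ : ∀ j, τ j ∈ S j) {u : F}
    (k m : ℕ) (h : ∀ j, j < k → u * τ j = 0) : u * gR κ τ k (m + 1) = 0 := by
  induction k generalizing m with
  | zero =>
    show u * (0 : F) = 0
    exact mul_zero u
  | succ k ih =>
    have ih' := fun m => ih m (fun j hj => h j (Nat.lt_succ_of_lt hj))
    show u * (gR κ τ k (m + 1) * κ k + gR κ τ k m * τ k) = 0
    rw [mul_add, ← mul_assoc, ih' m, zero_mul, ← Rec_comm_site S hS hκ hτ k m (hτ k), ← mul_assoc,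
      h k (Nat.lt_succ_self k), zero_mul, add_zero]

/-- norm bound. -/
theorem norm_gR_le {κ τ : ℕ → F} {C : ℝ} (hC : 0 ≤ C) (hκ : ∀ j, ‖κ j‖ ≤ 1) (hτ : ∀ j, ‖τ j‖ ≤ C)
    (k m : ℕ) : ‖gR κ τ k m‖ ≤ (1 + C) ^ k * ‖(1 : F)‖ := by
  induction k generalizing m with
  | zero =>
    cases m with
    | zero => simp [gR]
    | succ m =>
      show ‖(0 : F)‖ ≤ _
      rw [norm_zero]
      positivity
  | succ k ih =>
    have hK : 0 ≤ (1 + C) ^ k * ‖(1 : F)‖ := by positivity
    cases m with
    | zero =>
      show ‖gR κ τ k 0 * κ k‖ ≤ _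
      calc ‖gR κ τ k 0 * κ k‖ ≤ ‖gR κ τ k 0‖ * ‖κ k‖ := norm_mul_le _ _
        _ ≤ ((1 + C) ^ k * ‖(1 : F)‖) * 1 :=
            mul_le_mul (ih 0) (hκ k) (norm_nonneg _) hK
        _ ≤ ((1 + C) ^ k * ‖(1 : F)‖) * (1 + C) :=
            mul_le_mul_of_nonneg_left (by linarith) hK
        _ = (1 + C) ^ (k + 1) * ‖(1 : F)‖ := by ring
    | succ m =>
      show ‖gR κ τ k (m + 1) * κ k + gR κ τ k m * τ k‖ ≤ _
      calc ‖gR κ τ k (m + 1) * κ k + gR κ τ k m * τ k‖ ≤
            ‖gR κ τ k (m + 1) * κ k‖ + ‖gR κ τ k m * τ k‖ := norm_add_le _ _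
        _ ≤ ‖gR κ τ k (m + 1)‖ * ‖κ k‖ + ‖gR κ τ k m‖ * ‖τ k‖ :=
            add_le_add (norm_mul_le _ _) (norm_mul_le _ _)
        _ ≤ ((1 + C) ^ k * ‖(1 : F)‖) * 1 + ((1 + C) ^ k * ‖(1 : F)‖) * C :=
            add_le_add (mul_le_mul (ih (m + 1)) (hκ k) (norm_nonneg _) hK)
              (mul_le_mul (ih m) (hτ k) (norm_nonneg _) hK)
        _ = (1 + C) ^ (k + 1) * ‖(1 : F)‖ := by ring

end Sites

end P101
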