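import Mathlib.Analysis.CStarAlgebra.ContinuousFunctionalCalculus.Order
import Vale.Agent.Lib.P101.IterGlue
import Vale.Agent.Lib.P101.Rec

/-!
# The main estimate
-/

open scoped ENNReal Topology
open Filter Matrix

namespace P101

attribute [local instance] CStarAlgebra.spectralOrder CStarAlgebra.spectralOrderedRing

universe u

section EstimateAux

variable {n : ℕ} {F : Type u} [CStarAlgebra F]

theorem est_star_single (ψ : OZ (Fin n) F) (i j : Fin n) :
    star (ψ.map (Matrix.single i j 1)) = ψ.map (Matrix.single j i 1) := by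
  rw [← ψ.map_star]
  congr 1
  rw [star_eq_conjTranspose, conjTranspose_single, star_one]

theorem est_single_mul (ψ : OZ (Fin n) F) (i j l : Fin n) :
    ψ.map (Matrix.single i j 1) * ψ.map (Matrix.single j l 1) =
      ψ.map 1 * ψ.map (Matrix.single i l 1) := by
  rw [ψ.map_mul, single_mul_single_same, mul_one]

theorem est_single_mul_ne (ψ : OZ (Fin n) F) (i j j' l : Fin n) (h : j ≠ j') :
    ψ.map (Matrix.single i j 1) * ψ.map (Matrix.single j' l 1) = 0 := by
  rw [ψ.map_mul, single_mul_single_of_ne _ _ _ _ h, map_zero, mul_zero]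

theorem est_norm_diag (ψ : OZ (Fin n) F) (j : Fin n) :
    ‖ψ.map (Matrix.single j j 1)‖ ≤ ‖ψ.map 1‖ := by
  have h1 : ‖ψ.map (Matrix.single j j 1)‖ * ‖ψ.map (Matrix.single j j 1)‖ ≤
      ‖ψ.map 1‖ * ‖ψ.map (Matrix.single j j 1)‖ := by
    rw [← CStarRing.norm_star_mul_self, est_star_single, est_single_mul]
    exact norm_mul_le _ _
  by_contra hlt
  push Not at hlt
  have h0 : 0 < ‖ψ.map (Matrix.single j j 1)‖ := lt_of_le_of_lt (norm_nonneg _) hlt
  have := mul_lt_mul_of_pos_right hlt h0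
  linarith

theorem est_norm_single (ψ : OZ (Fin n) F) (h : ‖ψ.map 1‖ ≤ 1) (i j : Fin n) :
    ‖ψ.map (Matrix.single i j 1)‖ ≤ 1 := by
  have h1 : ‖ψ.map (Matrix.single i j 1)‖ * ‖ψ.map (Matrix.single i j 1)‖ ≤ 1 := by
    rw [← CStarRing.norm_star_mul_self, est_star_single, est_single_mul]
    refine (norm_mul_le _ _).trans ?_
    exact mul_le_one₀ h (norm_nonneg _) ((est_norm_diag ψ j).trans h)
  nlinarith [norm_nonneg (ψ.map (Matrix.single i j 1))]

/-- the cut off bound. -/
theorem est_norm_single_mul_cut (ψ : OZ (Fin n) F) (h : ‖ψ.map 1‖ ≤ 1) {κ : F}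
    (hκ : IsSelfAdjoint κ) (hκ1 : ‖κ‖ ≤ 1) (hc : ∀ a, Commute κ (ψ.map a)) {ε : ℝ} (hε : 0 ≤ ε)
    (hb : ‖ψ.map 1 * κ‖ ≤ ε ^ 2) (i j : Fin n) :
    ‖ψ.map (Matrix.single i j 1) * κ‖ ≤ ε := by
  have h1 : ‖ψ.map (Matrix.single i j 1) * κ‖ * ‖ψ.map (Matrix.single i j 1) * κ‖ ≤ ε ^ 2 := by
    rw [← CStarRing.norm_star_mul_self, star_mul, est_star_single, hκ.star_eq]
    have : κ * ψ.map (Matrix.single j i 1) * (ψ.map (Matrix.single i j 1) * κ) =
        (ψ.map 1 * κ) * ψ.map (Matrix.single j j 1) * κ := by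
      rw [← (hc 1).eq]
      have := est_single_mul ψ j i j
      calc κ * ψ.map (Matrix.single j i 1) * (ψ.map (Matrix.single i j 1) * κ)
          = κ * (ψ.map (Matrix.single j i 1) * ψ.map (Matrix.single i j 1)) * κ := by
            simp only [mul_assoc]
        _ = _ := by rw [this]; simp only [mul_assoc]
    rw [this]
    calc ‖(ψ.map 1 * κ) * ψ.map (Matrix.single j j 1) * κ‖
        ≤ ‖ψ.map 1 * κ‖ * ‖ψ.map (Matrix.single j j 1)‖ * ‖κ‖ :=
          (norm_mul_le _ _).trans (mul_le_mul_of_nonneg_right (norm_mul_le _ _) (norm_nonneg _))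
      _ ≤ ‖ψ.map 1 * κ‖ * 1 * 1 := by
          gcongr
          exact est_norm_single ψ h j j
      _ ≤ ε ^ 2 := by simpa using hb
  nlinarith [norm_nonneg (ψ.map (Matrix.single i j 1) * κ)]

/-- the bound for the off-diagonal entries: `‖Ψ(e_0l) G‖² ≤ ‖G‖ ‖(Ψ(1) - Ψ(e_00)) G‖`. -/
theorem est_norm_off (ψ : OZ (Fin n) F) (h : ‖ψ.map 1‖ ≤ 1) (i l : Fin n) (hl : l ≠ i) (G : F) :
    ‖ψ.map (Matrix.single i l 1) * G‖ * ‖ψ.map (Matrix.single i l 1) * G‖ ≤
      ‖G‖ * ‖(ψ.map 1 - ψ.map (Matrix.single i i 1)) * G‖ := by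
  set p : Matrix (Fin n) (Fin n) ℂ := 1 - Matrix.single i i 1 - Matrix.single l l 1 with hp
  have hps : star p = p := by
    rw [hp, star_sub, star_sub, star_one]
    simp [star_eq_conjTranspose, conjTranspose_single]
  have hpp : p * p = p := by
    rw [hp]
    simp [sub_mul, mul_sub, single_mul_single_of_ne _ _ _ _ hl,
      single_mul_single_of_ne _ _ _ _ hl.symm]
  have hstar : star (ψ.map p) = ψ.map p := by rw [← ψ.map_star, hps]
  have hsq : ψ.map p * ψ.map p = ψ.map 1 * ψ.map p := by rw [ψ.map_mul, hpp]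
  have hpe : ψ.map p = ψ.map 1 - ψ.map (Matrix.single i i 1) - ψ.map (Matrix.single l l 1) := by
    rw [hp, map_sub, map_sub]
  have e1 : star (ψ.map (Matrix.single i l 1) * G) * (ψ.map (Matrix.single i l 1) * G) =
      star G * (ψ.map 1 * ψ.map (Matrix.single l l 1)) * G := by
    rw [star_mul, est_star_single]
    calc star G * ψ.map (Matrix.single l i 1) * (ψ.map (Matrix.single i l 1) * G)
        = star G * (ψ.map (Matrix.single l i 1) * ψ.map (Matrix.single i l 1)) * G := by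
          simp only [mul_assoc]
      _ = _ := by rw [est_single_mul]
  have e2 : star (ψ.map p * G) * (ψ.map p * G) = star G * (ψ.map 1 * ψ.map p) * G := by
    rw [star_mul, hstar, ← hsq]
    simp only [mul_assoc]
  have hle : star (ψ.map (Matrix.single i l 1) * G) * (ψ.map (Matrix.single i l 1) * G) ≤
      star G * (ψ.map 1 * (ψ.map 1 - ψ.map (Matrix.single i i 1))) * G := by
    rw [← sub_nonneg]
    have : star G * (ψ.map 1 * (ψ.map 1 - ψ.map (Matrix.single i i 1))) * G -
        star (ψ.map (Matrix.single i l 1) * G) * (ψ.map (Matrix.single i l 1) * G) =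
        star (ψ.map p * G) * (ψ.map p * G) := by
      rw [e1, e2, hpe]
      simp only [mul_sub, sub_mul]
    rw [this]
    exact star_mul_self_nonneg _
  have hnorm := CStarAlgebra.norm_le_norm_of_nonneg_of_le (star_mul_self_nonneg _) hle
  rw [CStarRing.norm_star_mul_self] at hnorm
  refine hnorm.trans ?_
  calc ‖star G * (ψ.map 1 * (ψ.map 1 - ψ.map (Matrix.single i i 1))) * G‖
      = ‖star G * (ψ.map 1 * ((ψ.map 1 - ψ.map (Matrix.single i i 1)) * G))‖ := by
        simp only [mul_assoc]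
    _ ≤ ‖star G‖ * (‖ψ.map 1‖ * ‖(ψ.map 1 - ψ.map (Matrix.single i i 1)) * G‖) :=
        (norm_mul_le _ _).trans (mul_le_mul_of_nonneg_left (norm_mul_le _ _) (norm_nonneg _))
    _ ≤ ‖G‖ * (1 * ‖(ψ.map 1 - ψ.map (Matrix.single i i 1)) * G‖) := by
        rw [norm_star]
        gcongr
    _ = _ := by rw [one_mul]

/-- the glue formula for `Ψ(1) - Ψ(e_00)`. -/
theorem est_glue_diff (Φ φ Ψ : OZ (Fin n) F) (z : Fin n)
    (hΨ : ∀ m, Ψ.map m = (2 : ℂ)⁻¹ • (Φ.map 1 * Φ.map m +
      φ.map 1 * φ.map m + Complex.I • ∑ i, ∑ j,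
        (Φ.map (Matrix.single i j 1) * φ.map (m * Matrix.single j i 1) -
          Φ.map (m * Matrix.single i j 1) * φ.map (Matrix.single j i 1)))) :
    Ψ.map 1 - Ψ.map (Matrix.single z z 1) =
      (2 : ℂ)⁻¹ • (Φ.map 1 * (Φ.map 1 - Φ.map (Matrix.single z z 1)) +
        φ.map 1 * (φ.map 1 - φ.map (Matrix.single z z 1)) -
        Complex.I • ∑ l ∈ Finset.univ.erase z,
          (Φ.map (Matrix.single l z 1) * φ.map (Matrix.single z l 1) -
            Φ.map (Matrix.single z l 1) * φ.map (Matrix.single l z 1))) := by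
  have hsum : ∑ i, ∑ j,
        (Φ.map (Matrix.single i j 1) * φ.map (Matrix.single z z 1 * Matrix.single j i 1) -
          Φ.map (Matrix.single z z 1 * Matrix.single i j 1) * φ.map (Matrix.single j i 1)) =
      ∑ l ∈ Finset.univ.erase z,
          (Φ.map (Matrix.single l z 1) * φ.map (Matrix.single z l 1) -
            Φ.map (Matrix.single z l 1) * φ.map (Matrix.single l z 1)) := by
    simp only [Finset.sum_sub_distrib]
    have s1 : ∑ i, ∑ j, Φ.map (Matrix.single i j 1) *
        φ.map (Matrix.single z z 1 * Matrix.single j i 1) =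
        ∑ l, Φ.map (Matrix.single l z 1) * φ.map (Matrix.single z l 1) := by
      refine Finset.sum_congr rfl fun i _ => ?_
      rw [Finset.sum_eq_single z]
      · rw [single_mul_single_same, mul_one]
      · intro j _ hj
        rw [single_mul_single_of_ne _ _ _ _ (Ne.symm hj), map_zero, mul_zero]
      · intro hz
        exact absurd (Finset.mem_univ z) hz
    have s2 : ∑ i, ∑ j, Φ.map (Matrix.single z z 1 * Matrix.single i j 1) *
        φ.map (Matrix.single j i 1) =
        ∑ l, Φ.map (Matrix.single z l 1) * φ.map (Matrix.single l z 1) := by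
      rw [Finset.sum_eq_single z]
      · refine Finset.sum_congr rfl fun j _ => ?_
        rw [single_mul_single_same, mul_one]
      · intro i _ hi
        refine Finset.sum_eq_zero fun j _ => ?_
        rw [single_mul_single_of_ne _ _ _ _ (Ne.symm hi), map_zero, zero_mul]
      · intro hz
        exact absurd (Finset.mem_univ z) hz
    rw [s1, s2, ← Finset.add_sum_erase _ _ (Finset.mem_univ z),
      ← Finset.add_sum_erase Finset.univ (fun l => Φ.map (Matrix.single z l 1) *
        φ.map (Matrix.single l z 1)) (Finset.mem_univ z)]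
    abel
  rw [glue_one Φ φ Ψ hΨ, hΨ (Matrix.single z z 1), hsum, ← smul_sub]
  congr 1
  simp only [mul_sub]
  abel

/-- bound for `(Ψ(1) - Ψ(e_00)) X`. -/
theorem est_glue_bound (Φ φ Ψ : OZ (Fin n) F) (z : Fin n)
    (hΨ : ∀ m, Ψ.map m = (2 : ℂ)⁻¹ • (Φ.map 1 * Φ.map m +
      φ.map 1 * φ.map m + Complex.I • ∑ i, ∑ j,
        (Φ.map (Matrix.single i j 1) * φ.map (m * Matrix.single j i 1) -
          Φ.map (m * Matrix.single i j 1) * φ.map (Matrix.single j i 1))))
    (X : F) {a b c : ℝ} (hc0 : 0 ≤ c)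
    (ha : ‖Φ.map 1 * (Φ.map 1 - Φ.map (Matrix.single z z 1)) * X‖ ≤ a)
    (hb : ‖φ.map 1 * (φ.map 1 - φ.map (Matrix.single z z 1)) * X‖ ≤ b)
    (hc : ∀ l, l ≠ z → ‖Φ.map (Matrix.single l z 1) * φ.map (Matrix.single z l 1) * X‖ ≤ c)
    (hc' : ∀ l, l ≠ z → ‖Φ.map (Matrix.single z l 1) * φ.map (Matrix.single l z 1) * X‖ ≤ c) :
    ‖(Ψ.map 1 - Ψ.map (Matrix.single z z 1)) * X‖ ≤ a + b + n * (c + c) := by
  rw [est_glue_diff Φ φ Ψ z hΨ, smul_mul_assoc, norm_smul]
  have hS : ‖(∑ l ∈ Finset.univ.erase z,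
          (Φ.map (Matrix.single l z 1) * φ.map (Matrix.single z l 1) -
            Φ.map (Matrix.single z l 1) * φ.map (Matrix.single l z 1))) * X‖ ≤ n * (c + c) := by
    rw [Finset.sum_mul]
    refine (norm_sum_le_of_le (f := fun l => (Φ.map (Matrix.single l z 1) *
      φ.map (Matrix.single z l 1) - Φ.map (Matrix.single z l 1) *
        φ.map (Matrix.single l z 1)) * X) _ (n := fun _ => c + c) fun l hl => ?_).trans ?_
    · have hlz : l ≠ z := Finset.ne_of_mem_erase hl
      rw [sub_mul]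
      exact (norm_sub_le _ _).trans (add_le_add (hc l hlz) (hc' l hlz))
    · rw [Finset.sum_const, nsmul_eq_mul]
      refine mul_le_mul_of_nonneg_right ?_ (by positivity)
      have : (Finset.univ.erase z).card ≤ n := by
        refine (Finset.card_le_univ _).trans ?_
        simp
      exact_mod_cast this
  have h2 : ‖(2 : ℂ)⁻¹‖ ≤ 1 := by norm_num
  have hmain : ‖(Φ.map 1 * (Φ.map 1 - Φ.map (Matrix.single z z 1)) +
        φ.map 1 * (φ.map 1 - φ.map (Matrix.single z z 1)) -
        Complex.I • ∑ l ∈ Finset.univ.erase z,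
          (Φ.map (Matrix.single l z 1) * φ.map (Matrix.single z l 1) -
            Φ.map (Matrix.single z l 1) * φ.map (Matrix.single l z 1))) * X‖ ≤
      a + b + n * (c + c) := by
    rw [sub_mul, add_mul, smul_mul_assoc]
    refine (norm_sub_le _ _).trans (add_le_add ((norm_add_le _ _).trans (add_le_add ha hb)) ?_)
    rw [norm_smul, Complex.norm_I, one_mul]
    exact hS
  calc _ ≤ 1 * _ := mul_le_mul_of_nonneg_right h2 (norm_nonneg _)
    _ ≤ _ := by rw [one_mul]; exact hmain

end EstimateAux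

section

variable {n : ℕ} {F : Type u} [CStarAlgebra F] (S : ℕ → StarSubalgebra ℂ F)
  (hS : ∀ i j, i ≠ j → ∀ x ∈ S i, ∀ y ∈ S j, Commute x y) (φ : ℕ → OZ (Fin n) F)
  (hφ : ∀ j a, (φ j).map a ∈ S j)

include hS hφ in
/-- **Main estimate.**  `D_k = Φ k (1) - Φ k (e_00)`.  For `k` fixed, `τ j = φ j (e_00) σ j`,
`‖τ j‖ ≤ C`, and any `η > 0` there is `δ > 0` such that for all cutoffs `κ j ∈ S j`, selfadjoint,
`‖κ j‖ ≤ 1`, commuting with `φ j (a)`, `‖φ j (1) κ j‖ ≤ δ`, and all `m`:
`‖D_k G_m‖ ≤ η`, `G_m = gR κ τ k m`.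

Proof by induction on `k`.  `k = 0`: `D_0 = 0`.  Step: write `h = φ k (1)`, `e = φ k (e_00)`,
`φ = φ k`, `Φ = Φ k`, `H = Φ k (1)`, `κ = κ k`, `τ = τ k = e σ`.  The glue formula for `m = 1` and
`m = e_00` (the terms of the double sum with `l = 0` cancel) gives
`D_{k+1} = ½ ( H D_k + h (h - e) - i ∑_{l ≠ 0} (Φ(e_l0) φ(e_0l) - Φ(e_0l) φ(e_l0)) )`.
`gR κ τ (k+1) m = G_m κ + G_{m-1} τ` (`m ≥ 1`) or `G_0 κ`; `κ, τ` and all `φ(a)` commute with `G_m`
and with `Φ(a)`.  Bounds (all with `‖G_m‖ ≤ (1 + C)^k ‖1‖`, `‖H‖ ≤ 1`, `‖Φ(e_ij)‖ ≤ 1`,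
`‖φ(e_ij)‖ ≤ 1` since `‖φ(e_ij)‖² = ‖h φ(e_jj)‖ ≤ ‖h‖²`):
* `‖H D_k G_m κ‖ ≤ η_k`, `‖H D_k G_{m-1} τ‖ ≤ C η_k`;
* `‖h (h - e) κ G_m‖ ≤ ‖h - e‖ ‖h κ‖ ‖G_m‖ ≤ 2 δ ‖G_m‖`; `h (h - e) τ = h (h e - e²) σ = 0`;
* `‖φ(e_0l) κ‖² = ‖κ h φ(e_ll) κ‖ ≤ δ`, same for `φ(e_l0) κ`, so the `κ` parts of the sum are
  `≤ 2 n δ^{1/2} ‖G_m‖`;
* `φ(e_0l) τ = φ(e_0l) φ(e_00) σ = h φ(e_0l e_00) σ = 0` for `l ≠ 0`;
* `Φ(e_0l) φ(e_l0) τ G_{m-1} = φ(e_l0) τ Φ(e_0l) G_{m-1}` and
  `‖Φ(e_0l) G‖² = ‖G* H Φ(e_ll) G‖ ≤ ‖G* H D_k G‖ ≤ ‖G‖ ‖D_k G‖ ≤ ‖G‖ η_k`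
  (`Φ(e_ll) ≤ D_k` for `l ≠ 0`, multiplied by the commuting `H ≥ 0`), so this is
  `≤ C (‖G‖ η_k)^{1/2}`.
So `‖D_{k+1} G_m‖ → 0` as `δ → 0`, `η_k → 0`. -/
theorem estimate [NeZero n] [Nontrivial F] {Φ : ℕ → OZ (Fin n) F} (hΦ : IsIterGlue φ Φ)
    (hΦc : ∀ k a (x : F), (∀ j, j < k → ∀ y ∈ S j, Commute x y) → Commute x ((Φ k).map a))
    (h1 : ∀ j, ‖(φ j).map 1‖ ≤ 1) (σ : ℕ → F) (hσ : ∀ j, σ j ∈ S j) {C : ℝ} (hC : 0 ≤ C)
    (hτ : ∀ j, ‖(φ j).map (Matrix.single 0 0 1) * σ j‖ ≤ C) (k : ℕ) {η : ℝ} (hη : 0 < η) :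
    ∃ δ : ℝ, 0 < δ ∧ ∀ κ : ℕ → F, (∀ j, κ j ∈ S j) → (∀ j, IsSelfAdjoint (κ j)) →
      (∀ j, ‖κ j‖ ≤ 1) → (∀ j a, Commute (κ j) ((φ j).map a)) →
      (∀ j, ‖(φ j).map 1 * κ j‖ ≤ δ) → ∀ m,
      ‖((Φ k).map 1 - (Φ k).map (Matrix.single 0 0 1)) *
        gR κ (fun j => (φ j).map (Matrix.single 0 0 1) * σ j) k m‖ ≤ η := by
  classical
  have : NormOneClass F := ⟨CStarRing.norm_one⟩
  induction k generalizing η with
  | zero =>
    refine ⟨1, one_pos, fun κ _ _ _ _ _ m => ?_⟩
    rw [hΦ.1, hΦ.1, sub_zero, zero_mul, norm_zero]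
    exact hη.le
  | succ k ih =>
    set B : ℝ := (1 + C) ^ k with hB
    have hB1 : 1 ≤ B := one_le_pow₀ (by linarith)
    set K : ℝ := 1 + 2 * B + 2 * n * B + C + 2 * n * B * C with hK
    have hn : (0 : ℝ) ≤ n := Nat.cast_nonneg n
    have hKpos : 0 < K := by positivity
    set ε : ℝ := min 1 (η / K) with hε
    have hε0 : 0 < ε := lt_min one_pos (by positivity)
    have hε1 : ε ≤ 1 := min_le_left _ _
    have hεK : ε * K ≤ η := by
      calc ε * K ≤ η / K * K := mul_le_mul_of_nonneg_right (min_le_right _ _) hKpos.le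
        _ = η := div_mul_cancel₀ _ hKpos.ne'
    obtain ⟨δ₀, hδ₀, hδ⟩ := ih (η := ε ^ 2) (by positivity)
    refine ⟨min δ₀ (ε ^ 2), lt_min hδ₀ (by positivity), fun κ hκ hsa hκ1 hκc hκb m => ?_⟩
    set τ : ℕ → F := fun j => (φ j).map (Matrix.single 0 0 1) * σ j with hτdef
    have hτS : ∀ j, τ j ∈ S j := fun j => mul_mem (hφ j _) (hσ j)
    have hDG : ∀ m, ‖((Φ k).map 1 - (Φ k).map (Matrix.single 0 0 1)) * gR κ τ k m‖ ≤ ε ^ 2 :=
      hδ κ hκ hsa hκ1 hκc (fun j => (hκb j).trans (min_le_left _ _))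
    have hκb' : ‖(φ k).map 1 * κ k‖ ≤ ε ^ 2 := (hκb k).trans (min_le_right _ _)
    have hG : ∀ m, ‖gR κ τ k m‖ ≤ B := by
      intro m
      have := norm_gR_le (κ := κ) (τ := τ) hC hκ1 hτ k m
      rwa [norm_one, mul_one] at this
    have hφG : ∀ a m, Commute ((φ k).map a) (gR κ τ k m) := by
      intro a m
      refine commute_gR S hκ hτS k m fun j hj y hy => ?_
      exact hS k j (ne_of_gt hj) _ (hφ k a) y hy
    have hH := norm_iterGlue_one_le φ hΦ h1 k
    have hε2 : ε ^ 2 ≤ ε := by nlinarith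
    -- the `κ` part
    have hpartκ : ∀ m, ‖((Φ (k + 1)).map 1 - (Φ (k + 1)).map (Matrix.single 0 0 1)) *
        (gR κ τ k m * κ k)‖ ≤ ε ^ 2 + 2 * B * ε ^ 2 + n * (B * ε + B * ε) := by
      intro m
      refine est_glue_bound (Φ k) (φ k) (Φ (k + 1)) 0 (hΦ.2 k) _ (by positivity) ?_ ?_ ?_ ?_
      · calc ‖(Φ k).map 1 * ((Φ k).map 1 - (Φ k).map (Matrix.single 0 0 1)) *
              (gR κ τ k m * κ k)‖
            = ‖(Φ k).map 1 * ((((Φ k).map 1 - (Φ k).map (Matrix.single 0 0 1)) *
              gR κ τ k m) * κ k)‖ := by simp only [mul_assoc]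
          _ ≤ ‖(Φ k).map 1‖ * (‖((Φ k).map 1 - (Φ k).map (Matrix.single 0 0 1)) *
              gR κ τ k m‖ * ‖κ k‖) :=
            (norm_mul_le _ _).trans (mul_le_mul_of_nonneg_left (norm_mul_le _ _) (norm_nonneg _))
          _ ≤ 1 * (ε ^ 2 * 1) := by
            gcongr
            · exact hDG m
            · exact hκ1 k
          _ = ε ^ 2 := by ring
      · have hcm : (φ k).map 1 * ((φ k).map 1 - (φ k).map (Matrix.single 0 0 1)) *
            (gR κ τ k m * κ k) = ((φ k).map 1 - (φ k).map (Matrix.single 0 0 1)) *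
            (gR κ τ k m * ((φ k).map 1 * κ k)) := by
          have e1 : (φ k).map 1 * ((φ k).map 1 - (φ k).map (Matrix.single 0 0 1)) =
              ((φ k).map 1 - (φ k).map (Matrix.single 0 0 1)) * (φ k).map 1 := by
            rw [mul_sub, sub_mul, (φ k).one_mul_comm (Matrix.single 0 0 1)]
          rw [e1]
          calc _ = ((φ k).map 1 - (φ k).map (Matrix.single 0 0 1)) *
                (((φ k).map 1 * gR κ τ k m) * κ k) := by simp only [mul_assoc]
            _ = _ := by rw [(hφG 1 m).eq]; simp only [mul_assoc]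
        rw [hcm]
        calc ‖((φ k).map 1 - (φ k).map (Matrix.single 0 0 1)) *
              (gR κ τ k m * ((φ k).map 1 * κ k))‖
            ≤ ‖(φ k).map 1 - (φ k).map (Matrix.single 0 0 1)‖ *
              (‖gR κ τ k m‖ * ‖(φ k).map 1 * κ k‖) :=
            (norm_mul_le _ _).trans (mul_le_mul_of_nonneg_left (norm_mul_le _ _) (norm_nonneg _))
          _ ≤ 2 * (B * ε ^ 2) := by
            have : ‖(φ k).map 1 - (φ k).map (Matrix.single 0 0 1)‖ ≤ 2 := by
              refine (norm_sub_le _ _).trans ?_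
              have := est_norm_single (φ k) (h1 k) 0 0
              linarith [h1 k]
            gcongr
            exact hG m
          _ = 2 * B * ε ^ 2 := by ring
      · intro l _
        calc ‖(Φ k).map (Matrix.single l 0 1) * (φ k).map (Matrix.single 0 l 1) *
              (gR κ τ k m * κ k)‖
            = ‖(Φ k).map (Matrix.single l 0 1) * (gR κ τ k m *
              ((φ k).map (Matrix.single 0 l 1) * κ k))‖ := by
              congr 1
              calc _ = (Φ k).map (Matrix.single l 0 1) *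
                    (((φ k).map (Matrix.single 0 l 1) * gR κ τ k m) * κ k) := by
                    simp only [mul_assoc]
                _ = _ := by rw [(hφG _ m).eq]; simp only [mul_assoc]
          _ ≤ ‖(Φ k).map (Matrix.single l 0 1)‖ * (‖gR κ τ k m‖ *
              ‖(φ k).map (Matrix.single 0 l 1) * κ k‖) :=
            (norm_mul_le _ _).trans (mul_le_mul_of_nonneg_left (norm_mul_le _ _) (norm_nonneg _))
          _ ≤ 1 * (B * ε) := by
            have t1 := est_norm_single (Φ k) hH l 0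
            have t2 := est_norm_single_mul_cut (φ k) (h1 k) (hsa k) (hκ1 k) (hκc k) hε0.le
              hκb' 0 l
            have t3 := hG m
            gcongr
          _ = B * ε := one_mul _
      · intro l _
        calc ‖(Φ k).map (Matrix.single 0 l 1) * (φ k).map (Matrix.single l 0 1) *
              (gR κ τ k m * κ k)‖
            = ‖(Φ k).map (Matrix.single 0 l 1) * (gR κ τ k m *
              ((φ k).map (Matrix.single l 0 1) * κ k))‖ := by
              congr 1
              calc _ = (Φ k).map (Matrix.single 0 l 1) *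
                    (((φ k).map (Matrix.single l 0 1) * gR κ τ k m) * κ k) := by
                    simp only [mul_assoc]
                _ = _ := by rw [(hφG _ m).eq]; simp only [mul_assoc]
          _ ≤ ‖(Φ k).map (Matrix.single 0 l 1)‖ * (‖gR κ τ k m‖ *
              ‖(φ k).map (Matrix.single l 0 1) * κ k‖) :=
            (norm_mul_le _ _).trans (mul_le_mul_of_nonneg_left (norm_mul_le _ _) (norm_nonneg _))
          _ ≤ 1 * (B * ε) := by
            have t1 := est_norm_single (Φ k) hH 0 l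
            have t2 := est_norm_single_mul_cut (φ k) (h1 k) (hsa k) (hκ1 k) (hκc k) hε0.le
              hκb' l 0
            have t3 := hG m
            gcongr
          _ = B * ε := one_mul _
    -- the `τ` part
    have hpartτ : ∀ m, ‖((Φ (k + 1)).map 1 - (Φ (k + 1)).map (Matrix.single 0 0 1)) *
        (gR κ τ k m * τ k)‖ ≤ C * ε ^ 2 + 0 + n * (B * ε * C + B * ε * C) := by
      intro m
      refine est_glue_bound (Φ k) (φ k) (Φ (k + 1)) 0 (hΦ.2 k) _ (by positivity) ?_ ?_ ?_ ?_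
      · calc ‖(Φ k).map 1 * ((Φ k).map 1 - (Φ k).map (Matrix.single 0 0 1)) *
              (gR κ τ k m * τ k)‖
            = ‖(Φ k).map 1 * ((((Φ k).map 1 - (Φ k).map (Matrix.single 0 0 1)) *
              gR κ τ k m) * τ k)‖ := by simp only [mul_assoc]
          _ ≤ ‖(Φ k).map 1‖ * (‖((Φ k).map 1 - (Φ k).map (Matrix.single 0 0 1)) *
              gR κ τ k m‖ * ‖τ k‖) :=
            (norm_mul_le _ _).trans (mul_le_mul_of_nonneg_left (norm_mul_le _ _) (norm_nonneg _))
          _ ≤ 1 * (ε ^ 2 * C) := by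
            gcongr
            · exact hDG m
            · exact hτ k
          _ = C * ε ^ 2 := by ring
      · have hcm : (φ k).map 1 * ((φ k).map 1 - (φ k).map (Matrix.single 0 0 1)) *
            (gR κ τ k m * τ k) = 0 := by
          have e0 : Commute ((φ k).map 1 * ((φ k).map 1 - (φ k).map (Matrix.single 0 0 1)))
              (gR κ τ k m) := (hφG 1 m).mul_left ((hφG 1 m).sub_left (hφG _ m))
          have e1 : (φ k).map 1 * ((φ k).map 1 - (φ k).map (Matrix.single 0 0 1)) *
              τ k = 0 := by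
            have e2 := est_single_mul (φ k) 0 0 0
            have e3 : ((φ k).map 1 - (φ k).map (Matrix.single 0 0 1)) *
                (φ k).map (Matrix.single 0 0 1) = 0 := by
              rw [sub_mul, e2, sub_self]
            rw [hτdef]
            calc (φ k).map 1 * ((φ k).map 1 - (φ k).map (Matrix.single 0 0 1)) *
                  ((φ k).map (Matrix.single 0 0 1) * σ k)
                = (φ k).map 1 * (((φ k).map 1 - (φ k).map (Matrix.single 0 0 1)) *
                  (φ k).map (Matrix.single 0 0 1)) * σ k := by simp only [mul_assoc]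
              _ = 0 := by rw [e3, mul_zero, zero_mul]
          rw [← mul_assoc, e0.eq, mul_assoc, e1, mul_zero]
        rw [hcm, norm_zero]
      · intro l hl
        have e0 : (Φ k).map (Matrix.single l 0 1) * (φ k).map (Matrix.single 0 l 1) *
            (gR κ τ k m * τ k) = 0 := by
          have e1 : (φ k).map (Matrix.single 0 l 1) * τ k = 0 := by
            rw [hτdef]
            change (φ k).map (Matrix.single 0 l 1) *
              ((φ k).map (Matrix.single 0 0 1) * σ k) = 0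
            rw [← mul_assoc, est_single_mul_ne _ _ _ _ _ hl, zero_mul]
          calc _ = (Φ k).map (Matrix.single l 0 1) *
                (((φ k).map (Matrix.single 0 l 1) * gR κ τ k m) * τ k) := by
                simp only [mul_assoc]
            _ = (Φ k).map (Matrix.single l 0 1) *
                (gR κ τ k m * ((φ k).map (Matrix.single 0 l 1) * τ k)) := by
                rw [(hφG _ m).eq]; simp only [mul_assoc]
            _ = 0 := by rw [e1, mul_zero, mul_zero]
        rw [e0, norm_zero]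
        positivity
      · intro l hl
        have hoff : ‖(Φ k).map (Matrix.single 0 l 1) * gR κ τ k m‖ ≤ B * ε := by
          have t1 := est_norm_off (Φ k) hH 0 l hl (gR κ τ k m)
          have t2 : ‖gR κ τ k m‖ * ‖((Φ k).map 1 - (Φ k).map (Matrix.single 0 0 1)) *
              gR κ τ k m‖ ≤ B * ε ^ 2 := by
            have := hG m
            have := hDG m
            gcongr
          have t3 : B * ε ^ 2 ≤ (B * ε) * (B * ε) := by
            have : 0 ≤ B * ε ^ 2 * (B - 1) := mul_nonneg (by positivity) (by linarith)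
            nlinarith
          exact nonneg_le_nonneg_of_sq_le_sq (by positivity) (t1.trans (t2.trans t3))
        calc ‖(Φ k).map (Matrix.single 0 l 1) * (φ k).map (Matrix.single l 0 1) *
              (gR κ τ k m * τ k)‖
            = ‖((Φ k).map (Matrix.single 0 l 1) * gR κ τ k m) *
              ((φ k).map (Matrix.single l 0 1) * τ k)‖ := by
              congr 1
              calc _ = (Φ k).map (Matrix.single 0 l 1) *
                    (((φ k).map (Matrix.single l 0 1) * gR κ τ k m) * τ k) := by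
                    simp only [mul_assoc]
                _ = _ := by rw [(hφG _ m).eq]; simp only [mul_assoc]
          _ ≤ ‖(Φ k).map (Matrix.single 0 l 1) * gR κ τ k m‖ *
              (‖(φ k).map (Matrix.single l 0 1)‖ * ‖τ k‖) :=
            (norm_mul_le _ _).trans (mul_le_mul_of_nonneg_left (norm_mul_le _ _) (norm_nonneg _))
          _ ≤ (B * ε) * (1 * C) := by
            have t1 := est_norm_single (φ k) (h1 k) l 0
            have t2 := hτ k
            gcongr
          _ = B * ε * C := by ring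
    have hfin : (ε ^ 2 + 2 * B * ε ^ 2 + n * (B * ε + B * ε)) +
        (C * ε ^ 2 + 0 + n * (B * ε * C + B * ε * C)) ≤ ε * K := by
      have u1 : 2 * B * ε ^ 2 ≤ 2 * B * ε := mul_le_mul_of_nonneg_left hε2 (by positivity)
      have u2 : C * ε ^ 2 ≤ C * ε := mul_le_mul_of_nonneg_left hε2 hC
      rw [hK]
      nlinarith
    have hτpos : 0 ≤ C * ε ^ 2 + 0 + n * (B * ε * C + B * ε * C) := by positivity
    cases m with
    | zero =>
      change ‖((Φ (k + 1)).map 1 - (Φ (k + 1)).map (Matrix.single 0 0 1)) *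
        (gR κ τ k 0 * κ k)‖ ≤ η
      linarith [hpartκ 0]
    | succ m =>
      change ‖((Φ (k + 1)).map 1 - (Φ (k + 1)).map (Matrix.single 0 0 1)) *
        (gR κ τ k (m + 1) * κ k + gR κ τ k m * τ k)‖ ≤ η
      rw [mul_add]
      refine (norm_add_le _ _).trans ?_
      linarith [hpartκ (m + 1), hpartτ m]

end

end P101
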