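import Mathlib.Analysis.CStarAlgebra.ContinuousFunctionalCalculus.Range
import Vale.Agent.Lib.P101.CutA
import Vale.Agent.Lib.P101.CutB
import Vale.Agent.Lib.P101.Estimate
import Vale.Agent.Lib.P101.Douglas

/-!
# The final step: `1 - ψ(1)` is dominated by `ψ(e_00)`

`S j` pairwise commuting *-subalgebras of `F`, `φ j : M_n → S j` order zero maps with
`‖φ j (1)‖ ≤ 1`, `c j i ∈ S j` (`i < N`), bounded, with
`∑_i c_{j,i}* (a'_j)² c_{j,i} = 1`, `a'_j = cutElt (φ j) ε` for all `j : ℕ`.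
Then there are an order zero map `ψ : M_n → F` and `r ∈ F` with `r* r = 1 - ψ(1)` and
`ψ(e_00) r = r`.

**Proof.**  `Φ` = iterated glue (`exists_iterGlue`), `k = N (N-1)/2 + 1`, `H = Φ k (1)`,
`τ_{i,j} = a'_j c_{j,i} = φ_j(e_00) σ_{i,j}`, `σ_{i,j} = cut_ε(h_j) c_{j,i} ∈ S_j`
(`cut_ε(h_j)` commutes with `φ_j(e_00)`, is in `S j` — here `S j` should be closed, hypothesis
`hcl`), `z_{i,j} = τ_{i,j}* τ_{i,j}`, `∑_i z_{i,j} = 1`, so `0 ≤ z_{i,j} ≤ 1`.
* `t₁` from `exists_cut_iterGlue` for `ε` and `k`.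
* `η = t₁ / (2 N M + 1)`-like, where `M = (1 + C')^k ‖1‖` bounds `‖gR _ _ k _‖`.
* `δ₀` from `estimate` for each `i < N` (take the minimum), `δ = min (δ₀/2) (ε/2)`.
* `t₀` from `exists_cut_iterGlue` for `δ` and `k`, `t₀ ≤ t₁/2`.
* `κ j = 1 - cut_δ(h_j)`; `g = 1 - cut_{t₀}(H) ≥ 0`, `b = g^{1/2}`.  `κ_j g = g` for `j < k`
  because `cut_δ(h_j) (1 - cut_{t₀}(H)) = 0`; hence `κ_j b = b`
  (`((1-κ_j) b)² = (1-κ_j)² g = 0`).
* `ψ(m) = cutDiv_{t₀}(H) Φ_k(m)`, `ψ₁(m) = cutDiv_{t₁}(H) Φ_k(m)`, `P = ψ₁(e_00)`;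
  `ψ(e_00) P = cutDiv_{t₀}(H) cutDiv_{t₁}(H) H Φ_k(e_00) = cut_{t₀}(H) cutDiv_{t₁}(H) Φ_k(e_00) = P`
  (`2 t₀ ≤ t₁`).
* `G_i = gR κ τ_i k (i+1)`, `s = P (∑_{i<N} G_i) b`.
  `s* s = b (∑_{i,i'} G_i* P² G_{i'}) b = b (∑_i G_i* P² G_i) b` by `gR_orth` with `y = P²`
  (`κ_j` commutes with `Φ_k(e_00)` and `H`, and `κ_j τ_{i,j} = 0` since `2 δ ≤ ε`).
* `(1 - cut_{t₁}(H)) G_i = 0` by `mul_gR_eq_zero`; `P² = cut_{t₁}(H) cutDiv_{t₁}(H) Φ_k(e_00)`; so
  `(1 - P²) G_i = cutDiv_{t₁}(H) (H - Φ_k(e_00)) G_i` has norm `≤ η / t₁`.  Hence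
  `∑_i G_i* P² G_i ≥ ∑_i G_i* G_i - ½`.
* `b G_i* G_i b = b eS z_i k (i+1) b` by `gR_sq`, and
  `∑_{i<N} eS z_i k (i+1) ≥ ∑_i (∑_{j<k} z_{i,j} - i) = k - N(N-1)/2 = 1` by `le_eS`.
  So `s* s ≥ b b - ½ b b = ½ g`.
* `exists_star_mul_self_eq` with `v = g`, `x = √2 s`: `r` in the closure of `s F`, `r* r = g`;
  `ψ(e_00) s = s` gives `ψ(e_00) r = r`.
-/

open scoped ENNReal Topology
open Filter Matrix

namespace P101

attribute [local instance] CStarAlgebra.spectralOrder CStarAlgebra.spectralOrderedRing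

universe u

/-- `cut ≤ 1`. -/
theorem cut_le_one_fs (ε t : ℝ) : cut ε t ≤ 1 := by
  unfold cut
  exact min_le_left _ _

/-- if `2 t₀ ≤ t₁` then `cut_{t₀} cutDiv_{t₁} = cutDiv_{t₁}`. -/
theorem cut_mul_cutDiv' {t₀ t₁ : ℝ} (h0 : 0 < t₀) (h01 : 2 * t₀ ≤ t₁) (s : ℝ) :
    cut t₀ s * cutDiv t₁ s = cutDiv t₁ s := by
  have h1 : 0 < t₁ := by linarith
  by_cases hs : s ≤ t₁
  · have : cut t₁ s = 0 := by
      unfold cut
      have : s / t₁ - 1 ≤ 0 := by
        rw [sub_nonpos, div_le_one h1]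
        exact hs
      rw [max_eq_left this]
      simp
    unfold cutDiv
    rw [this]
    simp
  · push Not at hs
    have : cut t₀ s = 1 := by
      unfold cut
      have h2 : 1 ≤ s / t₀ - 1 := by
        rw [le_sub_iff_add_le, le_div_iff₀ h0]
        linarith
      rw [max_eq_right (by linarith)]
      exact min_eq_left h2
    rw [this, one_mul]

theorem final_step {n : ℕ} [NeZero n] {F : Type u} [CStarAlgebra F] [Nontrivial F]
    (S : ℕ → StarSubalgebra ℂ F) (hcl : ∀ j, IsClosed (S j : Set F))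
    (hS : ∀ i j, i ≠ j → ∀ x ∈ S i, ∀ y ∈ S j, Commute x y)
    (φ : ℕ → OZ (Fin n) F) (hφ : ∀ j a, (φ j).map a ∈ S j) (h1 : ∀ j, ‖(φ j).map 1‖ ≤ 1)
    {ε : ℝ} (hε : 0 < ε) {N : ℕ} (c : ℕ → Fin N → F) (hcS : ∀ j i, c j i ∈ S j)
    {C : ℝ} (hC : ∀ j i, ‖c j i‖ ≤ C)
    (hsum : ∀ j, ∑ i, star (c j i) * (cutElt (φ j) ε * cutElt (φ j) ε) * c j i = 1) :
    ∃ (ψ : OZ (Fin n) F) (r : F), star r * r = 1 - ψ.map 1 ∧
      ψ.map (Matrix.single 0 0 1) * r = r := by
  classical
  obtain ⟨Φ, hΦ, hΦc⟩ := exists_iterGlue S hS φ hφ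
  set e : Matrix (Fin n) (Fin n) ℂ := Matrix.single 0 0 1 with he
  have hee : e * e = e := by simp [he]
  have hse : star e = e := by simp [he, star_eq_conjTranspose]
  set k : ℕ := (∑ i : Fin N, (i : ℕ)) + 1 with hk
  set H : F := (Φ k).map 1 with hH
  have hH0 : 0 ≤ H := (Φ k).one_nonneg
  have hHsa : IsSelfAdjoint H := (Φ k).one_isSelfAdjoint
  set E : F := (Φ k).map e with hE
  have hEsa : IsSelfAdjoint E := by
    rw [isSelfAdjoint_iff, hE, ← (Φ k).map_star, hse]
  have hEE : E * E = H * E := by rw [hE, (Φ k).map_mul, hee]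
  have hHE : Commute H E := (Φ k).one_mul_comm e
  have hh0 : ∀ j, 0 ≤ (φ j).map 1 := fun j => (φ j).one_nonneg
  have hhS : ∀ j, (φ j).map 1 ∈ S j := fun j => hφ j 1
  have hhΦ : ∀ j k' a, Commute ((φ j).map 1) ((Φ k').map a) :=
    fun j k' a => one_commute_iterGlue S hS φ hφ hΦ j k' a
  have hpsa : ∀ j, IsSelfAdjoint ((φ j).map e) := fun j => by
    rw [isSelfAdjoint_iff, ← (φ j).map_star, hse]
  have hhp : ∀ j, Commute ((φ j).map 1) ((φ j).map e) := fun j => (φ j).one_mul_comm e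
  -- the cutoffs
  set q : ℕ → F := fun j => cfc (cut ε) ((φ j).map 1) with hq
  have hqS : ∀ j, q j ∈ S j := fun j => by
    have := hcl j
    exact cfc_mem (𝕜' := ℂ) (cut ε) (hhS j)
  have hqsa : ∀ j, IsSelfAdjoint (q j) := fun j => cfc_predicate _ _
  have hqp : ∀ j, Commute (q j) ((φ j).map e) := fun j => (hhp j).cfc_real _
  set σ : Fin N → ℕ → F := fun i j => q j * c j i with hσ
  set τ : Fin N → ℕ → F := fun i j => (φ j).map e * σ i j with hτ
  have hσS : ∀ i j, σ i j ∈ S j := fun i j => mul_mem (hqS j) (hcS j i)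
  have hτS : ∀ i j, τ i j ∈ S j := fun i j => mul_mem (hφ j e) (hσS i j)
  have hz : ∀ i j, star (τ i j) * τ i j =
      star (c j i) * (cutElt (φ j) ε * cutElt (φ j) ε) * c j i := by
    intro i j
    have h2 : cutElt (φ j) ε = q j * (φ j).map e := rfl
    rw [h2]
    simp only [hτ, hσ, star_mul, (hqsa j).star_eq, (hpsa j).star_eq]
    have h3 := (hqp j).eq
    calc star (c j i) * q j * (φ j).map e * ((φ j).map e * (q j * c j i))
        = star (c j i) * ((q j * (φ j).map e) * ((φ j).map e * q j)) * c j i := by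
          simp only [mul_assoc]
      _ = star (c j i) * (q j * (φ j).map e * (q j * (φ j).map e)) * c j i := by
          rw [← h3]
  have hzsum : ∀ j, ∑ i, star (τ i j) * τ i j = 1 := by
    intro j
    rw [← hsum j]
    exact Finset.sum_congr rfl fun i _ => hz i j
  have hz0 : ∀ i j, 0 ≤ star (τ i j) * τ i j := fun i j => star_mul_self_nonneg _
  have hz1 : ∀ i j, star (τ i j) * τ i j ≤ 1 := by
    intro i j
    rw [← hzsum j]
    exact Finset.single_le_sum (f := fun i => star (τ i j) * τ i j) (fun i _ => hz0 i j)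
      (Finset.mem_univ i)
  have hτn : ∀ i j, ‖τ i j‖ ≤ 1 := by
    intro i j
    have h2 : ‖star (τ i j) * τ i j‖ ≤ 1 :=
      (CStarAlgebra.norm_le_one_iff_of_nonneg _ (hz0 i j)).2 (hz1 i j)
    rw [CStarRing.norm_star_mul_self] at h2
    nlinarith [norm_nonneg (τ i j)]
  obtain ⟨t₁, ht₁, hcut1⟩ := exists_cut_iterGlue hΦ (fun j k' => hhΦ j k' 1) k hε
  set η : ℝ := t₁ / (2 * (N + 1) * 2 ^ k) with hη
  have hη0 : 0 < η := by positivity
  have hest : ∀ i : Fin N, ∃ δ : ℝ, 0 < δ ∧ ∀ κ : ℕ → F, (∀ j, κ j ∈ S j) →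
      (∀ j, IsSelfAdjoint (κ j)) → (∀ j, ‖κ j‖ ≤ 1) → (∀ j a, Commute (κ j) ((φ j).map a)) →
      (∀ j, ‖(φ j).map 1 * κ j‖ ≤ δ) → ∀ m, ‖(H - E) * gR κ (τ i) k m‖ ≤ η :=
    fun i => estimate S hS φ hφ hΦ hΦc h1 (σ i) (hσS i) (C := 1) zero_le_one (hτn i) k hη0
  choose δ₀ hδ₀ hest using hest
  obtain ⟨δ', hδ'0, hδ'⟩ : ∃ δ' : ℝ, 0 < δ' ∧ ∀ i : Fin N, δ' ≤ δ₀ i := by
    rcases isEmpty_or_nonempty (Fin N) with hN | hN
    · exact ⟨1, one_pos, fun i => (hN.false i).elim⟩
    · obtain ⟨i0, h2⟩ := Finite.exists_min δ₀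
      exact ⟨δ₀ i0, hδ₀ i0, h2⟩
  set δ : ℝ := min (δ' / 2) (ε / 2) with hδ
  have hδ0 : 0 < δ := lt_min (by linarith) (by linarith)
  have hδ1 : 2 * δ ≤ δ' := by
    have := min_le_left (δ' / 2) (ε / 2)
    linarith
  have hδ2 : 2 * δ ≤ ε := by
    have := min_le_right (δ' / 2) (ε / 2)
    linarith
  obtain ⟨t₂, ht₂, hcut2⟩ := exists_cut_iterGlue hΦ (fun j k' => hhΦ j k' 1) k hδ0
  set t₀ : ℝ := min t₂ (t₁ / 2) with ht₀
  have ht₀0 : 0 < t₀ := lt_min ht₂ (by linarith)
  have ht₀1 : 2 * t₀ ≤ t₁ := by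
    have := min_le_right t₂ (t₁ / 2)
    linarith
  set κ : ℕ → F := fun j => 1 - cfc (cut δ) ((φ j).map 1) with hκ
  have hκS : ∀ j, κ j ∈ S j := fun j => by
    have := hcl j
    exact sub_mem (one_mem _) (cfc_mem (𝕜' := ℂ) (cut δ) (hhS j))
  have hκsa : ∀ j, IsSelfAdjoint (κ j) := fun j =>
    (IsSelfAdjoint.one F).sub (cfc_predicate _ _)
  have hκn : ∀ j, ‖κ j‖ ≤ 1 := fun j => (norm_one_sub_cut_le (hh0 j) hδ0).1
  have hκc : ∀ j a, Commute (κ j) ((φ j).map a) := fun j a =>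
    (Commute.one_left _).sub_left (Commute.cfc_real ((φ j).one_mul_comm a) _)
  have hκh : ∀ i : Fin N, ∀ j, ‖(φ j).map 1 * κ j‖ ≤ δ₀ i := fun i j =>
    ((norm_one_sub_cut_le (hh0 j) hδ0).2.trans hδ1).trans (hδ' i)
  have hκΦ : ∀ j a, Commute (κ j) ((Φ k).map a) := fun j a =>
    (Commute.one_left _).sub_left (Commute.cfc_real (hhΦ j k a) _)
  have hκτ : ∀ i j, κ j * τ i j = 0 := by
    intro i j
    have h2 : (1 - cfc (cut δ) ((φ j).map 1)) * cfc (cut ε) ((φ j).map 1) = 0 :=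
      one_sub_cut_mul_cut_self (hh0 j) hδ0 hδ2
    have h3 := (hqp j).eq
    calc κ j * τ i j = κ j * ((φ j).map e * q j) * c j i := by
          simp only [hτ, hσ, mul_assoc]
      _ = κ j * q j * ((φ j).map e * c j i) := by rw [← h3]; simp only [mul_assoc]
      _ = 0 := by
          change (1 - cfc (cut δ) ((φ j).map 1)) * cfc (cut ε) ((φ j).map 1) * _ = 0
          rw [h2, zero_mul]
  set G : Fin N → F := fun i => gR κ (τ i) k ((i : ℕ) + 1) with hG
  -- the maps ψ₁ and ψ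
  set D : F := cfc (cutDiv t₁) H with hD
  set K : F := cfc (cut t₁) H with hK
  have hDsa : IsSelfAdjoint D := cfc_predicate _ _
  have hDH : D * H = K := by
    have h2 : cfc (fun x => cutDiv t₁ x * x) H = cfc (cutDiv t₁) H * cfc (fun x => x) H :=
      cfc_mul (cutDiv t₁) (fun x => x) H (continuous_cutDiv ht₁).continuousOn continuousOn_id
    rw [cfc_id' ℝ H] at h2
    rw [hD, ← h2, hK]
    congr 1
    funext x
    exact cutDiv_mul ht₁
  have hDE : Commute D E := hHE.cfc_real _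
  have hKE : Commute K E := hHE.cfc_real _
  set P : F := D * E with hP
  have hPsa : IsSelfAdjoint P := by
    rw [isSelfAdjoint_iff, hP, star_mul, hDsa.star_eq, hEsa.star_eq]
    exact hDE.eq.symm
  have hPP : P * P = D * E * K := by
    calc P * P = D * (E * D) * E := by rw [hP]; simp only [mul_assoc]
      _ = D * D * (E * E) := by rw [← hDE.eq]; simp only [mul_assoc]
      _ = D * (D * H) * E := by rw [hEE]; simp only [mul_assoc]
      _ = D * (K * E) := by rw [hDH]; simp only [mul_assoc]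
      _ = D * E * K := by rw [hKE.eq]; simp only [mul_assoc]
  have hκP : ∀ j, Commute (κ j) P := fun j => by
    refine Commute.mul_right ?_ (hκΦ j e)
    exact (Commute.cfc_real (hκΦ j 1).symm _).symm
  have hKG : ∀ i, K * G i = G i := by
    intro i
    have h2 : (1 - K) * gR κ (τ i) k ((i : ℕ) + 1) = 0 := by
      refine mul_gR_eq_zero S hS hκS (hτS i) k i ?_
      intro j hj
      have h3 := hcut1 t₁ ht₁ le_rfl j hj
      have h4 := (hqp j).eq
      calc (1 - K) * τ i j = (1 - K) * ((φ j).map e * q j) * c j i := by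
            simp only [hτ, hσ, mul_assoc]
        _ = (1 - K) * q j * ((φ j).map e * c j i) := by rw [← h4]; simp only [mul_assoc]
        _ = 0 := by
            change (1 - cfc (cut t₁) ((Φ k).map 1)) * cfc (cut ε) ((φ j).map 1) * _ = 0
            rw [h3, zero_mul]
    rw [sub_mul, one_mul, sub_eq_zero] at h2
    exact h2.symm
  have hPG : ∀ i, (1 - P * P) * G i = D * ((H - E) * G i) := by
    intro i
    calc (1 - P * P) * G i = G i - D * E * (K * G i) := by
          rw [hPP, sub_mul, one_mul]; simp only [mul_assoc]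
      _ = K * G i - D * E * G i := by rw [hKG i]
      _ = D * ((H - E) * G i) := by
          rw [← hDH, sub_mul, mul_sub]; simp only [mul_assoc]
  have hGn : ∀ i, ‖G i‖ ≤ 2 ^ k := by
    intro i
    have h2 := norm_gR_le (κ := κ) (τ := τ i) (C := 1) zero_le_one hκn (hτn i) k ((i : ℕ) + 1)
    rw [CStarRing.norm_one, mul_one] at h2
    norm_num at h2
    exact h2
  have hDn : ‖D‖ ≤ 1 / t₁ := norm_cutDiv_le ht₁
  have hPGn : ∀ i, ‖(1 - P * P) * G i‖ ≤ 1 / t₁ * η := by
    intro i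
    rw [hPG i]
    refine (norm_mul_le _ _).trans ?_
    have h2 := hest i κ hκS hκsa hκn hκc (hκh i) ((i : ℕ) + 1)
    exact mul_le_mul hDn h2 (norm_nonneg _) (by positivity)
  set R : F := ∑ i, star (G i) * ((1 - P * P) * G i) with hR
  have hRn : ‖R‖ ≤ 1 / 2 := by
    have h2 : ∀ i ∈ (Finset.univ : Finset (Fin N)), ‖star (G i) * ((1 - P * P) * G i)‖ ≤
        2 ^ k * (1 / t₁ * η) := by
      intro i _
      refine (norm_mul_le _ _).trans ?_
      rw [norm_star]
      exact mul_le_mul (hGn i) (hPGn i) (norm_nonneg _) (by positivity)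
    have h3 := norm_sum_le_of_le _ h2
    refine h3.trans ?_
    simp only [Finset.sum_const, Finset.card_univ, Fintype.card_fin, nsmul_eq_mul]
    rw [hη]
    have h4 : (N : ℝ) * (2 ^ k * (1 / t₁ * (t₁ / (2 * (N + 1) * 2 ^ k)))) =
        N / (2 * (N + 1)) := by
      field_simp
    rw [h4, div_le_div_iff₀ (by positivity) (by norm_num)]
    linarith
  have h1PP : IsSelfAdjoint (1 - P * P) := by
    refine (IsSelfAdjoint.one F).sub ?_
    rw [isSelfAdjoint_iff, star_mul, hPsa.star_eq]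
  have hRsa : IsSelfAdjoint R := by
    rw [isSelfAdjoint_iff, hR, star_sum]
    refine Finset.sum_congr rfl fun i _ => ?_
    rw [star_mul, star_star, star_mul, h1PP.star_eq, mul_assoc]
  -- the element g
  set g : F := 1 - cfc (cut t₀) H with hg
  have hg0 : 0 ≤ g := by
    rw [hg, sub_nonneg]
    exact cfc_le_one _ _ (fun x _ => cut_le_one_fs _ _)
  set b : F := CFC.sqrt g with hb
  have hb0 : 0 ≤ b := CFC.sqrt_nonneg g
  have hbsa : IsSelfAdjoint b := IsSelfAdjoint.of_nonneg hb0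
  have hbb : b * b = g := CFC.sqrt_mul_sqrt_self g hg0
  have hκb : ∀ j, j < k → κ j * b = b := by
    intro j hj
    have h2 : (1 - cfc (cut t₀) ((Φ k).map 1)) * cfc (cut δ) ((φ j).map 1) = 0 :=
      hcut2 t₀ ht₀0 (min_le_left _ _) j hj
    have h3 : cfc (cut δ) ((φ j).map 1) * b = 0 := by
      rw [← CStarRing.mul_star_self_eq_zero_iff, star_mul, hbsa.star_eq]
      have h4 : IsSelfAdjoint (cfc (cut δ) ((φ j).map 1)) := cfc_predicate _ _
      rw [h4.star_eq]
      calc cfc (cut δ) ((φ j).map 1) * b * (b * cfc (cut δ) ((φ j).map 1))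
          = cfc (cut δ) ((φ j).map 1) * ((b * b) * cfc (cut δ) ((φ j).map 1)) := by
            simp only [mul_assoc]
        _ = 0 := by rw [hbb, hg, h2, mul_zero]
    rw [hκ]
    simp only
    rw [sub_mul, one_mul, h3, sub_zero]
  -- squares
  have hGG : ∀ i, star (G i) * G i * b =
      eS (fun j => star (τ i j) * τ i j) k ((i : ℕ) + 1) * b := fun i =>
    gR_sq S hS hκS (hτS i) hκsa (hκτ i) k ((i : ℕ) + 1) hκb
  have heS : ∀ i : Fin N, (∑ j ∈ Finset.range k, star (τ i j) * τ i j) - ((i : ℕ) : ℝ) • (1 : F) ≤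
      eS (fun j => star (τ i j) * τ i j) k ((i : ℕ) + 1) := by
    intro i
    refine le_eS _ (hz0 i) (hz1 i) ?_ k i
    intro j j'
    by_cases hjj : j = j'
    · rw [hjj]
    · exact hS j j' hjj _ (mul_mem (star_mem (hτS i j)) (hτS i j)) _
        (mul_mem (star_mem (hτS i j')) (hτS i j'))
  have heS1 : (1 : F) ≤ ∑ i : Fin N, eS (fun j => star (τ i j) * τ i j) k ((i : ℕ) + 1) := by
    refine le_trans ?_ (Finset.sum_le_sum fun i _ => heS i)
    rw [Finset.sum_sub_distrib, Finset.sum_comm]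
    simp only [hzsum]
    rw [Finset.sum_const, Finset.card_range, ← Finset.sum_smul]
    have h2 : (∑ i : Fin N, ((i : ℕ) : ℝ)) = (k : ℝ) - 1 := by
      rw [hk]
      push_cast
      ring
    rw [h2, sub_smul, one_smul, Nat.cast_smul_eq_nsmul]
    simp
  -- orthogonality
  have horth : ∀ i i', i ≠ i' → star (G i) * (P * P) * G i' = 0 := by
    intro i i' hii
    refine gR_orth S hS hκS (hτS i) (hτS i') (y := P * P) ?_ ?_ k _ _ ?_
    · intro j
      rw [(hκsa j).star_eq, ((hκP j).mul_right (hκP j)).eq, mul_assoc, hκτ i' j, mul_zero]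
    · intro j
      rw [mul_assoc, ← ((hκP j).mul_right (hκP j)).eq, ← mul_assoc]
      have h2 : star (τ i j) * κ j = 0 := by
        have h3 := congrArg star (hκτ i j)
        rw [star_mul, (hκsa j).star_eq, star_zero] at h3
        exact h3
      rw [h2, zero_mul]
    · intro h2
      apply hii
      exact Fin.ext (by omega)
  set T : F := ∑ i, G i with hT
  have hTT : star T * (P * P) * T = ∑ i, star (G i) * (P * P) * G i := by
    rw [hT, star_sum, Finset.sum_mul, Finset.sum_mul]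
    refine Finset.sum_congr rfl fun i _ => ?_
    rw [Finset.mul_sum, Finset.sum_eq_single i]
    · intro i' _ hi'
      exact horth i i' (Ne.symm hi')
    · intro h2
      exact absurd (Finset.mem_univ i) h2
  have hTT2 : star T * (P * P) * T = (∑ i, star (G i) * G i) - R := by
    rw [hTT, hR, ← Finset.sum_sub_distrib]
    refine Finset.sum_congr rfl fun i _ => ?_
    rw [sub_mul, one_mul, mul_sub]
    simp only [mul_assoc]
    abel
  set s : F := P * T * b with hs
  have hss : star s * s = b * (∑ i, star (G i) * G i) * b - b * R * b := by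
    calc star s * s = b * (star T * (P * P) * T) * b := by
          rw [hs, star_mul, star_mul, hbsa.star_eq, hPsa.star_eq]
          simp only [mul_assoc]
      _ = _ := by rw [hTT2, mul_sub, sub_mul]
  have hGGb : b * (∑ i, star (G i) * G i) * b =
      b * (∑ i : Fin N, eS (fun j => star (τ i j) * τ i j) k ((i : ℕ) + 1)) * b := by
    rw [mul_assoc, mul_assoc, Finset.sum_mul, Finset.sum_mul]
    congr 1
    exact Finset.sum_congr rfl fun i _ => hGG i
  have hge1 : g ≤ b * (∑ i, star (G i) * G i) * b := by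
    rw [hGGb]
    have h2 := hbsa.conjugate_le_conjugate heS1
    rw [mul_one, hbb] at h2
    exact h2
  have hRle : R ≤ algebraMap ℝ F (1 / 2) := by
    refine (IsSelfAdjoint.le_algebraMap_norm_self hRsa).trans ?_
    exact algebraMap_mono F hRn
  have hge2 : b * R * b ≤ (1 / 2 : ℝ) • g := by
    have h2 := hbsa.conjugate_le_conjugate hRle
    rw [Algebra.algebraMap_eq_smul_one, mul_smul_comm, mul_one, smul_mul_assoc, hbb] at h2
    exact h2
  have hge3 : (1 / 2 : ℝ) • g ≤ star s * s := by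
    rw [hss]
    have h2 : (1 / 2 : ℝ) • g = g - (1 / 2 : ℝ) • g := by
      have h3 : g = (1 : ℝ) • g := (one_smul _ _).symm
      nth_rewrite 2 [h3]
      rw [← sub_smul]
      norm_num
    rw [h2]
    exact sub_le_sub hge1 hge2
  set x : F := ((Real.sqrt 2 : ℝ) : ℂ) • s with hx
  have hxx : star x * x = star s * s + star s * s := by
    rw [hx, star_smul, smul_mul_smul_comm, ← two_smul ℂ]
    congr 1
    rw [Complex.star_def, Complex.conj_ofReal, ← Complex.ofReal_mul,
      Real.mul_self_sqrt (by norm_num)]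
    norm_num
  have hgx : g ≤ star x * x := by
    rw [hxx]
    have h2 : g = (1 / 2 : ℝ) • g + (1 / 2 : ℝ) • g := by
      rw [← add_smul]
      norm_num
    calc g = (1 / 2 : ℝ) • g + (1 / 2 : ℝ) • g := h2
      _ ≤ _ := add_le_add hge3 hge3
  obtain ⟨r, hrcl, hr⟩ := exists_star_mul_self_eq hg0 hgx
  obtain ⟨ψ, hψ, hψ1⟩ := exists_cutOZ (Φ k) ht₀0
  refine ⟨ψ, r, ?_, ?_⟩
  · rw [hr, hψ1]
  · have hψP : ψ.map e * P = P := by
      rw [hψ e]
      have h2 : Commute (cfc (cutDiv t₀) H) E := hHE.cfc_real _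
      have h3 : cfc (cutDiv t₀) H * H = cfc (cut t₀) H := by
        have h4 : cfc (fun x => cutDiv t₀ x * x) H =
            cfc (cutDiv t₀) H * cfc (fun x => x) H :=
          cfc_mul (cutDiv t₀) (fun x => x) H (continuous_cutDiv ht₀0).continuousOn
            continuousOn_id
        rw [cfc_id' ℝ H] at h4
        rw [← h4]
        congr 1
        funext x
        exact cutDiv_mul ht₀0
      have h5 : cfc (cut t₀) H * D = D := by
        rw [hD, ← cfc_mul (cut t₀) (cutDiv t₁) H (continuous_cut t₀).continuousOn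
          (continuous_cutDiv ht₁).continuousOn]
        congr 1
        funext x
        exact cut_mul_cutDiv' ht₀0 ht₀1 x
      calc cfc (cutDiv t₀) H * E * (D * E) = cfc (cutDiv t₀) H * (E * D) * E := by
            simp only [mul_assoc]
        _ = cfc (cutDiv t₀) H * D * (E * E) := by rw [← hDE.eq]; simp only [mul_assoc]
        _ = cfc (cutDiv t₀) H * (D * H) * E := by rw [hEE]; simp only [mul_assoc]
        _ = cfc (cutDiv t₀) H * (H * D) * E := by
            rw [(Commute.cfc_real (Commute.refl H) (cutDiv t₁)).eq]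
        _ = (cfc (cutDiv t₀) H * H) * D * E := by simp only [mul_assoc]
        _ = D * E := by rw [h3, h5]
    have hclosed : IsClosed {y : F | ψ.map e * y = y} :=
      isClosed_eq (continuous_const.mul continuous_id) continuous_id
    have hsub : (Set.range fun y : F => x * y) ⊆ {y : F | ψ.map e * y = y} := by
      rintro _ ⟨y, rfl⟩
      change ψ.map e * (x * y) = x * y
      rw [← mul_assoc]
      congr 1
      rw [hx, mul_smul_comm, hs]
      congr 1
      rw [← mul_assoc, ← mul_assoc, hψP]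
    exact closure_minimal hsub hclosed hrcl

end P101
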