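import Vale.Agent.Lib.P101.Base

/-!
# The dimension drop algebra `I(p, q)` (`p, q ≥ 2`) has no characters

Only `p = 2`, `q = 3` is needed.

Proof.  Let `χ : dimDrop 2 3 →⋆ₐ[ℂ] ℂ`.  In `dimDrop 2 3` consider the functions
`x₁(t) = (1-t) e_12 ⊗ 1`, `x₂(t) = t (1 ⊗ e_12)`, `x₃(t) = t (1 ⊗ e_23)` (zero on one side and in
`M_2 ⊗ 1`, resp. `1 ⊗ M_3`, on the other side; `f(0) ∈ M_2 ⊗ 1`: for `x₁` it is `e_12 ⊗ 1`, for
`x₂, x₃` it is `0`; `f(1) ∈ 1 ⊗ M_3`: for `x₁` it is `0`).  Each `x_i² = 0` so `χ(x_i) = 0`.  Then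
`x₁ x₁* + x₁* x₁ = (1-t)²` and `x₂ x₂* + x₂* x₂ + x₃* x₃ = t²`, so `χ((1-t)²) = 0 = χ(t²)`; the
scalar functions `t`, `1 - t` are in `dimDrop 2 3` and `χ(1-t)² = 0`, `χ(t)² = 0`, so
`1 = χ(1) = χ(1-t) + χ(t) = 0`.
-/

open scoped ENNReal Topology
open Filter Matrix

namespace P101

namespace NoChar

/-- `t ↦ (1 - t) (a ⊗ 1)` -/
noncomputable def Lf (a : Matrix (Fin 2) (Fin 2) ℂ) : dimDrop 2 3 :=
  ⟨⟨fun t => (((1 - (t : ℝ) : ℝ)) : ℂ) •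
      kroneckerMap (· * ·) a (1 : Matrix (Fin 3) (Fin 3) ℂ), by fun_prop⟩,
    ⟨a, by simp⟩, ⟨0, by simp⟩⟩

/-- `t ↦ t (1 ⊗ b)` -/
noncomputable def Rf (b : Matrix (Fin 3) (Fin 3) ℂ) : dimDrop 2 3 :=
  ⟨⟨fun t => (((t : ℝ)) : ℂ) •
      kroneckerMap (· * ·) (1 : Matrix (Fin 2) (Fin 2) ℂ) b, by fun_prop⟩,
    ⟨0, by simp⟩, ⟨b, by simp⟩⟩

theorem ext_dd {f g : dimDrop 2 3} (h : ∀ t, f.1 t = g.1 t) : f = g :=
  Subtype.ext (ContinuousMap.ext h)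

theorem Lf_apply (a : Matrix (Fin 2) (Fin 2) ℂ) (t : unitInterval) :
    (Lf a).1 t = (((1 - (t : ℝ) : ℝ)) : ℂ) •
      kroneckerMap (· * ·) a (1 : Matrix (Fin 3) (Fin 3) ℂ) := rfl

theorem Rf_apply (b : Matrix (Fin 3) (Fin 3) ℂ) (t : unitInterval) :
    (Rf b).1 t = (((t : ℝ)) : ℂ) •
      kroneckerMap (· * ·) (1 : Matrix (Fin 2) (Fin 2) ℂ) b := rfl

theorem Lf_mul (a b : Matrix (Fin 2) (Fin 2) ℂ) : Lf a * Lf b = Lf 1 * Lf (a * b) := by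
  apply ext_dd
  intro t
  change (Lf a).1 t * (Lf b).1 t =
    (Lf 1).1 t * (Lf (a * b)).1 t
  rw [Lf_apply, Lf_apply, Lf_apply, Lf_apply, smul_mul_smul_comm, smul_mul_smul_comm,
    ← mul_kronecker_mul, ← mul_kronecker_mul]
  simp

theorem Rf_mul (a b : Matrix (Fin 3) (Fin 3) ℂ) : Rf a * Rf b = Rf 1 * Rf (a * b) := by
  apply ext_dd
  intro t
  change (Rf a).1 t * (Rf b).1 t =
    (Rf 1).1 t * (Rf (a * b)).1 t
  rw [Rf_apply, Rf_apply, Rf_apply, Rf_apply, smul_mul_smul_comm, smul_mul_smul_comm,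
    ← mul_kronecker_mul, ← mul_kronecker_mul]
  simp

theorem Lf_add (a b : Matrix (Fin 2) (Fin 2) ℂ) : Lf a + Lf b = Lf (a + b) := by
  apply ext_dd
  intro t
  change (Lf a).1 t + (Lf b).1 t =
    (Lf (a + b)).1 t
  rw [Lf_apply, Lf_apply, Lf_apply, ← smul_add, ← add_kronecker]

theorem Rf_add (a b : Matrix (Fin 3) (Fin 3) ℂ) : Rf a + Rf b = Rf (a + b) := by
  apply ext_dd
  intro t
  change (Rf a).1 t + (Rf b).1 t =
    (Rf (a + b)).1 t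
  rw [Rf_apply, Rf_apply, Rf_apply, ← smul_add, ← kronecker_add]

theorem Lf_zero : Lf 0 = 0 := by
  apply ext_dd
  intro t
  rw [Lf_apply]
  simp

theorem Rf_zero : Rf 0 = 0 := by
  apply ext_dd
  intro t
  rw [Rf_apply]
  simp

theorem Lf_add_Rf : Lf 1 + Rf 1 = 1 := by
  apply ext_dd
  intro t
  change (Lf 1).1 t + (Rf 1).1 t = 1
  rw [Lf_apply, Rf_apply, one_kronecker_one, ← add_smul]
  simp

/-- if `a * a = 0` then `χ (L a) = 0` -/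
theorem chi_L (χ : dimDrop 2 3 →⋆ₐ[ℂ] ℂ) {a : Matrix (Fin 2) (Fin 2) ℂ} (h : a * a = 0) :
    χ (Lf a) = 0 := by
  have h1 : χ (Lf a) * χ (Lf a) = 0 := by
    rw [← map_mul, Lf_mul, h, Lf_zero, mul_zero, map_zero]
  exact mul_self_eq_zero.1 h1

theorem chi_R (χ : dimDrop 2 3 →⋆ₐ[ℂ] ℂ) {a : Matrix (Fin 3) (Fin 3) ℂ} (h : a * a = 0) :
    χ (Rf a) = 0 := by
  have h1 : χ (Rf a) * χ (Rf a) = 0 := by
    rw [← map_mul, Rf_mul, h, Rf_zero, mul_zero, map_zero]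
  exact mul_self_eq_zero.1 h1

end NoChar

open NoChar in
theorem dimDrop_no_character : IsEmpty (dimDrop 2 3 →⋆ₐ[ℂ] ℂ) := by
  refine ⟨fun χ => ?_⟩
  have hL : χ (Lf 1) = 0 := by
    have h1 : χ (Lf (Matrix.single 0 1 1)) = 0 := chi_L χ (by simp)
    have h2 : Lf 1 * Lf 1 = Lf (Matrix.single 0 1 1) * Lf (Matrix.single 1 0 1) +
        Lf (Matrix.single 1 0 1) * Lf (Matrix.single 0 1 1) := by
      rw [Lf_mul (Matrix.single 0 1 1), Lf_mul (Matrix.single 1 0 1), ← mul_add, Lf_add]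
      congr 2
      ext i j
      fin_cases i <;> fin_cases j <;> simp
    have h3 : χ (Lf 1) * χ (Lf 1) = 0 := by
      rw [← map_mul, h2, map_add, map_mul, map_mul, h1]
      ring
    exact mul_self_eq_zero.1 h3
  have hR : χ (Rf 1) = 0 := by
    have h1 : χ (Rf (Matrix.single 0 1 1)) = 0 := chi_R χ (by simp)
    have h1' : χ (Rf (Matrix.single 1 2 1)) = 0 := chi_R χ (by simp)
    have h2 : Rf 1 * Rf 1 = Rf (Matrix.single 0 1 1) * Rf (Matrix.single 1 0 1) +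
        (Rf (Matrix.single 1 0 1) * Rf (Matrix.single 0 1 1) +
          Rf (Matrix.single 2 1 1) * Rf (Matrix.single 1 2 1)) := by
      rw [Rf_mul (Matrix.single 0 1 1), Rf_mul (Matrix.single 1 0 1), Rf_mul (Matrix.single 2 1 1),
        ← mul_add, ← mul_add, Rf_add, Rf_add]
      congr 2
      ext i j
      fin_cases i <;> fin_cases j <;> simp
    have h3 : χ (Rf 1) * χ (Rf 1) = 0 := by
      rw [← map_mul, h2, map_add, map_add, map_mul, map_mul, map_mul, h1, h1']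
      ring
    exact mul_self_eq_zero.1 h3
  have h1 : χ 1 = 0 := by
    rw [← Lf_add_Rf, map_add, hL, hR, add_zero]
  rw [map_one] at h1
  exact one_ne_zero h1

end P101
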