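import Vale.Agent.Lib.P101.KeyB

/-!
# The key lemma

`Q` is a unital C*-algebra, `B₁`, `B₂` commuting closed *-subalgebras such that `b c = 0` implies
`b = 0` or `c = 0` (`b ∈ B₁`, `c ∈ B₂`); `a₁, a₂ ∈ B₁`, `b₁, b₂ ∈ B₂` selfadjoint with symmetric
bounds.  Then `a₁ + b₂ + a₂ b₁` is not `≥ 0`, unless `a₁ = a₂ = 0` or `b₁ = b₂ = 0`.
-/

open scoped ENNReal Topology
open Filter Matrix

namespace P101

attribute [local instance] CStarAlgebra.spectralOrder CStarAlgebra.spectralOrderedRing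

universe u

private lemma key_small {x C : ℝ} (hC : 0 ≤ C)
    (h : ∀ η : ℝ, 0 < η → η ≤ 1 → x ≤ η * C) : x ≤ 0 := by
  by_contra hx
  rw [not_le] at hx
  have hC1 : 0 < 2 * (C + 1) := by linarith
  have h1 : 0 < min 1 (x / (2 * (C + 1))) := lt_min one_pos (div_pos hx hC1)
  have h2 := h _ h1 (min_le_left _ _)
  have h3 : min 1 (x / (2 * (C + 1))) * C ≤ x / (2 * (C + 1)) * C :=
    mul_le_mul_of_nonneg_right (min_le_right _ _) hC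
  have h4 : x / (2 * (C + 1)) * C < x := by
    rw [div_mul_eq_mul_div, div_lt_iff₀ hC1]
    nlinarith
  linarith

private lemma key_conj_alg {Q : Type u} [CStarAlgebra Q] (c : Q) (r : ℝ) :
    star c * algebraMap ℝ Q r * c = r • (star c * c) := by
  rw [Algebra.algebraMap_eq_smul_one, mul_smul_comm, mul_one, smul_mul_assoc]

private lemma key_conj_le {Q : Type u} [CStarAlgebra Q] {b : Q} (sb : IsSelfAdjoint b) (c : Q) :
    star c * b * c ≤ ‖b‖ • (star c * c) := by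
  rw [← key_conj_alg]
  exact star_left_conjugate_le_conjugate sb.le_algebraMap_norm_self c

private lemma key_conj_ge {Q : Type u} [CStarAlgebra Q] {b : Q} (sb : IsSelfAdjoint b) (c : Q) :
    (-‖b‖) • (star c * c) ≤ star c * b * c := by
  rw [← key_conj_alg, map_neg]
  exact star_left_conjugate_le_conjugate sb.neg_algebraMap_norm_le_self c

/-- excision near the infimum -/
private lemma key_low {Q : Type u} [CStarAlgebra Q] [Nontrivial Q] (B : StarSubalgebra ℂ Q)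
    (hB : IsClosed (B : Set Q)) {b b' : Q} (hb : b ∈ B) (hb' : b' ∈ B) (sb : SymSA b)
    (sb' : IsSelfAdjoint b') {η : ℝ} (hη : 0 < η) :
    ∃ c ∈ B, ∃ σ : ℝ, c ≠ 0 ∧ σ ≤ ‖b'‖ ∧ star c * b' * c ≤ σ • (star c * c) ∧
      ((-‖b‖ + η) - η) • (star c * c) ≤ star c * b * c ∧
      star c * b * c ≤ (-‖b‖ + η) • (star c * c) := by
  have hα : ¬ algebraMap ℝ Q (-‖b‖ + η) ≤ b := by
    have h := (sb.not_le (r := ‖b‖ - η) (by linarith)).2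
    rwa [show -(‖b‖ - η) = -‖b‖ + η by ring] at h
  obtain ⟨c, hc, σ, hc0, hσ, h1, _, h3⟩ := excise B hB hb hb' sb.1 sb' hη hα
  refine ⟨c, hc, σ, hc0, (le_abs_self σ).trans hσ, h3, ?_, h1⟩
  rw [add_sub_cancel_right]
  exact key_conj_ge sb.1 c

/-- excision near the supremum -/
private lemma key_high {Q : Type u} [CStarAlgebra Q] [Nontrivial Q] (B : StarSubalgebra ℂ Q)
    (hB : IsClosed (B : Set Q)) {b b' : Q} (hb : b ∈ B) (hb' : b' ∈ B) (sb : SymSA b)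
    (sb' : IsSelfAdjoint b') {η : ℝ} (hη : 0 < η) :
    ∃ c ∈ B, ∃ σ : ℝ, c ≠ 0 ∧ σ ≤ ‖b'‖ ∧ star c * b' * c ≤ σ • (star c * c) ∧
      (‖b‖ - η) • (star c * c) ≤ star c * b * c ∧
      star c * b * c ≤ ‖b‖ • (star c * c) := by
  have hα : ¬ algebraMap ℝ Q (-‖b‖ + η) ≤ -b := by
    have h := (sb.not_le (r := ‖b‖ - η) (by linarith)).1
    intro h2
    apply h
    rw [show -‖b‖ + η = -(‖b‖ - η) by ring, map_neg] at h2
    exact neg_le_neg_iff.mp h2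
  obtain ⟨c, hc, σ, hc0, hσ, h1, _, h3⟩ := excise B hB (neg_mem hb) hb' sb.1.neg sb' hη hα
  refine ⟨c, hc, σ, hc0, (le_abs_self σ).trans hσ, h3, ?_, key_conj_le sb.1 c⟩
  rw [mul_neg, neg_mul, show -‖b‖ + η = -(‖b‖ - η) by ring, neg_smul] at h1
  exact neg_le_neg_iff.mp h1

/-- **First half**: `a₁ = 0` (and `b₁ ≠ 0`).

Proof.  Write `A = ‖a₁‖`, `S = ‖b₂‖`, `T = ‖b₁‖`, `K = 1 + ‖a₂‖ + T`.  Let `0 < η ≤ 1`.
`excise` for `a₁, a₂` with `α = -A + η` gives `c₁, β`; `excise` for `b₂, b₁` with `α = -S + η` gives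
`c₂, τ` (`|τ| ≤ T`).  `eval_excised`: (1) `0 ≤ -A - S + β τ + η (2 + 2K)`.
Next let `τ' = -T + η` if `τ ≥ 0` and `τ' = T` if `τ < 0`: applying `excise` to `b₁, b₂`
(resp. `-b₁, b₂`) with `α = -T + η` gives `c₂' ≠ 0` with
`(τ' - η) c₂'* c₂' ≤ c₂'* b₁ c₂' ≤ τ' c₂'* c₂'` (the missing inequality is `-T ≤ b₁ ≤ T`), and
`c₂'* b₂ c₂' ≤ S c₂'* c₂'`.  `eval_excised`: (2) `0 ≤ -A + S + β τ' + η (2 + 2K)`.
If `T = 0` then `b₁ = 0`, `τ = 0`, (1) with `η → 0` gives `A = S = 0`, so `b₁ = b₂ = 0`,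
contradiction.  So `T > 0`.  `T * (1) + |τ| * (2)`, with
`β (T τ + |τ| τ')` equal to `β |τ| η` (if `τ ≥ 0`) or `0` (if `τ < 0`), gives
`0 ≤ -A (T + |τ|) - S (T - |τ|) + C η ≤ -A T + C η` with `C` independent of `η`.  Let `η → 0`:
`A T ≤ 0`, `A = 0`. -/
theorem key_first {Q : Type u} [CStarAlgebra Q] [Nontrivial Q] (B₁ B₂ : StarSubalgebra ℂ Q)
    (h₁ : IsClosed (B₁ : Set Q)) (h₂ : IsClosed (B₂ : Set Q))
    (hcomm : ∀ b ∈ B₁, ∀ c ∈ B₂, Commute b c)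
    (hprod : ∀ b ∈ B₁, ∀ c ∈ B₂, b * c = 0 → b = 0 ∨ c = 0)
    {a₁ a₂ b₁ b₂ : Q} (ha₁ : a₁ ∈ B₁) (ha₂ : a₂ ∈ B₁) (hb₁ : b₁ ∈ B₂) (hb₂ : b₂ ∈ B₂)
    (sa₁ : SymSA a₁) (sa₂ : SymSA a₂) (sb₁ : SymSA b₁) (sb₂ : SymSA b₂)
    (hnb : ¬ (b₁ = 0 ∧ b₂ = 0)) (hX : 0 ≤ a₁ + b₂ + a₂ * b₁) :
    a₁ = 0 ∧ b₁ ≠ 0 := by
  obtain ⟨A, hA⟩ : ∃ A : ℝ, A = ‖a₁‖ := ⟨_, rfl⟩
  obtain ⟨S, hS⟩ : ∃ S : ℝ, S = ‖b₂‖ := ⟨_, rfl⟩
  obtain ⟨T, hT⟩ : ∃ T : ℝ, T = ‖b₁‖ := ⟨_, rfl⟩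
  obtain ⟨G, hG⟩ : ∃ G : ℝ, G = ‖a₂‖ := ⟨_, rfl⟩
  have hA0 : 0 ≤ A := hA ▸ norm_nonneg _
  have hS0 : 0 ≤ S := hS ▸ norm_nonneg _
  have hT0 : 0 ≤ T := hT ▸ norm_nonneg _
  have hG0 : 0 ≤ G := hG ▸ norm_nonneg _
  -- the two inequalities
  have main : ∀ η : ℝ, 0 < η → η ≤ 1 → ∃ β τ : ℝ, |β| ≤ G ∧ |τ| ≤ T ∧
      0 ≤ (-A + η) + (-S + η) + β * τ + η * (|β| + |τ| + η) ∧
      ((0 ≤ τ ∧ 0 ≤ (-A + η) + S + β * (-T + η) + η * (|β| + |-T + η| + η)) ∨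
       (τ < 0 ∧ 0 ≤ (-A + η) + S + β * T + η * (|β| + |T| + η))) := by
    intro η hη hη1
    have hα : ¬ algebraMap ℝ Q (-A + η) ≤ a₁ := by
      have h := (sa₁.not_le (r := ‖a₁‖ - η) (by linarith)).2
      rwa [show -(‖a₁‖ - η) = -A + η by rw [hA]; ring] at h
    obtain ⟨c₁, hc₁, β, hc₁0, hβ, k1, k2, k3⟩ := excise B₁ h₁ ha₁ ha₂ sa₁.1 sa₂.1 hη hα
    have hα2 : ¬ algebraMap ℝ Q (-S + η) ≤ b₂ := by
      have h := (sb₂.not_le (r := ‖b₂‖ - η) (by linarith)).2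
      rwa [show -(‖b₂‖ - η) = -S + η by rw [hS]; ring] at h
    obtain ⟨c₂, hc₂, τ, hc₂0, hτ, l1, l2, l3⟩ := excise B₂ h₂ hb₂ hb₁ sb₂.1 sb₁.1 hη hα2
    refine ⟨β, τ, hG ▸ hβ, hT ▸ hτ, ?_, ?_⟩
    · exact eval_excised B₁ B₂ hcomm hprod ha₁ ha₂ hb₁ hb₂ hX hc₁ hc₂ hc₁0 hc₂0 hη k1 k2 k3
        l1 l2 l3
    · rcases le_or_gt 0 τ with hτ0 | hτ0
      · left
        refine ⟨hτ0, ?_⟩
        obtain ⟨c, hc, σ, hc0, hσ, m1, m2, m3⟩ := key_low B₂ h₂ hb₁ hb₂ sb₁ sb₂.1 hη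
        have h := eval_excised B₁ B₂ hcomm hprod ha₁ ha₂ hb₁ hb₂ hX hc₁ hc hc₁0 hc0 hη k1 k2 k3
          m1 m2 m3
        rw [← hT] at h
        rw [← hS] at hσ
        linarith
      · right
        refine ⟨hτ0, ?_⟩
        obtain ⟨c, hc, σ, hc0, hσ, m1, m2, m3⟩ := key_high B₂ h₂ hb₁ hb₂ sb₁ sb₂.1 hη
        have h := eval_excised B₁ B₂ hcomm hprod ha₁ ha₂ hb₁ hb₂ hX hc₁ hc hc₁0 hc0 hη k1 k2 k3
          m1 m2 m3
        rw [← hT] at h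
        rw [← hS] at hσ
        linarith
  -- b₁ is not zero
  have hTpos : 0 < T := by
    rcases hT0.lt_or_eq with h | h
    · exact h
    · exfalso
      have hAS : A + S ≤ 0 := by
        refine key_small (C := 3 + G) (by linarith) fun η hη hη1 => ?_
        obtain ⟨β, τ, hβ, hτ, e1, _⟩ := main η hη hη1
        rw [← h] at hτ
        have hτ0 : τ = 0 := abs_eq_zero.mp (le_antisymm hτ (abs_nonneg τ))
        rw [hτ0] at e1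
        simp only [mul_zero, abs_zero, add_zero] at e1
        nlinarith
      apply hnb
      constructor
      · rw [← norm_eq_zero, ← hT, ← h]
      · rw [← norm_eq_zero, ← hS]; linarith
  have hb₁0 : b₁ ≠ 0 := by
    intro h
    rw [hT, h, norm_zero] at hTpos
    exact lt_irrefl _ hTpos
  refine ⟨?_, hb₁0⟩
  have hAT : A * T ≤ 0 := by
    refine key_small (C := T * (3 + G + T) + T * (3 + G + T) + G * T) (by positivity)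
      fun η hη hη1 => ?_
    obtain ⟨β, τ, hβ, hτ, e1, e2⟩ := main η hη hη1
    have hβ' := abs_nonneg β
    have hτ' := abs_nonneg τ
    -- error terms
    have r1 : η * (|β| + |τ| + η) ≤ η * (G + T + 1) :=
      mul_le_mul_of_nonneg_left (by linarith) hη.le
    have s1 : T * ((-A + η) + (-S + η) + β * τ + η * (|β| + |τ| + η)) ≤
        T * ((-A + η) + (-S + η) + β * τ + η * (G + T + 1)) :=
      mul_le_mul_of_nonneg_left (by linarith) hT0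
    have s0 : 0 ≤ T * ((-A + η) + (-S + η) + β * τ + η * (G + T + 1)) :=
      le_trans (mul_nonneg hT0 e1) s1
    have hST : S * |τ| ≤ S * T := mul_le_mul_of_nonneg_left hτ hS0
    have hAτ : 0 ≤ A * |τ| := mul_nonneg hA0 hτ'
    have hητ : η * |τ| ≤ η * T := mul_le_mul_of_nonneg_left hτ hη.le
    rcases e2 with ⟨hτ0, e2⟩ | ⟨hτ0, e2⟩
    · have hab : |-T + η| ≤ T + 1 := by
        rw [abs_le]; constructor <;> linarith
      have r2 : η * (|β| + |-T + η| + η) ≤ η * (G + T + 2) :=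
        mul_le_mul_of_nonneg_left (by linarith) hη.le
      have t0 : 0 ≤ |τ| * ((-A + η) + S + β * (-T + η) + η * (G + T + 2)) :=
        mul_nonneg hτ' (by linarith)
      have hτe : |τ| = τ := abs_of_nonneg hτ0
      have u1 : |τ| * (η * (G + T + 3)) ≤ T * (η * (G + T + 3)) :=
        mul_le_mul_of_nonneg_right hτ (by positivity)
      have u2 : β * (|τ| * η) ≤ G * (T * η) := by
        have v1 : β * (|τ| * η) ≤ |β| * (|τ| * η) :=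
          mul_le_mul_of_nonneg_right (le_abs_self β) (by positivity)
        have v2 : |β| * (|τ| * η) ≤ G * (T * η) := by
          apply mul_le_mul hβ (mul_le_mul_of_nonneg_right hτ hη.le) (by positivity) hG0
        linarith
      rw [hτe] at t0 u1 u2 hST hAτ hητ
      nlinarith
    · have hab : |T| = T := abs_of_pos hTpos
      rw [hab] at e2
      have r2 : η * (|β| + T + η) ≤ η * (G + T + 1) :=
        mul_le_mul_of_nonneg_left (by linarith) hη.le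
      have t0 : 0 ≤ |τ| * ((-A + η) + S + β * T + η * (G + T + 1)) :=
        mul_nonneg hτ' (by linarith)
      have hτe : |τ| = -τ := abs_of_neg hτ0
      have u1 : |τ| * (η * (G + T + 2)) ≤ T * (η * (G + T + 2)) :=
        mul_le_mul_of_nonneg_right hτ (by positivity)
      have u3 : 0 ≤ G * T * η := by positivity
      rw [hτe] at t0 u1 hST hAτ hητ
      nlinarith
  have hA1 : A = 0 := by
    rcases hA0.lt_or_eq with h | h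
    · exact absurd hAT (not_le.mpr (mul_pos h hTpos))
    · exact h.symm
  rw [← norm_eq_zero, ← hA, hA1]

/-- **Key lemma.**
Proof.  `key_first` gives `a₁ = 0`, `b₁ ≠ 0`; `key_first` with the roles exchanged
(`a₁ ↦ b₂`, `a₂ ↦ b₁`, `b₁ ↦ a₂`, `b₂ ↦ a₁`, `B₁ ↔ B₂`; note `b₂ + a₁ + b₁ a₂` is the same element)
gives `b₂ = 0`, `a₂ ≠ 0`.  Now `0 ≤ a₂ b₁`.  Excise `a₂` near its supremum: `excise` for `-a₂`, and
`b₁` near its infimum; (`a' = 0` for the second slot, so `|β| ≤ 0`).  Directly: with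
`A₂ = ‖a₂‖ > 0`, `T = ‖b₁‖ > 0`, `e = (a₂ - A₂/2)⁺ ≠ 0` in `B₁`, `f = (-b₁ - T/2)⁺ ≠ 0` in `B₂`;
`0 ≤ (e f) (a₂ b₁) (e f) = (e a₂ e)(f b₁ f) ≤ -(A₂ T / 4) e² f²`
(`e a₂ e ≥ (A₂/2) e²`, `-f b₁ f ≥ (T/2) f²`), so `e² f² = 0`, contradiction with `hprod`. -/
theorem key {Q : Type u} [CStarAlgebra Q] [Nontrivial Q] (B₁ B₂ : StarSubalgebra ℂ Q)
    (h₁ : IsClosed (B₁ : Set Q)) (h₂ : IsClosed (B₂ : Set Q))
    (hcomm : ∀ b ∈ B₁, ∀ c ∈ B₂, Commute b c)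
    (hprod : ∀ b ∈ B₁, ∀ c ∈ B₂, b * c = 0 → b = 0 ∨ c = 0)
    {a₁ a₂ b₁ b₂ : Q} (ha₁ : a₁ ∈ B₁) (ha₂ : a₂ ∈ B₁) (hb₁ : b₁ ∈ B₂) (hb₂ : b₂ ∈ B₂)
    (sa₁ : SymSA a₁) (sa₂ : SymSA a₂) (sb₁ : SymSA b₁) (sb₂ : SymSA b₂)
    (hna : ¬ (a₁ = 0 ∧ a₂ = 0)) (hnb : ¬ (b₁ = 0 ∧ b₂ = 0)) :
    ¬ 0 ≤ a₁ + b₂ + a₂ * b₁ := by
  intro hX
  obtain ⟨ha₁0, hb₁0⟩ := key_first B₁ B₂ h₁ h₂ hcomm hprod ha₁ ha₂ hb₁ hb₂ sa₁ sa₂ sb₁ sb₂ hnb hX
  have hX' : 0 ≤ b₂ + a₁ + b₁ * a₂ := by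
    rw [add_comm b₂ a₁, ← (hcomm a₂ ha₂ b₁ hb₁).eq]
    exact hX
  obtain ⟨hb₂0, ha₂0⟩ := key_first B₂ B₁ h₂ h₁ (fun b hb c hc => (hcomm c hc b hb).symm)
    (fun b hb c hc h => (hprod c hc b hb (by rw [(hcomm c hc b hb).eq]; exact h)).symm)
    hb₂ hb₁ ha₂ ha₁ sb₂ sb₁ sa₂ sa₁ (fun h => hna ⟨h.2, h.1⟩) hX'
  subst ha₁0 hb₂0
  have hA2 : 0 < ‖a₂‖ := norm_pos_iff.mpr ha₂0
  have hT : 0 < ‖b₁‖ := norm_pos_iff.mpr hb₁0
  have hlim : ‖a₂‖ * ‖b₁‖ ≤ 0 := by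
    refine key_small (C := ‖a₂‖ + (‖a₂‖ + ‖b₁‖ + 2)) (by positivity) fun η hη hη1 => ?_
    obtain ⟨c₁, hc₁, σ₁, hc₁0, _, _, k2, k3⟩ := key_high B₁ h₁ ha₂ ha₁ sa₂ sa₁.1 hη
    obtain ⟨c₂, hc₂, σ₂, hc₂0, _, _, l2, l3⟩ := key_low B₂ h₂ hb₁ hb₂ sb₁ sb₂.1 hη
    have h := eval_excised B₁ B₂ hcomm hprod ha₁ ha₂ hb₁ hb₂ hX hc₁ hc₂ hc₁0 hc₂0
      (α := 0) (σ := 0) hη (by simp) k2 k3 (by simp) l2 l3
    have hab : |-‖b₁‖ + η| ≤ ‖b₁‖ + 1 := by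
      rw [abs_le]; constructor <;> linarith
    rw [abs_of_pos hA2] at h
    have r1 : η * (‖a₂‖ + |-‖b₁‖ + η| + η) ≤ η * (‖a₂‖ + ‖b₁‖ + 2) :=
      mul_le_mul_of_nonneg_left (by linarith) hη.le
    nlinarith
  exact absurd hlim (not_le.mpr (mul_pos hA2 hT))

end P101
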