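import Mathlib.Analysis.CStarAlgebra.ContinuousFunctionalCalculus.Order
import Vale.Agent.Lib.P101.SimpleQ
import Vale.Agent.Lib.P101.OZBasicA

/-!
# Elementary properties of order zero maps, part B
-/

open scoped ENNReal Topology
open Filter Matrix

namespace P101

attribute [local instance] CStarAlgebra.spectralOrder CStarAlgebra.spectralOrderedRing

universe u

namespace OZ

variable {ι : Type} [Fintype ι] [DecidableEq ι] {F : Type u} [CStarAlgebra F]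

/-- Fullness passes to every diagonal matrix unit: `φ(1)` is in every closed ideal containing
`φ(e_kk)`; here in the algebraic form: if `1` is in the ideal generated by `φ(1)` then it is in the
ideal generated by `φ(e_kk)`.
Proof: `h = φ(1)`.  `h² φ(e_ii) = φ(e_ik) φ(e_kk) φ(e_ki)`, so `h³ = ∑ h² φ(e_ii)` is in the ideal
`J` of `φ(e_kk)`.  And `1 = ∑ a_l h b_l`.  If `1 ∉ J` take a simple quotient `π` killing
`φ(e_kk)` (`exists_simple_quotient`): `π(h)³ = 0`, `π(h) = 0` (selfadjoint), `π(1) = 0`. -/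
theorem full_single [Nontrivial F] (φ : OZ ι F) (k : ι) (h : InIdeal {φ.map 1} (1 : F)) :
    InIdeal {φ.map (Matrix.single k k 1)} (1 : F) := by
  by_contra hJ
  obtain ⟨Q, _, π, hQ, -, hkill, -⟩ := exists_simple_quotient _ hJ
  obtain ⟨ψ, hψ⟩ : ∃ ψ : OZ ι Q, ψ = φ.comp π := ⟨_, rfl⟩
  have hψa : ∀ a, ψ.map a = π (φ.map a) := by
    intro a
    rw [hψ, comp_map]
  have hkk : ψ.map (Matrix.single k k 1) = 0 := by
    rw [hψa]
    exact hkill _ rfl
  have h1 : ∀ i, ψ.map 1 * ψ.map (Matrix.single i k 1) = 0 := by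
    intro i
    have h2 := ψ.map_mul (Matrix.single i k 1) (Matrix.single k k 1)
    rw [hkk, mul_zero, Matrix.single_mul_single_same, mul_one] at h2
    exact h2.symm
  have h3 : ∀ i, ψ.map 1 * (ψ.map 1 * ψ.map (Matrix.single i i 1)) = 0 := by
    intro i
    have h4 := ψ.map_mul (Matrix.single i k 1) (Matrix.single k i 1)
    rw [Matrix.single_mul_single_same, mul_one] at h4
    rw [← h4, ← mul_assoc, h1, zero_mul]
  have h5 : ψ.map 1 * (ψ.map 1 * ψ.map 1) = 0 := by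
    have h6 : ψ.map 1 * (ψ.map 1 * ψ.map 1)
        = ∑ i, ψ.map 1 * (ψ.map 1 * ψ.map (Matrix.single i i 1)) := by
      rw [← Finset.mul_sum, ← Finset.mul_sum, ← ψ.one_eq_sum]
    rw [h6]
    exact Finset.sum_eq_zero fun i _ => h3 i
  have hsa : star (ψ.map 1) = ψ.map 1 := ψ.one_isSelfAdjoint
  have h7 : ψ.map 1 * ψ.map 1 = 0 := by
    rw [← CStarRing.star_mul_self_eq_zero_iff, star_mul, hsa, mul_assoc, h5, mul_zero]
  have h8 : ψ.map 1 = 0 := by
    rw [← CStarRing.star_mul_self_eq_zero_iff, hsa, h7]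
  have h9 := InIdeal.map (π : F →+* Q) h
  obtain ⟨m, a, y, b, hy, hsum⟩ := h9
  have h10 : (1 : Q) = 0 := by
    have h11 : (π : F →+* Q) 1 = 1 := _root_.map_one _
    rw [h11] at hsum
    rw [hsum]
    refine Finset.sum_eq_zero fun l _ => ?_
    have h12 : y l = 0 := by
      obtain ⟨x, hx, hxy⟩ := hy l
      rw [Set.mem_singleton_iff] at hx
      rw [← hxy, hx, ← h8, hψa]
      rfl
    rw [h12, mul_zero, zero_mul]
  exact one_ne_zero h10

theorem star_single_aux (φ : OZ ι F) (i : ι) :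
    star (φ.map (Matrix.single i i 1)) = φ.map (Matrix.single i i 1) :=
  (IsSelfAdjoint.of_nonneg (φ.single_nonneg i)).star_eq

theorem single_mul_aux (φ : OZ (Fin 2) F) :
    φ.map (Matrix.single 0 0 1) * φ.map (Matrix.single 1 1 1) = 0 := by
  rw [φ.map_mul, Matrix.single_mul_single_of_ne (h := by decide), _root_.map_zero, mul_zero]

theorem single_mul_aux' (φ : OZ (Fin 2) F) :
    φ.map (Matrix.single 1 1 1) * φ.map (Matrix.single 0 0 1) = 0 := by
  rw [φ.map_mul, Matrix.single_mul_single_of_ne (h := by decide), _root_.map_zero, mul_zero]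

theorem norm_single_aux (φ : OZ (Fin 2) F) :
    ‖φ.map (Matrix.single 0 0 1)‖ = ‖φ.map (Matrix.single 1 1 1)‖ := by
  have hst : star (φ.map (Matrix.single 0 1 1)) = φ.map (Matrix.single 1 0 1) := by
    rw [← φ.map_star]
    simp [star_eq_conjTranspose]
  have h0 : φ.map (Matrix.single 0 0 1) * φ.map (Matrix.single 0 0 1)
      = φ.map (Matrix.single 0 1 1) * star (φ.map (Matrix.single 0 1 1)) := by
    rw [hst, φ.map_mul (Matrix.single 0 0 1) (Matrix.single 0 0 1),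
      φ.map_mul (Matrix.single 0 1 1) (Matrix.single 1 0 1),
      Matrix.single_mul_single_same, Matrix.single_mul_single_same]
  have h1 : φ.map (Matrix.single 1 1 1) * φ.map (Matrix.single 1 1 1)
      = star (φ.map (Matrix.single 0 1 1)) * φ.map (Matrix.single 0 1 1) := by
    rw [hst, φ.map_mul (Matrix.single 1 1 1) (Matrix.single 1 1 1),
      φ.map_mul (Matrix.single 1 0 1) (Matrix.single 0 1 1),
      Matrix.single_mul_single_same, Matrix.single_mul_single_same]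
  have e0 : ‖φ.map (Matrix.single 0 0 1)‖ * ‖φ.map (Matrix.single 0 0 1)‖
      = ‖φ.map (Matrix.single 0 1 1)‖ * ‖φ.map (Matrix.single 0 1 1)‖ := by
    rw [← CStarRing.norm_star_mul_self, star_single_aux φ 0, h0, CStarRing.norm_self_mul_star]
  have e1 : ‖φ.map (Matrix.single 1 1 1)‖ * ‖φ.map (Matrix.single 1 1 1)‖
      = ‖φ.map (Matrix.single 0 1 1)‖ * ‖φ.map (Matrix.single 0 1 1)‖ := by
    rw [← CStarRing.norm_star_mul_self, star_single_aux φ 1, h1, CStarRing.norm_star_mul_self]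
  exact (mul_self_inj (norm_nonneg _) (norm_nonneg _)).1 (e0.trans e1.symm)

/-- if `0 ≤ p`, `0 ≤ q`, `p q = q p = 0`, `‖p‖ = ‖q‖` and `p - q ≤ r` then `0 ≤ r` in `F`
and `‖p‖ ≤ r` unless `F` is trivial. -/
theorem sub_le_aux' {p q : F} (hp : 0 ≤ p) (hq : 0 ≤ q) (hpq : p * q = 0) (_hqp : q * p = 0)
    (hn : ‖p‖ = ‖q‖) {r : ℝ} (h : p - q ≤ algebraMap ℝ F r) :
    p ≤ algebraMap ℝ F r ∧ q ≤ algebraMap ℝ F r := by
  rcases subsingleton_or_nontrivial F with hF | hF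
  · exact ⟨(Subsingleton.elim _ _ : p = algebraMap ℝ F r).le,
      (Subsingleton.elim _ _ : q = algebraMap ℝ F r).le⟩
  rcases eq_or_ne p 0 with h0 | h0
  · have hq0 : q = 0 := by
      rw [h0, norm_zero] at hn
      exact norm_eq_zero.1 hn.symm
    rw [h0, hq0, sub_zero] at h
    rw [h0, hq0]
    exact ⟨h, h⟩
  have hsp : star p = p := (IsSelfAdjoint.of_nonneg hp).star_eq
  have hnorm : ‖p‖ ≤ r := by
    have h1 := star_left_conjugate_nonneg (sub_nonneg.2 h) p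
    have h2 : star p * (algebraMap ℝ F r - (p - q)) * p
        = cfc (fun x : ℝ => r * x ^ 2 - x ^ 3) p := by
      have hsa : IsSelfAdjoint p := IsSelfAdjoint.of_nonneg hp
      rw [cfc_sub (fun x : ℝ => r * x ^ 2) (fun x : ℝ => x ^ 3) p,
        cfc_const_mul r (fun x : ℝ => x ^ 2) p, cfc_pow_id p 2, cfc_pow_id p 3, hsp,
        mul_sub, mul_sub, sub_mul, sub_mul, hpq, zero_mul, sub_zero,
        Algebra.algebraMap_eq_smul_one, mul_smul_comm, smul_mul_assoc, mul_one, pow_two, pow_succ,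
        pow_two]
    rw [h2, cfc_nonneg_iff (fun x : ℝ => r * x ^ 2 - x ^ 3) p] at h1
    have h3 := h1 ‖p‖ (CStarAlgebra.norm_mem_spectrum_of_nonneg hp)
    have h4 : 0 < ‖p‖ := norm_pos_iff.2 h0
    by_contra hc
    rw [not_le] at hc
    have h5 : r * ‖p‖ ^ 2 - ‖p‖ ^ 3 = (r - ‖p‖) * ‖p‖ ^ 2 := by ring
    have h6 : (r - ‖p‖) * ‖p‖ ^ 2 < 0 := mul_neg_of_neg_of_pos (by linarith) (by positivity)
    rw [← h5] at h6
    exact absurd h3 (not_le.2 h6)
  have hr : 0 ≤ r := (norm_nonneg p).trans hnorm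
  exact ⟨(CStarAlgebra.norm_le_iff_le_algebraMap p hr hp).1 hnorm,
    (CStarAlgebra.norm_le_iff_le_algebraMap q hr hq).1 (hn ▸ hnorm)⟩

theorem sub_le_aux {p q : F} (_hp : 0 ≤ p) (hq : 0 ≤ q) (_hn : ‖p‖ = ‖q‖) {r : ℝ}
    (h : q ≤ algebraMap ℝ F r ∧ p ≤ algebraMap ℝ F r) : p - q ≤ algebraMap ℝ F r :=
  (sub_le_self p hq).trans h.2

/-- **Symmetry**: for an order zero map on `M_2` and real `r`:
`φ(e_00) - φ(e_11) ≤ r` iff `-(φ(e_00) - φ(e_11)) ≤ r`.
Proof: `p = φ(e_00) ≥ 0`, `q = φ(e_11) ≥ 0`, `p q = 0`, and `‖p‖ = ‖q‖` since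
`p² = h p = φ(e_01) φ(e_01)*` and `q² = φ(e_01)* φ(e_01)` (`‖p‖² = ‖p²‖`).
`p - q ≤ r` iff (`0 ≤ r` and `p ≤ r`) iff `‖p‖ ≤ r`, symmetric.
(If `p - q ≤ r` then `p³ = p (p - q) p ≤ r p²`, which forces `p ≤ r`, i.e. `‖p‖ ≤ r` when
`p ≠ 0`: `cfc`.  If `p = 0` then `q = 0` and everything is `0 ≤ r`.) -/
theorem sub_symm (φ : OZ (Fin 2) F) (r : ℝ) :
    (φ.map (Matrix.single 0 0 1) - φ.map (Matrix.single 1 1 1) ≤ algebraMap ℝ F r) ↔
      (-(φ.map (Matrix.single 0 0 1) - φ.map (Matrix.single 1 1 1)) ≤ algebraMap ℝ F r) := by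
  have hp : 0 ≤ φ.map (Matrix.single 0 0 1) := φ.single_nonneg 0
  have hq : 0 ≤ φ.map (Matrix.single 1 1 1) := φ.single_nonneg 1
  have hpq : φ.map (Matrix.single 0 0 1) * φ.map (Matrix.single 1 1 1) = 0 := single_mul_aux φ
  have hqp : φ.map (Matrix.single 1 1 1) * φ.map (Matrix.single 0 0 1) = 0 :=
    single_mul_aux' φ
  have hn := norm_single_aux φ
  rw [neg_sub]
  constructor
  · intro h
    exact sub_le_aux hq hp hn.symm (sub_le_aux' hp hq hpq hqp hn h)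
  · intro h
    exact sub_le_aux hp hq hn (sub_le_aux' hq hp hqp hpq hn.symm h)

/-- if `φ(e_00) - φ(e_11) = 0` (on `M_2`) then `φ(1) = 0`. -/
theorem one_eq_zero_of_sub (φ : OZ (Fin 2) F)
    (h : φ.map (Matrix.single 0 0 1) - φ.map (Matrix.single 1 1 1) = 0) : φ.map 1 = 0 := by
  have h1 : φ.map (Matrix.single 0 0 1) = φ.map (Matrix.single 1 1 1) := sub_eq_zero.1 h
  have h2 := single_mul_aux φ
  have h3 : φ.map (Matrix.single 0 0 1) = 0 := by
    rw [← h1] at h2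
    rw [← CStarRing.star_mul_self_eq_zero_iff, star_single_aux φ 0, h2]
  rw [φ.one_eq_sum, Fin.sum_univ_two, ← h1, h3, add_zero]

/-- Two orthogonal positive elements `X₁, X₂` (`X₁ X₂ = 0`) commuting with the ranges of
`φ₁, φ₂ : M_ι → F` give an order zero map `a ↦ X₁ φ₁(a) + X₂ φ₂(a)`. -/
theorem exists_combine (φ₁ φ₂ : OZ ι F) {X₁ X₂ : F} (h₁ : 0 ≤ X₁) (h₂ : 0 ≤ X₂)
    (h12 : X₁ * X₂ = 0) (hc₁ : ∀ a, Commute X₁ (φ₁.map a)) (hc₁' : ∀ a, Commute X₁ (φ₂.map a))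
    (hc₂ : ∀ a, Commute X₂ (φ₁.map a)) (hc₂' : ∀ a, Commute X₂ (φ₂.map a)) :
    ∃ Φ : OZ ι F, ∀ a, Φ.map a = X₁ * φ₁.map a + X₂ * φ₂.map a := by
  have hs₁ : star X₁ = X₁ := (IsSelfAdjoint.of_nonneg h₁).star_eq
  have hs₂ : star X₂ = X₂ := (IsSelfAdjoint.of_nonneg h₂).star_eq
  have h21 : X₂ * X₁ = 0 := by
    have h3 := congrArg star h12
    rwa [star_mul, hs₁, hs₂, star_zero] at h3
  have hcr : ∀ {X Y : F} (a b : F), X * Y = 0 → Commute Y a → X * a * (Y * b) = 0 := by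
    intro X Y a b hXY hYa
    rw [mul_assoc, ← mul_assoc a Y b, ← hYa.eq, mul_assoc Y a b, ← mul_assoc X Y, hXY, zero_mul]
  have hdi : ∀ {X : F} (φ : OZ ι F) (a b : Matrix ι ι ℂ), (∀ a, Commute X (φ.map a)) →
      X * φ.map a * (X * φ.map b) = X * φ.map 1 * (X * φ.map (a * b)) := by
    intro X φ a b hX
    have e : ∀ c d : Matrix ι ι ℂ, X * φ.map c * (X * φ.map d)
        = X * X * (φ.map c * φ.map d) := by
      intro c d
      rw [mul_assoc, ← mul_assoc (φ.map c) X, ← (hX c).eq, mul_assoc X (φ.map c), ← mul_assoc X X]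
    rw [e, e, φ.map_mul]
  obtain ⟨m, hm⟩ : ∃ m : Matrix ι ι ℂ →ₗ[ℂ] F, ∀ a, m a = X₁ * φ₁.map a + X₂ * φ₂.map a :=
    ⟨(LinearMap.mulLeft ℂ X₁).comp φ₁.map + (LinearMap.mulLeft ℂ X₂).comp φ₂.map,
      fun a => rfl⟩
  refine ⟨⟨m, ?_, ?_, ?_⟩, hm⟩
  · intro a
    rw [hm, hm, star_add, star_mul, star_mul, hs₁, hs₂, ← φ₁.map_star, ← φ₂.map_star,
      (hc₁ _).eq, (hc₂' _).eq]
  · intro a b
    rw [hm, hm, hm, hm, add_mul, mul_add, mul_add, add_mul, mul_add, mul_add,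
      hcr _ _ h12 (hc₂ a), hcr _ _ h21 (hc₁' a), hcr _ _ h12 (hc₂ 1), hcr _ _ h21 (hc₁' 1),
      hdi φ₁ a b hc₁, hdi φ₂ a b hc₂']
  · rw [hm]
    have h0 : 0 ≤ X₁ * φ₁.map 1 + X₂ * φ₂.map 1 :=
      add_nonneg (Commute.mul_nonneg h₁ φ₁.one_nonneg (hc₁ 1))
        (Commute.mul_nonneg h₂ φ₂.one_nonneg (hc₂' 1))
    exact CStarAlgebra.nonneg_iff_eq_star_mul_self.1 h0

/-- Multiplication of an order zero map by a positive element commuting with it.
(`X φ(a) X φ(b) = X φ(1) · X φ(ab)`, `X φ(1) ≥ 0`.) -/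
theorem exists_mul (φ : OZ ι F) {X : F} (h : 0 ≤ X) (hc : ∀ a, Commute X (φ.map a)) :
    ∃ Φ : OZ ι F, ∀ a, Φ.map a = X * φ.map a := by
  obtain ⟨Φ, hΦ⟩ := exists_combine φ φ h (le_refl (0 : F)) (mul_zero X) hc hc
    (fun a => Commute.zero_left _) (fun a => Commute.zero_left _)
  exact ⟨Φ, fun a => by rw [hΦ, zero_mul, add_zero]⟩

end OZ

end P101
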