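import Vale.Agent.Lib.P101.Base

/-!
# A primeness property of simple C*-algebras generated by commuting subsets

`Q` algebraically simple, `G₁`, `G₂` elementwise commuting subsets, `Algebra.adjoin ℂ (G₁ ∪ G₂)`
dense in `Q`.  If `b` commutes with `G₂`, `c` commutes with `G₁` and `b c = 0`, then `b = 0` or
`c = 0`.

Proof.  Claim: `b y c = 0` for all `y : Q`.  By continuity and density, and since
`Algebra.adjoin ℂ s` is the span of `Submonoid.closure s` (`Algebra.adjoin_eq_span`), it is enough
to treat `y ∈ Submonoid.closure (G₁ ∪ G₂)`.  Prove by `Submonoid.closure_induction_left` the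
statement: for all `b` commuting with `G₂` with `b c = 0`: `b y c = 0`.
`y = 1`: clear.  `y = g y'`: if `g ∈ G₁`, then `b g` commutes with `G₂` and
`(b g) c = b c g = 0`, so `(b g) y' c = 0`; if `g ∈ G₂`, then `b g y' c = g (b y' c) = 0`.
If `b ≠ 0`, simplicity gives `1 = ∑ u_l b v_l` so `c = ∑ u_l b v_l c = 0`.
-/

open scoped ENNReal Topology
open Filter Matrix

namespace P101

universe u

private theorem prime_aux {Q : Type u} [CStarAlgebra Q] (G₁ G₂ : Set Q)
    (h12 : ∀ x ∈ G₁, ∀ y ∈ G₂, Commute x y) {c : Q} (hc : ∀ x ∈ G₁, Commute c x)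
    {y : Q} (hy : y ∈ Submonoid.closure (G₁ ∪ G₂)) :
    ∀ b : Q, (∀ z ∈ G₂, Commute b z) → b * c = 0 → b * y * c = 0 := by
  induction hy using Submonoid.closure_induction_left with
  | one =>
    intro b _ hbc
    rw [mul_one, hbc]
  | mul_left g hg y' _ ih =>
    intro b hb hbc
    rcases hg with hg | hg
    · have h1 : b * g * c = 0 := by
        rw [mul_assoc, ← (hc g hg).eq, ← mul_assoc, hbc, zero_mul]
      have h2 := ih (b * g) (fun z hz => (hb z hz).mul_left (h12 g hg z hz)) h1
      rw [← mul_assoc b g y']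
      exact h2
    · have h2 := ih b hb hbc
      rw [← mul_assoc b g y', (hb g hg).eq, mul_assoc g b y', mul_assoc g (b * y') c, h2, mul_zero]

theorem eq_zero_or_eq_zero_of_commute {Q : Type u} [CStarAlgebra Q] (hs : AlgSimple Q)
    (G₁ G₂ : Set Q) (hd : Dense ((Algebra.adjoin ℂ (G₁ ∪ G₂) : Subalgebra ℂ Q) : Set Q))
    (h12 : ∀ x ∈ G₁, ∀ y ∈ G₂, Commute x y) {b c : Q} (hb : ∀ y ∈ G₂, Commute b y)
    (hc : ∀ x ∈ G₁, Commute c x) (hbc : b * c = 0) : b = 0 ∨ c = 0 := by
  have hadj : ∀ y ∈ Algebra.adjoin ℂ (G₁ ∪ G₂), b * y * c = 0 := by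
    intro y hy
    have hy' : y ∈ Submodule.span ℂ (Submonoid.closure (G₁ ∪ G₂) : Set Q) := by
      rw [← Algebra.adjoin_eq_span]
      exact hy
    induction hy' using Submodule.span_induction with
    | mem x hx => exact prime_aux G₁ G₂ h12 hc hx b hb hbc
    | zero => rw [mul_zero, zero_mul]
    | add x z hx hz h1 h2 =>
      have h1' := h1 (by
        have : x ∈ Subalgebra.toSubmodule (Algebra.adjoin ℂ (G₁ ∪ G₂)) := by
          rw [Algebra.adjoin_eq_span]
          exact hx
        exact this)
      have h2' := h2 (by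
        have : z ∈ Subalgebra.toSubmodule (Algebra.adjoin ℂ (G₁ ∪ G₂)) := by
          rw [Algebra.adjoin_eq_span]
          exact hz
        exact this)
      rw [mul_add, add_mul, h1', h2', add_zero]
    | smul a x hx h1 =>
      have h1' := h1 (by
        have : x ∈ Subalgebra.toSubmodule (Algebra.adjoin ℂ (G₁ ∪ G₂)) := by
          rw [Algebra.adjoin_eq_span]
          exact hx
        exact this)
      rw [mul_smul_comm, smul_mul_assoc, h1', smul_zero]
  have hall : ∀ y : Q, b * y * c = 0 := by
    intro y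
    have hclosed : IsClosed {y : Q | b * y * c = 0} :=
      isClosed_eq ((continuous_const.mul continuous_id).mul continuous_const) continuous_const
    have hsub : closure ((Algebra.adjoin ℂ (G₁ ∪ G₂) : Subalgebra ℂ Q) : Set Q) ⊆
        {y : Q | b * y * c = 0} := closure_minimal (fun y hy => hadj y hy) hclosed
    exact hsub (hd y)
  by_cases h0 : b = 0
  · exact Or.inl h0
  · right
    obtain ⟨m, u, z, v, hz, h1⟩ := hs b h0
    calc c = 1 * c := (one_mul c).symm
      _ = ∑ l, u l * (b * v l * c) := by
          rw [h1, Finset.sum_mul]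
          refine Finset.sum_congr rfl fun l _ => ?_
          rw [show z l = b from hz l]
          simp only [mul_assoc]
      _ = 0 := Finset.sum_eq_zero fun l _ => by rw [hall, mul_zero]

end P101
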