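import Mathlib.Analysis.CStarAlgebra.ContinuousFunctionalCalculus.Commute
import Vale.Agent.Lib.P101.OZBasic
import Vale.Agent.Lib.P101.Key
import Vale.Agent.Lib.P101.Prime

/-!
# Core of the reduction step, inside a simple C*-algebra

`Q` nontrivial algebraically simple, `G 0, G 1, G 2` pairwise commuting *-subalgebras which
generate a dense subalgebra, `φ₁ j, φ₂ j : M_2 → G j` order zero maps, for each `j` not both zero.
With `a j = φ₁ j (e_00) - φ₁ j (e_11)`, `b j = φ₂ j (e_00) - φ₂ j (e_11)` put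
`X = a 0 + b 1 + b 0 * a 1`.  Then `X⁺ φ₁ 2 (1) + X⁻ φ₂ 2 (1) ≠ 0`.

Proof.  Let `B j = (G j).topologicalClosure`; they commute pairwise, and for `i ≠ j`, `b ∈ B i`,
`c ∈ B j`, `b c = 0` implies `b = 0` or `c = 0` (`eq_zero_or_eq_zero_of_commute` with
`G₁ = G i` and `G₂ =` the union of the other two: `b` commutes with `G₂`, `c` commutes with `G i`).
The same holds for `b` in the closed *-subalgebra generated by `G 0 ∪ G 1` and `c ∈ B 2`
(`G₁ = G 0 ∪ G 1`, `G₂ = G 2`); `X`, `X⁺`, `X⁻` belong to it (`cfc_mem`).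
`key` with `B₁ = B 0`, `B₂ = B 1`, `a₁ = a 0`, `a₂ = b 0`, `b₁ = a 1`, `b₂ = b 1` (`SymSA` from
`OZ.sub_symm`; `a j = 0` iff `φ₁ j (1) = 0` by `OZ.one_eq_zero_of_sub`) gives: not `0 ≤ X`.
`key` with `a₁ = -a 0`, `a₂ = -b 0`, `b₁ = a 1`, `b₂ = - b 1` gives: not `0 ≤ -X`.
Hence `X⁺ ≠ 0` and `X⁻ ≠ 0`.  Suppose `X⁺ u + X⁻ v = 0`, `u = φ₁ 2 (1)`, `v = φ₂ 2 (1)`.
Multiply by `X⁺` (resp. `X⁻`): `(X⁺)² u = 0`, `(X⁻)² v = 0`; `(X⁺)² ≠ 0`, so `u = 0`, `v = 0`,
contradiction to the hypothesis for `j = 2`.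
-/

open scoped ENNReal Topology
open Filter Matrix

namespace P101

attribute [local instance] CStarAlgebra.spectralOrder CStarAlgebra.spectralOrderedRing

universe u

/-- closures of commuting sets commute -/
theorem commute_of_mem_closure {Q : Type u} [CStarAlgebra Q] {S T : Set Q}
    (h : ∀ x ∈ S, ∀ y ∈ T, Commute x y) : ∀ x ∈ closure S, ∀ y ∈ closure T, Commute x y := by
  have key : ∀ {S T : Set Q}, (∀ x ∈ S, ∀ y ∈ T, Commute x y) →
      ∀ x ∈ closure S, ∀ y ∈ T, Commute x y := by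
    intro S T h x hx y hy
    have hcl : IsClosed {x : Q | x * y = y * x} :=
      isClosed_eq (continuous_id.mul continuous_const) (continuous_const.mul continuous_id)
    exact closure_minimal (fun z hz => h z hz y hy) hcl hx
  intro x hx y hy
  have h1 : ∀ x ∈ closure S, ∀ y ∈ T, Commute x y := key h
  have h2 : ∀ y ∈ closure T, ∀ x ∈ closure S, Commute y x :=
    key fun y hy x hx => (h1 x hx y hy).symm
  exact (h2 y hy x hx).symm

/-- the difference of the diagonal matrix units is symmetric -/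
theorem symSA_sub {Q : Type u} [CStarAlgebra Q] (φ : OZ (Fin 2) Q) :
    SymSA (φ.map (Matrix.single 0 0 1) - φ.map (Matrix.single 1 1 1)) := by
  refine ⟨?_, φ.sub_symm⟩
  have h : ∀ i : Fin 2, IsSelfAdjoint (φ.map (Matrix.single i i 1)) := by
    intro i
    rw [isSelfAdjoint_iff, ← φ.map_star]
    congr 1
    simp [star_eq_conjTranspose]
  exact (h 0).sub (h 1)

theorem SymSA.neg {Q : Type u} [CStarAlgebra Q] {a : Q} (h : SymSA a) : SymSA (-a) :=
  ⟨h.1.neg, fun r => by rw [neg_neg]; exact (h.2 r).symm⟩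

theorem reduce_core {Q : Type u} [CStarAlgebra Q] [Nontrivial Q] (hs : AlgSimple Q)
    (G : Fin 3 → StarSubalgebra ℂ Q)
    (hG : ∀ i j, i ≠ j → ∀ x ∈ G i, ∀ y ∈ G j, Commute x y)
    (hd : Dense ((Algebra.adjoin ℂ (⋃ j, (G j : Set Q)) : Subalgebra ℂ Q) : Set Q))
    (φ₁ φ₂ : Fin 3 → OZ (Fin 2) Q) (h₁ : ∀ j a, (φ₁ j).map a ∈ G j)
    (h₂ : ∀ j a, (φ₂ j).map a ∈ G j)
    (hne : ∀ j, ¬ ((φ₁ j).map 1 = 0 ∧ (φ₂ j).map 1 = 0)) :
    let a : Fin 3 → Q := fun j =>
      (φ₁ j).map (Matrix.single 0 0 1) - (φ₁ j).map (Matrix.single 1 1 1)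
    let b : Fin 3 → Q := fun j =>
      (φ₂ j).map (Matrix.single 0 0 1) - (φ₂ j).map (Matrix.single 1 1 1)
    let X : Q := a 0 + b 1 + b 0 * a 1
    X⁺ * (φ₁ 2).map 1 + X⁻ * (φ₂ 2).map 1 ≠ 0 := by
  intro a b X
  have ha : ∀ j, a j ∈ G j := fun j => sub_mem (h₁ j _) (h₁ j _)
  have hb : ∀ j, b j ∈ G j := fun j => sub_mem (h₂ j _) (h₂ j _)
  have sa : ∀ j, SymSA (a j) := fun j => symSA_sub (φ₁ j)
  have sb : ∀ j, SymSA (b j) := fun j => symSA_sub (φ₂ j)
  have hab : ∀ j, ¬ (a j = 0 ∧ b j = 0) := fun j h =>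
    hne j ⟨(φ₁ j).one_eq_zero_of_sub h.1, (φ₂ j).one_eq_zero_of_sub h.2⟩
  -- the closures
  have hcl : ∀ i j, i ≠ j → ∀ x ∈ (G i).topologicalClosure, ∀ y ∈ (G j).topologicalClosure,
      Commute x y := by
    intro i j hij x hx y hy
    exact commute_of_mem_closure (S := (G i : Set Q)) (T := (G j : Set Q)) (hG i j hij) x hx y hy
  have hprod : ∀ i j, i ≠ j → ∀ x ∈ (G i).topologicalClosure, ∀ y ∈ (G j).topologicalClosure,
      x * y = 0 → x = 0 ∨ y = 0 := by
    intro i j hij x hx y hy hxy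
    refine eq_zero_or_eq_zero_of_commute hs (G i : Set Q) (⋃ k : {k : Fin 3 // k ≠ i}, (G k : Set Q))
      ?_ ?_ ?_ ?_ hxy
    · have hU : (G i : Set Q) ∪ (⋃ k : {k : Fin 3 // k ≠ i}, (G k : Set Q)) = ⋃ k, (G k : Set Q) := by
        ext z
        simp only [Set.mem_union, Set.mem_iUnion, Subtype.exists, exists_prop]
        constructor
        · rintro (h | ⟨k, _, h⟩)
          · exact ⟨i, h⟩
          · exact ⟨k, h⟩
        · rintro ⟨k, h⟩
          by_cases hk : k = i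
          · left; rw [← hk]; exact h
          · right; exact ⟨k, hk, h⟩
      rw [hU]; exact hd
    · intro z hz w hw
      obtain ⟨k, hk⟩ := Set.mem_iUnion.1 hw
      exact hG i k.1 (Ne.symm k.2) z hz w hk
    · intro w hw
      obtain ⟨k, hk⟩ := Set.mem_iUnion.1 hw
      exact hcl i k.1 (Ne.symm k.2) x hx w ((G k.1).le_topologicalClosure hk)
    · intro z hz
      exact (hcl i j hij z ((G i).le_topologicalClosure hz) y hy).symm
  have hle : ∀ j, G j ≤ (G j).topologicalClosure := fun j => (G j).le_topologicalClosure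
  have h01 : (0 : Fin 3) ≠ 1 := by decide
  have h02 : (0 : Fin 3) ≠ 2 := by decide
  have h12 : (1 : Fin 3) ≠ 2 := by decide
  have hX1 : ¬ 0 ≤ X :=
    key (G 0).topologicalClosure (G 1).topologicalClosure (G 0).isClosed_topologicalClosure
      (G 1).isClosed_topologicalClosure (hcl 0 1 h01) (hprod 0 1 h01) (hle 0 (ha 0))
      (hle 0 (hb 0)) (hle 1 (ha 1)) (hle 1 (hb 1)) (sa 0) (sb 0) (sa 1) (sb 1) (hab 0) (hab 1)
  have hX2 : ¬ 0 ≤ -X := by
    have h := key (G 0).topologicalClosure (G 1).topologicalClosure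
      (G 0).isClosed_topologicalClosure (G 1).isClosed_topologicalClosure (hcl 0 1 h01)
      (hprod 0 1 h01) (neg_mem (hle 0 (ha 0))) (neg_mem (hle 0 (hb 0))) (hle 1 (ha 1))
      (neg_mem (hle 1 (hb 1))) (sa 0).neg (sb 0).neg (sa 1) (sb 1).neg
      (fun h => hab 0 ⟨neg_eq_zero.1 h.1, neg_eq_zero.1 h.2⟩)
      (fun h => hab 1 ⟨h.1, neg_eq_zero.1 h.2⟩)
    have e : -a 0 + -b 1 + -b 0 * a 1 = -X := by
      change _ = -(a 0 + b 1 + b 0 * a 1)
      rw [neg_mul]; abel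
    rwa [e] at h
  have hXsa : IsSelfAdjoint X := by
    have hc : Commute (b 0) (a 1) := hG 0 1 h01 _ (hb 0) _ (ha 1)
    have h3 : IsSelfAdjoint (b 0 * a 1) := by
      rw [isSelfAdjoint_iff, star_mul, (sb 0).1.star_eq, (sa 1).1.star_eq]
      exact hc.eq.symm
    exact ((sa 0).1.add (sb 1).1).add h3
  have hp : X⁺ ≠ 0 := by
    intro h
    have := (CFC.posPart_eq_zero_iff X hXsa).1 h
    exact hX2 (neg_nonneg.2 this)
  have hn : X⁻ ≠ 0 := by
    intro h
    have := (CFC.negPart_eq_zero_iff X hXsa).1 h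
    exact hX1 this
  have hXc : ∀ y ∈ (G 2 : Set Q), Commute X y := by
    intro y hy
    have e0 : ∀ z ∈ G 0, Commute z y := fun z hz => hG 0 2 h02 z hz y hy
    have e1 : ∀ z ∈ G 1, Commute z y := fun z hz => hG 1 2 h12 z hz y hy
    exact ((e0 _ (ha 0)).add_left (e1 _ (hb 1))).add_left
      ((e0 _ (hb 0)).mul_left (e1 _ (ha 1)))
  have hpc : ∀ y ∈ (G 2 : Set Q), Commute X⁺ y := fun y hy => (hXc y hy).cfcₙ_real _
  have hnc : ∀ y ∈ (G 2 : Set Q), Commute X⁻ y := fun y hy => (hXc y hy).cfcₙ_real _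
  have hdom : ∀ Y : Q, (∀ y ∈ (G 2 : Set Q), Commute Y y) → ∀ c ∈ G 2, Y * c = 0 →
      Y = 0 ∨ c = 0 := by
    intro Y hY c hc hYc
    refine eq_zero_or_eq_zero_of_commute hs ((G 0 : Set Q) ∪ (G 1 : Set Q)) (G 2 : Set Q)
      ?_ ?_ hY ?_ hYc
    · have hU : ((G 0 : Set Q) ∪ (G 1 : Set Q)) ∪ (G 2 : Set Q) = ⋃ k, (G k : Set Q) := by
        ext z
        simp only [Set.mem_union, Set.mem_iUnion]
        constructor
        · rintro ((h | h) | h)
          · exact ⟨0, h⟩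
          · exact ⟨1, h⟩
          · exact ⟨2, h⟩
        · rintro ⟨k, h⟩
          fin_cases k
          · exact Or.inl (Or.inl h)
          · exact Or.inl (Or.inr h)
          · exact Or.inr h
      rw [hU]; exact hd
    · rintro z (hz | hz) w hw
      · exact hG 0 2 h02 z hz w hw
      · exact hG 1 2 h12 z hz w hw
    · rintro z (hz | hz)
      · exact (hG 0 2 h02 z hz c hc).symm
      · exact (hG 1 2 h12 z hz c hc).symm
  have hsq : ∀ Y : Q, 0 ≤ Y → Y * Y = 0 → Y = 0 := by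
    intro Y hY hYY
    have h : star Y * Y = 0 := by rw [(IsSelfAdjoint.of_nonneg hY).star_eq]; exact hYY
    exact (CStarRing.star_mul_self_eq_zero_iff Y).1 h
  intro h0
  have hu : (φ₁ 2).map 1 = 0 := by
    have e : X⁺ * X⁺ * (φ₁ 2).map 1 = 0 := by
      have := congrArg (fun z => X⁺ * z) h0
      simp only [mul_add, mul_zero, ← mul_assoc, CFC.posPart_mul_negPart, zero_mul, add_zero]
        at this
      exact this
    rcases hdom (X⁺ * X⁺) (fun y hy => (hpc y hy).mul_left (hpc y hy)) _ (h₁ 2 1) e with h | h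
    · exact absurd (hsq _ (CFC.posPart_nonneg X) h) hp
    · exact h
  have hv : (φ₂ 2).map 1 = 0 := by
    have e : X⁻ * X⁻ * (φ₂ 2).map 1 = 0 := by
      have := congrArg (fun z => X⁻ * z) h0
      simp only [mul_add, mul_zero, ← mul_assoc, CFC.negPart_mul_posPart, zero_mul, zero_add]
        at this
      exact this
    rcases hdom (X⁻ * X⁻) (fun y hy => (hnc y hy).mul_left (hnc y hy)) _ (h₂ 2 1) e with h | h
    · exact absurd (hsq _ (CFC.negPart_nonneg X) h) hn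
    · exact h
  exact hne 2 ⟨hu, hv⟩

end P101
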