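import Mathlib.Analysis.CStarAlgebra.CompletelyPositiveMap
import Vale.Agent.Lib.P101.ReduceCore
import Vale.Agent.Lib.P101.Glue
import Vale.Agent.Lib.P101.Corestrict

/-!
# Reduction of the number of order zero maps to one

**Step.**  `F` with `HasCopies F`; `φ 0, …, φ (n+1) : M_2 → F` (so `n + 2` maps) whose units
generate `F` as an ideal.  Then there are `n + 1` such maps.

Proof.  Take a finite relation `1 = ∑ u_l y_l v_l` with `y_l ∈ {φ i (1)}` and let `D ⊆ F` be the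
topological closure of the *-subalgebra generated by the finite set of all `φ i (e_pq)`, `u_l`,
`v_l` and elements `k_i` with `φ i (1) = k_i* k_i`; it is closed and separable.  The maps
`φ i` corestrict to order zero maps `φ' i : OZ (Fin 2) D`, and `InIdeal {φ' i (1)} (1 : D)`.
Take `θ : ℕ → (D →⋆ₐ[ℂ] F)` from `HasCopies`.  Let `E ⊆ F` be the topological closure of the
*-subalgebra generated by the ranges of `θ 0, θ 1, θ 2`.  Corestrict the `θ j` to
`θ' j : D →⋆ₐ[ℂ] E` (`StarAlgHom.codRestrict`), let `φ i j = (φ' i).comp (θ' j) : OZ (Fin 2) E`.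
In `E` let `a j = φ 0 j (e_00) - φ 0 j (e_11)`, `b j = φ 1 j (e_00) - φ 1 j (e_11)`,
`X = a 0 + b 1 + b 0 * a 1`; `X⁺, X⁻` commute with the range of `θ' 2` (`Commute.cfc`-type lemma).
`ψ 0 := X⁺ φ 0 2 + X⁻ φ 1 2` (`OZ.exists_combine`); for `i ≥ 1`, `ψ i` is the glue
(`exists_glue`, twice) of `φ (i+1) 0`, `φ (i+1) 1`, `φ (i+1) 2` (the glue of the first two commutes
with the third).
Claim: `1 ∈ InIdeal {ψ i (1)}` in `E`.  Otherwise let `π : E → Q` be a simple quotient killing all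
`ψ i (1)` (`exists_simple_quotient`).  Since
`glue(1) = ½ (φ₁(1)² + φ₂(1)²)` with selfadjoint `φ_i(1)`, `π` kills `φ i j (1)` for `i ≥ 2`,
`j = 0, 1, 2`.  For each `j`: not both `π (φ 0 j (1)) = 0` and `π (φ 1 j (1)) = 0`, since
otherwise applying `π ∘ θ' j` to the relation `InIdeal {φ' i (1)} (1 : D)` gives `1 = 0` in `Q`.
`reduce_core` with `G j = (π.comp (θ' j)).range` (density: image of a dense set under the continuous
surjection `π`; `Algebra.adjoin` of a star closed set) contradicts `π (ψ 0 (1)) = 0`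
(`π (X⁺) = (π X)⁺`: `StarAlgHom.map_cfc` / `map_posPart`-type lemma).
Finally compose with the inclusion `E → F` (`E.subtype`).

**Conclusion** by induction: there is one order zero map `φ` with `InIdeal {φ(1)} 1`.
-/

open scoped ENNReal Topology
open Filter Matrix

namespace P101

attribute [local instance] CStarAlgebra.spectralOrder CStarAlgebra.spectralOrderedRing

universe u v

/-- if `π` kills `½ (x² + y²)` then it kills the selfadjoint elements `x`, `y` -/
theorem reduce_kill {E : Type u} [CStarAlgebra E] {Q : Type v} [CStarAlgebra Q] (π : E →⋆ₐ[ℂ] Q)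
    {x y : E} (hx : IsSelfAdjoint x) (hy : IsSelfAdjoint y)
    (h : π ((2 : ℂ)⁻¹ • (x * x + y * y)) = 0) : π x = 0 ∧ π y = 0 := by
  have h1 : π x * π x + π y * π y = 0 := by
    rw [map_smul, map_add, map_mul, map_mul] at h
    exact (smul_eq_zero.1 h).resolve_left (by norm_num)
  have hx' : star (π x) = π x := by rw [← map_star, hx.star_eq]
  have hy' : star (π y) = π y := by rw [← map_star, hy.star_eq]
  have h2 : star (π x) * π x + star (π y) * π y = 0 := by rw [hx', hy', h1]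
  have h3 := (add_eq_zero_iff_of_nonneg (star_mul_self_nonneg (π x))
    (star_mul_self_nonneg (π y))).1 h2
  exact ⟨(CStarRing.star_mul_self_eq_zero_iff _).1 h3.1, (CStarRing.star_mul_self_eq_zero_iff _).1 h3.2⟩

/-- glueing three pairwise commuting order zero maps -/
theorem reduce_glue3 {E : Type u} [CStarAlgebra E] (φ : Fin 3 → OZ (Fin 2) E)
    (hc : ∀ i j, i ≠ j → ∀ a b, Commute ((φ i).map a) ((φ j).map b)) :
    ∃ Φ : OZ (Fin 2) E, ∀ (Q : Type u) (_ : CStarAlgebra Q) (π : E →⋆ₐ[ℂ] Q),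
      π (Φ.map 1) = 0 → ∀ j, π ((φ j).map 1) = 0 := by
  obtain ⟨Φ₁, hΦ₁⟩ := exists_glue (φ 0) (φ 1) (hc 0 1 (by decide))
  have hc2 : ∀ a b, Commute (Φ₁.map a) ((φ 2).map b) := by
    intro a b
    have h0 : ∀ c, Commute ((φ 0).map c) ((φ 2).map b) := fun c => hc 0 2 (by decide) c b
    have h1 : ∀ c, Commute ((φ 1).map c) ((φ 2).map b) := fun c => hc 1 2 (by decide) c b
    rw [hΦ₁ a]
    apply Commute.smul_left
    apply Commute.add_left
    · exact ((h0 1).mul_left (h0 a)).add_left ((h1 1).mul_left (h1 a))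
    · apply Commute.smul_left
      apply Commute.sum_left
      intro i _
      apply Commute.sum_left
      intro j _
      exact ((h0 _).mul_left (h1 _)).sub_left ((h0 _).mul_left (h1 _))
  obtain ⟨Φ₂, hΦ₂⟩ := exists_glue Φ₁ (φ 2) hc2
  refine ⟨Φ₂, ?_⟩
  intro Q _ π hπ
  rw [glue_one Φ₁ (φ 2) Φ₂ hΦ₂] at hπ
  obtain ⟨h1, h2⟩ := reduce_kill π Φ₁.one_isSelfAdjoint (φ 2).one_isSelfAdjoint hπ
  rw [glue_one (φ 0) (φ 1) Φ₁ hΦ₁] at h1
  obtain ⟨h3, h4⟩ := reduce_kill π (φ 0).one_isSelfAdjoint (φ 1).one_isSelfAdjoint h1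
  intro j
  fin_cases j
  · exact h3
  · exact h4
  · exact h2

/-- *-homomorphisms commute with positive and negative parts -/
theorem reduce_map_posPart {E : Type u} [CStarAlgebra E] {Q : Type v} [CStarAlgebra Q]
    (π : E →⋆ₐ[ℂ] Q) {X : E} (hX : IsSelfAdjoint X) : (π X)⁺ = π X⁺ ∧ (π X)⁻ = π X⁻ := by
  have hpos : ∀ z : E, 0 ≤ z → 0 ≤ π z := by
    intro z hz
    exact map_nonneg π hz
  apply CFC.posPart_negPart_unique
  · rw [← map_sub, CFC.posPart_sub_negPart X hX]
  · rw [← map_mul, CFC.posPart_mul_negPart, map_zero]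
  · exact hpos _ (CFC.posPart_nonneg X)
  · exact hpos _ (CFC.negPart_nonneg X)

theorem reduce_single_sa {F : Type u} [CStarAlgebra F] (φ : OZ (Fin 2) F) :
    IsSelfAdjoint (φ.map (Matrix.single 0 0 1) - φ.map (Matrix.single 1 1 1)) := by
  apply IsSelfAdjoint.sub
  · rw [isSelfAdjoint_iff, ← φ.map_star]
    simp [star_eq_conjTranspose]
  · rw [isSelfAdjoint_iff, ← φ.map_star]
    simp [star_eq_conjTranspose]

/-- the density of the image -/
theorem reduce_dense {D : Type u} [CStarAlgebra D] {E : Type u} [CStarAlgebra E]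
    {Q : Type u} [CStarAlgebra Q] (θ : Fin 3 → (D →⋆ₐ[ℂ] E))
    (hd : Dense ((Algebra.adjoin ℂ (⋃ j, Set.range (θ j)) : Subalgebra ℂ E) : Set E))
    (π : E →⋆ₐ[ℂ] Q) (hπ : Function.Surjective π) :
    Dense ((Algebra.adjoin ℂ (⋃ j, (((π.comp (θ j)).range : StarSubalgebra ℂ Q) : Set Q)) :
      Subalgebra ℂ Q) : Set Q) := by
  have h1 : Dense (π '' ((Algebra.adjoin ℂ (⋃ j, Set.range (θ j)) : Subalgebra ℂ E) : Set E)) :=
    hπ.denseRange.dense_image (map_continuous π) hd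
  refine h1.mono ?_
  rintro _ ⟨x, hx, rfl⟩
  have h2 : π x ∈ (Algebra.adjoin ℂ (⋃ j, Set.range (θ j))).map (π : E →ₐ[ℂ] Q) :=
    ⟨x, hx, rfl⟩
  rw [AlgHom.map_adjoin] at h2
  refine Algebra.adjoin_mono ?_ h2
  rintro _ ⟨y, hy, rfl⟩
  obtain ⟨j, d, rfl⟩ := Set.mem_iUnion.1 hy
  exact Set.mem_iUnion.2 ⟨j, ⟨d, rfl⟩⟩

theorem reduce_inner {D : Type u} [CStarAlgebra D] {E : Type u} [CStarAlgebra E]
    (θ : Fin 3 → (D →⋆ₐ[ℂ] E)) (hθ : ∀ i j, i ≠ j → ∀ d e : D, Commute (θ i d) (θ j e))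
    (hd : Dense ((Algebra.adjoin ℂ (⋃ j, Set.range (θ j)) : Subalgebra ℂ E) : Set E))
    (n : ℕ) (φ : Fin (n + 2) → OZ (Fin 2) D)
    (h : InIdeal (Set.range fun i => (φ i).map 1) (1 : D)) :
    ∃ ψ : Fin (n + 1) → OZ (Fin 2) E, InIdeal (Set.range fun i => (ψ i).map 1) (1 : E) := by
  classical
  set a' : D := (φ 0).map (Matrix.single 0 0 1) - (φ 0).map (Matrix.single 1 1 1) with ha'
  set b' : D := (φ 1).map (Matrix.single 0 0 1) - (φ 1).map (Matrix.single 1 1 1) with hb'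
  have ha'sa : IsSelfAdjoint a' := reduce_single_sa (φ 0)
  have hb'sa : IsSelfAdjoint b' := reduce_single_sa (φ 1)
  set X : E := θ 0 a' + θ 1 b' + θ 0 b' * θ 1 a' with hXdef
  have hcomm01 : Commute (θ 0 b') (θ 1 a') := hθ 0 1 (by decide) b' a'
  have hX : IsSelfAdjoint X := by
    refine ((ha'sa.map (θ 0)).add (hb'sa.map (θ 1))).add ?_
    exact ((hb'sa.map (θ 0)).commute_iff (ha'sa.map (θ 1))).1 hcomm01
  have hXc : ∀ d, Commute X (θ 2 d) := by
    intro d
    refine ((hθ 0 2 (by decide) a' d).add_left (hθ 1 2 (by decide) b' d)).add_left ?_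
    exact (hθ 0 2 (by decide) b' d).mul_left (hθ 1 2 (by decide) a' d)
  have hXp : ∀ d, Commute X⁺ (θ 2 d) := fun d => (hXc d).cfcₙ_real _
  have hXm : ∀ d, Commute X⁻ (θ 2 d) := fun d => (hXc d).cfcₙ_real _
  obtain ⟨ψ0, hψ0⟩ := OZ.exists_combine ((φ 0).comp (θ 2)) ((φ 1).comp (θ 2))
    (CFC.posPart_nonneg X) (CFC.negPart_nonneg X) (CFC.posPart_mul_negPart X)
    (fun c => hXp _) (fun c => hXp _) (fun c => hXm _) (fun c => hXm _)
  have hglue : ∀ k : Fin n, ∃ Φ : OZ (Fin 2) E, ∀ (Q : Type u) (_ : CStarAlgebra Q)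
      (π : E →⋆ₐ[ℂ] Q), π (Φ.map 1) = 0 → ∀ j, π (θ j ((φ k.succ.succ).map 1)) = 0 := by
    intro k
    exact reduce_glue3 (fun j => (φ k.succ.succ).comp (θ j))
      (fun i j hij c d => hθ i j hij _ _)
  choose Ψ hΨ using hglue
  refine ⟨Fin.cons ψ0 Ψ, ?_⟩
  by_contra hnot
  obtain ⟨Q, _, π, hQ, hπs, hπ0, hsimple⟩ := exists_simple_quotient _ hnot
  have h0 : π (ψ0.map 1) = 0 := hπ0 _ ⟨0, rfl⟩
  have hk : ∀ (k : Fin n) (j : Fin 3), π (θ j ((φ k.succ.succ).map 1)) = 0 := by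
    intro k
    exact hΨ k Q _ π (hπ0 _ ⟨k.succ, rfl⟩)
  have hne : ∀ j : Fin 3, ¬ ((((φ 0).comp (θ j)).comp π).map 1 = 0 ∧
      (((φ 1).comp (θ j)).comp π).map 1 = 0) := by
    rintro j ⟨h1, h2⟩
    have h3 := h.map ((π.comp (θ j) : D →⋆ₐ[ℂ] Q) : D →+* Q)
    have h4 : ∀ z ∈ (((π.comp (θ j) : D →⋆ₐ[ℂ] Q) : D →+* Q) '' Set.range fun i => (φ i).map 1),
        z = 0 := by
      rintro _ ⟨_, ⟨i, rfl⟩, rfl⟩
      refine Fin.cases ?_ (fun i => ?_) i
      · exact h1
      · refine Fin.cases ?_ (fun i => ?_) i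
        · exact h2
        · exact hk i j
    obtain ⟨m, u, y, v, hy, hsum⟩ := h3
    have h5 : (1 : Q) = 0 := by
      have h6 : ((π.comp (θ j) : D →⋆ₐ[ℂ] Q) : D →+* Q) 1 = 1 := map_one _
      rw [← h6, hsum]
      apply Finset.sum_eq_zero
      intro l _
      rw [h4 _ (hy l), mul_zero, zero_mul]
    exact one_ne_zero h5
  have hcore := reduce_core hsimple (fun j => (π.comp (θ j)).range)
    (by
      rintro i j hij _ ⟨d, rfl⟩ _ ⟨e, rfl⟩
      exact (hθ i j hij d e).map π)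
    (reduce_dense θ hd π hπs)
    (fun j => ((φ 0).comp (θ j)).comp π) (fun j => ((φ 1).comp (θ j)).comp π)
    (fun j c => ⟨_, rfl⟩) (fun j c => ⟨_, rfl⟩) hne
  apply hcore
  obtain ⟨hp1, hp2⟩ := reduce_map_posPart π hX
  have hXQ : (π X) = (((φ 0).comp (θ 0)).comp π).map (Matrix.single 0 0 1)
      - (((φ 0).comp (θ 0)).comp π).map (Matrix.single 1 1 1)
      + ((((φ 1).comp (θ 1)).comp π).map (Matrix.single 0 0 1)
      - (((φ 1).comp (θ 1)).comp π).map (Matrix.single 1 1 1))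
      + ((((φ 1).comp (θ 0)).comp π).map (Matrix.single 0 0 1)
      - (((φ 1).comp (θ 0)).comp π).map (Matrix.single 1 1 1))
      * ((((φ 0).comp (θ 1)).comp π).map (Matrix.single 0 0 1)
      - (((φ 0).comp (θ 1)).comp π).map (Matrix.single 1 1 1)) := by
    rw [hXdef, ha', hb']
    simp only [OZ.comp_map, map_add, map_sub, map_mul]
  rw [← hXQ, hp1, hp2]
  rw [hψ0] at h0
  simpa using h0

theorem reduce_step {F : Type u} [CStarAlgebra F] (hF : HasCopies F) (n : ℕ)
    (φ : Fin (n + 2) → OZ (Fin 2) F)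
    (h : InIdeal (Set.range fun i => (φ i).map 1) (1 : F)) :
    ∃ ψ : Fin (n + 1) → OZ (Fin 2) F, InIdeal (Set.range fun i => (ψ i).map 1) (1 : F) := by
  classical
  obtain ⟨m, u, y, v, hy, hsum⟩ := h
  choose idx hidx using hy
  set T : Set F := (Set.range fun p : Fin (n + 2) × Fin 2 × Fin 2 =>
    (φ p.1).map (Matrix.single p.2.1 p.2.2 1)) ∪ (Set.range u ∪ Set.range v) with hTdef
  have hT : T.Countable :=
    (Set.countable_range _).union ((Set.countable_range _).union (Set.countable_range _))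
  obtain ⟨D, hDc, hDs, hTD⟩ := exists_closed_separable T hT
  have hDi : IsClosed (D : Set F) := hDc
  have hex : ∀ i, ∃ φ' : OZ (Fin 2) D, ∀ a, ((φ'.map a : D) : F) = (φ i).map a := fun i =>
    OZ.exists_corestrict D (φ i) (fun p q => hTD (Or.inl ⟨(i, p, q), rfl⟩))
  choose φ' hφ' using hex
  have hD1 : InIdeal (Set.range fun i => (φ' i).map 1) (1 : D) := by
    refine ⟨m, fun l => ⟨u l, hTD (Or.inr (Or.inl ⟨l, rfl⟩))⟩, fun l => (φ' (idx l)).map 1,
      fun l => ⟨v l, hTD (Or.inr (Or.inr ⟨l, rfl⟩))⟩, fun l => ⟨idx l, rfl⟩, ?_⟩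
    apply Subtype.ext
    rw [OneMemClass.coe_one, hsum, AddSubmonoidClass.coe_finsetSum]
    apply Finset.sum_congr rfl
    intro l _
    rw [MulMemClass.coe_mul, MulMemClass.coe_mul, hφ', ← hidx l]
  obtain ⟨θ, hθ⟩ := hF D hDc hDs
  set S : Set F := ⋃ j : Fin 3, Set.range (θ j) with hS
  have hSstar : star S = S := by
    ext x
    rw [Set.mem_star, hS, Set.mem_iUnion, Set.mem_iUnion]
    constructor
    · rintro ⟨j, d, hd⟩
      exact ⟨j, star d, by rw [map_star, hd, star_star]⟩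
    · rintro ⟨j, d, hd⟩
      exact ⟨j, star d, by rw [map_star, hd]⟩
  set A0 : StarSubalgebra ℂ F := StarAlgebra.adjoin ℂ S with hA0
  have hEc : IsClosed (A0.topologicalClosure : Set F) := A0.isClosed_topologicalClosure
  have hmem : ∀ (j : Fin 3) x, θ j x ∈ A0.topologicalClosure := by
    intro j x
    apply A0.le_topologicalClosure
    exact StarAlgebra.subset_adjoin ℂ S (Set.mem_iUnion.2 ⟨j, x, rfl⟩)
  obtain ⟨ψ, hψ⟩ := reduce_inner
    (fun j : Fin 3 => (θ j).codRestrict A0.topologicalClosure (hmem j))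
    (by
      intro i j hij d e
      have h1 := hθ i j (fun h => hij (Fin.ext h)) d e
      apply Subtype.ext
      exact h1)
    (by
      intro x
      rw [Topology.IsInducing.subtypeVal.closure_eq_preimage_closure_image, Set.mem_preimage]
      have hx : (x : F) ∈ closure (A0 : Set F) := by
        rw [← StarSubalgebra.topologicalClosure_coe]
        exact x.2
      refine closure_mono ?_ hx
      intro z hz
      have hz' : z ∈ (Algebra.adjoin ℂ (S ∪ star S) : Subalgebra ℂ F) := hz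
      rw [hSstar, Set.union_self] at hz'
      have himg : (A0.topologicalClosure.subtype : A0.topologicalClosure →ₐ[ℂ] F) ''
          (⋃ j : Fin 3, Set.range ((θ j).codRestrict A0.topologicalClosure (hmem j))) = S := by
        rw [Set.image_iUnion, hS]
        apply Set.iUnion_congr
        intro j
        ext w
        constructor
        · rintro ⟨_, ⟨d, rfl⟩, rfl⟩
          exact ⟨d, rfl⟩
        · rintro ⟨d, rfl⟩
          exact ⟨_, ⟨d, rfl⟩, rfl⟩
      rw [← himg, ← AlgHom.map_adjoin] at hz'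
      obtain ⟨w, hw, rfl⟩ := hz'
      exact ⟨w, hw, rfl⟩)
    n φ' hD1
  refine ⟨fun i => (ψ i).comp A0.topologicalClosure.subtype, ?_⟩
  have h1 := hψ.map (A0.topologicalClosure.subtype : A0.topologicalClosure →+* F)
  have h2 : (A0.topologicalClosure.subtype : A0.topologicalClosure →+* F) 1 = 1 := map_one _
  rw [h2] at h1
  refine h1.mono ?_
  rintro _ ⟨_, ⟨i, rfl⟩, rfl⟩
  exact ⟨i, rfl⟩

/-- the zero order zero map -/
noncomputable def OZ.zero {ι : Type} [Fintype ι] [DecidableEq ι] (F : Type u) [CStarAlgebra F] : OZ ι F where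
  map := 0
  map_star := by intro a; simp
  map_mul := by intro a b; simp
  nonneg := ⟨0, by simp⟩

theorem exists_one_full {F : Type u} [CStarAlgebra F] (hF : HasCopies F)
    (h : InIdeal {y : F | ∃ φ : OZ (Fin 2) F, y = φ.map 1} (1 : F)) :
    ∃ φ : OZ (Fin 2) F, InIdeal {φ.map 1} (1 : F) := by
  classical
  obtain ⟨m, a, y, b, hy, hsum⟩ := h
  choose φ hφ using hy
  have key : ∀ k : ℕ, ∀ ψ : Fin (k + 1) → OZ (Fin 2) F,
      InIdeal (Set.range fun i => (ψ i).map 1) (1 : F) →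
      ∃ φ : OZ (Fin 2) F, InIdeal {φ.map 1} (1 : F) := by
    intro k
    induction k with
    | zero =>
      intro ψ hψ
      refine ⟨ψ 0, hψ.mono ?_⟩
      rintro _ ⟨i, rfl⟩
      have : i = 0 := by
        apply Fin.ext
        have := i.2
        simp
      rw [this]
      exact Set.mem_singleton _
    | succ k ih =>
      intro ψ hψ
      obtain ⟨ψ', hψ'⟩ := reduce_step hF k ψ hψ
      exact ih ψ' hψ'
  refine key m (Fin.snoc φ (OZ.zero F)) ?_
  refine InIdeal.trans (S := {y : F | ∃ l, y = (φ l).map 1}) ⟨m, a, y, b, fun l => ⟨l, hφ l⟩, hsum⟩ ?_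
  rintro y ⟨l, rfl⟩
  refine InIdeal.of_mem ⟨Fin.castSucc l, ?_⟩
  simp

end P101
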