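import Vale.Agent.Lib.P101.TensorA
import Vale.Agent.Lib.P101.OZBasic
import Vale.Agent.Lib.P101.Corestrict

/-!
# Full order zero maps on `M_n`
-/

open scoped ENNReal Topology
open Filter Matrix

namespace P101

attribute [local instance] CStarAlgebra.spectralOrder CStarAlgebra.spectralOrderedRing

universe u

theorem Tensor.zero_of_inIdeal {Q : Type u} [Ring Q] {x : Q} (h : InIdeal {(0 : Q)} x) :
    x = 0 := by
  obtain ⟨m, a, y, b, hy, rfl⟩ := h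
  refine Finset.sum_eq_zero fun l _ => ?_
  have h1 : y l = 0 := hy l
  rw [h1, mul_zero, zero_mul]

/-- the product of two full order zero maps, along two commuting copies -/
theorem Tensor.step {F : Type u} [CStarAlgebra F] (hF : HasCopies F)
    {ι κ : Type} [Fintype ι] [DecidableEq ι] [Fintype κ] [DecidableEq κ]
    (φ₁ : OZ ι F) (φ₂ : OZ κ F) (h₁ : InIdeal {φ₁.map 1} (1 : F))
    (h₂ : InIdeal {φ₂.map 1} (1 : F)) :
    ∃ Φ : OZ (ι × κ) F, InIdeal {Φ.map 1} (1 : F) := by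
  obtain ⟨m, a, y, b, hy, e₁⟩ := h₁
  obtain ⟨m', a', y', b', hy', e₂⟩ := h₂
  have hy1 : ∀ l, y l = φ₁.map 1 := hy
  have hy2 : ∀ l, y' l = φ₂.map 1 := hy'
  set T : Set F := (((Set.range fun ij : ι × ι => φ₁.map (Matrix.single ij.1 ij.2 1)) ∪
    (Set.range fun ij : κ × κ => φ₂.map (Matrix.single ij.1 ij.2 1))) ∪
    (Set.range a ∪ Set.range b)) ∪ (Set.range a' ∪ Set.range b') with hT
  have hTc : T.Countable := by
    rw [hT]
    refine ((((Set.countable_range _).union (Set.countable_range _)).union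
      ((Set.countable_range _).union (Set.countable_range _)))).union
      ((Set.countable_range _).union (Set.countable_range _))
  obtain ⟨D, hDc, hDs, hTD⟩ := exists_closed_separable T hTc
  have : IsClosed (D : Set F) := hDc
  have m1 : ∀ i j, φ₁.map (Matrix.single i j 1) ∈ D := fun i j =>
    hTD (Or.inl (Or.inl (Or.inl ⟨(i, j), rfl⟩)))
  have m2 : ∀ i j, φ₂.map (Matrix.single i j 1) ∈ D := fun i j =>
    hTD (Or.inl (Or.inl (Or.inr ⟨(i, j), rfl⟩)))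
  have ma : ∀ l, a l ∈ D := fun l => hTD (Or.inl (Or.inr (Or.inl ⟨l, rfl⟩)))
  have mb : ∀ l, b l ∈ D := fun l => hTD (Or.inl (Or.inr (Or.inr ⟨l, rfl⟩)))
  have ma' : ∀ l, a' l ∈ D := fun l => hTD (Or.inr (Or.inl ⟨l, rfl⟩))
  have mb' : ∀ l, b' l ∈ D := fun l => hTD (Or.inr (Or.inr ⟨l, rfl⟩))
  obtain ⟨φ₁', hφ₁⟩ := OZ.exists_corestrict D φ₁ m1
  obtain ⟨φ₂', hφ₂⟩ := OZ.exists_corestrict D φ₂ m2
  obtain ⟨θ, hθ⟩ := hF D hDc hDs
  have f₁ : (1 : D) = ∑ l, (⟨a l, ma l⟩ : D) * φ₁'.map 1 * (⟨b l, mb l⟩ : D) := by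
    apply Subtype.ext
    rw [AddSubmonoidClass.coe_finsetSum]
    simp only [MulMemClass.coe_mul, hφ₁]
    change (1 : F) = _
    rw [e₁]
    exact Finset.sum_congr rfl fun l _ => by rw [hy1]
  have f₂ : (1 : D) = ∑ l, (⟨a' l, ma' l⟩ : D) * φ₂'.map 1 * (⟨b' l, mb' l⟩ : D) := by
    apply Subtype.ext
    rw [AddSubmonoidClass.coe_finsetSum]
    simp only [MulMemClass.coe_mul, hφ₂]
    change (1 : F) = _
    rw [e₂]
    exact Finset.sum_congr rfl fun l _ => by rw [hy2]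
  obtain ⟨Φ, hΦ⟩ := exists_tensor (φ₁'.comp (θ 0)) (φ₂'.comp (θ 1))
    (fun x z => hθ 0 1 (by norm_num) _ _)
  refine ⟨Φ, ?_⟩
  have hone : Φ.map 1 = θ 0 (φ₁'.map 1) * θ 1 (φ₂'.map 1) := by
    have h := hΦ 1 1
    have h1 : kroneckerMap (· * ·) (1 : Matrix ι ι ℂ) (1 : Matrix κ κ ℂ) = 1 :=
      one_kronecker_one
    rw [h1] at h
    exact h
  have g₁ : (1 : F) = ∑ l, θ 0 ⟨a l, ma l⟩ * θ 0 (φ₁'.map 1) * θ 0 ⟨b l, mb l⟩ := by
    have h := congrArg (θ 0) f₁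
    rw [map_one, map_sum] at h
    simpa only [_root_.map_mul] using h
  have g₂ : (1 : F) = ∑ l, θ 1 ⟨a' l, ma' l⟩ * θ 1 (φ₂'.map 1) * θ 1 ⟨b' l, mb' l⟩ := by
    have h := congrArg (θ 1) f₂
    rw [map_one, map_sum] at h
    simpa only [_root_.map_mul] using h
  have g : (1 : F) = ∑ l, ∑ k, (θ 0 ⟨a l, ma l⟩ * θ 1 ⟨a' k, ma' k⟩) * Φ.map 1 *
      (θ 0 ⟨b l, mb l⟩ * θ 1 ⟨b' k, mb' k⟩) := by
    calc (1 : F) = 1 * 1 := (mul_one 1).symm
      _ = (∑ l, θ 0 ⟨a l, ma l⟩ * θ 0 (φ₁'.map 1) * θ 0 ⟨b l, mb l⟩) *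
          (∑ l, θ 1 ⟨a' l, ma' l⟩ * θ 1 (φ₂'.map 1) * θ 1 ⟨b' l, mb' l⟩) := by
          rw [← g₁, ← g₂]
      _ = _ := by
          rw [Finset.sum_mul_sum]
          refine Finset.sum_congr rfl fun l _ => Finset.sum_congr rfl fun k _ => ?_
          rw [hone]
          have c1 := hθ 0 1 (by norm_num) ⟨b l, mb l⟩ ⟨a' k, ma' k⟩
          have c2 := hθ 0 1 (by norm_num) (φ₁'.map 1) ⟨a' k, ma' k⟩
          have c3 := hθ 0 1 (by norm_num) ⟨b l, mb l⟩ (φ₂'.map 1)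
          simp only [mul_assoc]
          congr 1
          rw [← mul_assoc (θ 0 ⟨b l, mb l⟩) (θ 1 ⟨a' k, ma' k⟩), c1.eq,
            mul_assoc (θ 1 ⟨a' k, ma' k⟩), ← mul_assoc (θ 0 (φ₁'.map 1)) (θ 1 ⟨a' k, ma' k⟩),
            c2.eq, mul_assoc (θ 1 ⟨a' k, ma' k⟩)]
          congr 2
          rw [← mul_assoc (θ 0 ⟨b l, mb l⟩) (θ 1 (φ₂'.map 1)), c3.eq,
            mul_assoc (θ 1 (φ₂'.map 1))]
  rw [g]
  exact InIdeal.sum _ _ fun l _ => InIdeal.sum _ _ fun k _ =>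
    ((InIdeal.of_mem (Set.mem_singleton _)).mul_left _).mul_right _

theorem Tensor.powers {F : Type u} [CStarAlgebra F] (hF : HasCopies F)
    (φ : OZ (Fin 2) F) (h : InIdeal {φ.map 1} (1 : F)) (m : ℕ) :
    ∃ (ι : Type) (_ : Fintype ι) (_ : DecidableEq ι) (ψ : OZ ι F),
      m + 1 ≤ Fintype.card ι ∧ InIdeal {ψ.map 1} (1 : F) := by
  induction m with
  | zero => exact ⟨Fin 2, inferInstance, inferInstance, φ, by simp, h⟩
  | succ m ih =>
    obtain ⟨ι, i1, i2, ψ, hm, hψ⟩ := ih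
    obtain ⟨Φ, hΦ⟩ := Tensor.step hF φ ψ h hψ
    refine ⟨Fin 2 × ι, inferInstance, inferInstance, Φ, ?_, hΦ⟩
    rw [Fintype.card_prod, Fintype.card_fin]
    omega

/-- **Full order zero maps on `M_n`**, `n ≥ 1`.

Proof.  By induction on `m` there is a full order zero map on `M_(ι)` with `card ι = 2^m`
(types `ι : Type`, `Fintype`, `DecidableEq`): given full `φ : OZ ι F` and the original
`φ₀ : OZ (Fin 2) F`, let `D` be the closed separable *-subalgebra generated by the values on matrix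
units, the coefficients of the finite relations expressing fullness and elements `k` with
`φ(1) = k* k`; corestrict to `D`; take `θ : ℕ → (D →⋆ₐ F)` from `HasCopies F`, and the tensor
product of `θ 0 ∘ φ` and `θ 1 ∘ φ₀` (`exists_tensor`).  It is full: from `1 = ∑ u_l φ(1) v_l` and
`1 = ∑ u'_k φ₀(1) v'_k` in `D` we get `1 = (∑ θ₀(u_l) θ₀(φ(1)) θ₀(v_l)) (∑ θ₁(u'_k) θ₁(φ₀(1)) θ₁(v'_k))`
`= ∑ θ₀(u_l) θ₁(u'_k) (θ₀φ(1) θ₁φ₀(1)) θ₀(v_l) θ₁(v'_k)` by commutation.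
Then take `2^m ≥ n`, an injection `f : Fin n → ι` and `exists_corner`; fullness:
`OZ.full_single` for `φ` and `k = f 0` gives `InIdeal {φ(e_{f0 f0})} 1`, and
`φ(e_{f0 f0}) = ψ(e_00)` is in the closed ideal generated by `ψ(1)`: if `ψ(1)` dies in a simple
quotient (`exists_simple_quotient`), then `ψ` dies (`OZ.eq_zero_of_one`). -/
theorem exists_full {F : Type u} [CStarAlgebra F] [Nontrivial F] (hF : HasCopies F)
    (φ : OZ (Fin 2) F) (h : InIdeal {φ.map 1} (1 : F)) (n : ℕ) (hn : 1 ≤ n) :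
    ∃ ψ : OZ (Fin n) F, InIdeal {ψ.map 1} (1 : F) := by
  obtain ⟨ι, i1, i2, Φ, hcard, hΦ⟩ := Tensor.powers hF φ h n
  have hc : Fintype.card (Fin n) ≤ Fintype.card ι := by
    rw [Fintype.card_fin]
    omega
  obtain ⟨f⟩ := Function.Embedding.nonempty_of_card_le hc
  obtain ⟨ψ, hψ⟩ := exists_corner Φ f
  refine ⟨ψ, ?_⟩
  by_contra hcon
  let z : Fin n := ⟨0, hn⟩
  have h1 : InIdeal {ψ.map (Matrix.single z z 1)} (1 : F) := by
    rw [hψ z z]
    exact Φ.full_single (f z) hΦ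
  obtain ⟨Q, _, π, hQ, -, hkill, -⟩ := exists_simple_quotient _ hcon
  have h2 : (ψ.comp π).map 1 = 0 := hkill _ rfl
  have h3 := (ψ.comp π).eq_zero_of_one h2 (Matrix.single z z 1)
  have h4 := InIdeal.map (π : F →+* Q) h1
  rw [Set.image_singleton] at h4
  have h5 : (π : F →+* Q) (ψ.map (Matrix.single z z 1)) = 0 := h3
  rw [h5, map_one] at h4
  exact one_ne_zero (Tensor.zero_of_inIdeal h4)

end P101
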