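import Vale.Agent.Lib.P101.Copies
import Vale.Agent.Lib.P101.Chars
import Vale.Agent.Lib.P101.Reduce
import Vale.Agent.Lib.P101.Tensor
import Vale.Agent.Lib.P101.FinalStep
import Vale.Agent.Lib.P101.Coeff
import Vale.Agent.Lib.P101.DropHom
import Vale.Agent.Lib.P101.NoChar

/-!
# Assembly
-/

open scoped ENNReal Topology
open Filter Matrix

namespace P101

attribute [local instance] CStarAlgebra.spectralOrder CStarAlgebra.spectralOrderedRing

universe u

/-- Scaling an order zero map so that `‖φ(1)‖ ≤ 1`. -/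
theorem exists_contractive {n : ℕ} {F : Type u} [CStarAlgebra F] (φ : OZ (Fin n) F)
    (h : InIdeal {φ.map 1} (1 : F)) :
    ∃ ψ : OZ (Fin n) F, ‖ψ.map 1‖ ≤ 1 ∧ InIdeal {ψ.map 1} (1 : F) := by
  set c : ℝ := (‖φ.map 1‖ + 1)⁻¹ with hc
  have hc0 : 0 < c := by positivity
  have hstarc : star (c : ℂ) = (c : ℂ) := by simp
  let ψ : OZ (Fin n) F :=
    { map := (c : ℂ) • φ.map
      map_star := by
        intro a
        rw [LinearMap.smul_apply, LinearMap.smul_apply, star_smul, φ.map_star, hstarc]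
      map_mul := by
        intro a b
        rw [LinearMap.smul_apply, LinearMap.smul_apply, LinearMap.smul_apply,
          LinearMap.smul_apply, smul_mul_smul_comm, smul_mul_smul_comm, φ.map_mul a b]
      nonneg := by
        obtain ⟨k, hk⟩ := φ.nonneg
        refine ⟨(Real.sqrt c : ℂ) • k, ?_⟩
        have hs : star ((Real.sqrt c : ℝ) : ℂ) = ((Real.sqrt c : ℝ) : ℂ) := by simp
        rw [LinearMap.smul_apply, hk, star_smul, hs, smul_mul_smul_comm, ← Complex.ofReal_mul,
          Real.mul_self_sqrt hc0.le] }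
  have hψ1 : ψ.map 1 = (c : ℂ) • φ.map 1 := rfl
  refine ⟨ψ, ?_, ?_⟩
  · rw [hψ1, norm_smul, Complex.norm_real, Real.norm_of_nonneg hc0.le, hc,
      inv_mul_le_iff₀ (by positivity)]
    linarith
  · refine h.trans ?_
    intro y hy
    have hy' : y = φ.map 1 := hy
    refine ⟨1, fun _ => ((c : ℂ)⁻¹) • (1 : F), fun _ => ψ.map 1, fun _ => 1, fun _ => rfl, ?_⟩
    have hcc : (c : ℂ) ≠ 0 := by exact_mod_cast hc0.ne'
    simp only [Finset.univ_unique, Finset.sum_const, Finset.card_singleton, one_smul, mul_one]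
    rw [hψ1, smul_mul_smul_comm, one_mul, inv_mul_cancel₀ hcc, one_smul, hy']

/-- *-homomorphisms map cut elements to cut elements. -/
theorem map_cutElt {n : ℕ} [NeZero n] {D F : Type u} [CStarAlgebra D] [CStarAlgebra F]
    (f : D →⋆ₐ[ℂ] F) (φ : OZ (Fin n) D) (ε : ℝ) : f (cutElt φ ε) = cutElt (φ.comp f) ε := by
  have hf : Continuous f :=
    (AddMonoidHomClass.continuous_of_bound f 1 fun x => by
      simpa using NonUnitalStarAlgHom.norm_apply_le f x)
  have hsa : IsSelfAdjoint (f (φ.map 1)) := φ.one_isSelfAdjoint.map f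
  unfold cutElt
  rw [_root_.map_mul, OZ.comp_map, OZ.comp_map]
  congr 1
  exact StarAlgHomClass.map_cfc (S := ℂ) f (cut ε) (φ.map 1) (continuous_cut ε).continuousOn hf
    φ.one_isSelfAdjoint hsa

/-- `cutElt` only depends on the underlying linear map. -/
theorem cutElt_congr {n : ℕ} [NeZero n] {F : Type u} [CStarAlgebra F] (φ ψ : OZ (Fin n) F)
    (h : ∀ a, φ.map a = ψ.map a) (ε : ℝ) : cutElt φ ε = cutElt ψ ε := by
  unfold cutElt
  rw [h, h]

/-- closures of commuting sets commute -/
theorem commute_of_mem_closure_fin {F : Type u} [CStarAlgebra F] {S T : Set F}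
    (h : ∀ x ∈ S, ∀ y ∈ T, Commute x y) {x y : F} (hx : x ∈ closure S) (hy : y ∈ closure T) :
    Commute x y := by
  have h1 : ∀ y ∈ T, Commute x y := by
    intro y hy
    have hcl : IsClosed {x : F | x * y = y * x} :=
      isClosed_eq (continuous_id.mul continuous_const) (continuous_const.mul continuous_id)
    exact closure_minimal (fun z hz => h z hz y hy) hcl hx
  have hcl : IsClosed {y : F | x * y = y * x} :=
    isClosed_eq (continuous_const.mul continuous_id) (continuous_id.mul continuous_const)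
  exact closure_minimal (fun z hz => h1 z hz) hcl hy

/-- **Comparison**: if `F` has commuting copies and a full order zero map on `M_2` then for all
`n ≥ 1` there are an order zero map `ψ` on `M_n` and `r` with `r* r = 1 - ψ(1)`, `ψ(e_00) r = r`.

Proof.  `exists_full`, `exists_contractive` and `exists_coeff` in `F`; let `D` be the closed
*-subalgebra generated by the values of `φ` on matrix units, a `k` with `φ(1) = k* k` and the
coefficients `c i` (it contains `cutElt φ ε` by `cfc_mem`); `θ` from `HasCopies F`; apply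
`final_step` with `S j =` the closure of the range of `θ j` (or the range),
`φ j = θ j ∘ φ`, `c j i = θ j (c i)`; `cutElt` is mapped to `cutElt` because *-homomorphisms commute
with the functional calculus (`StarAlgHom.map_cfc`), `‖θ j x‖ ≤ ‖x‖`. -/
theorem exists_comparison {F : Type u} [CStarAlgebra F] [Nontrivial F] (hF : HasCopies F)
    (φ : OZ (Fin 2) F) (h : InIdeal {φ.map 1} (1 : F)) (n : ℕ) [NeZero n] :
    ∃ (ψ : OZ (Fin n) F) (r : F), star r * r = 1 - ψ.map 1 ∧
      ψ.map (Matrix.single 0 0 1) * r = r := by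
  obtain ⟨ψ0, hψ0⟩ := exists_full hF φ h n (Nat.one_le_iff_ne_zero.2 (NeZero.ne n))
  obtain ⟨ψ1, hn1, hψ1⟩ := exists_contractive ψ0 hψ0
  obtain ⟨ε, hε, N, c, hc⟩ := exists_coeff ψ1 hψ1
  obtain ⟨D, hD, hDs, hT⟩ := exists_closed_separable
    ((Set.range fun q : Fin n × Fin n => ψ1.map (Matrix.single q.1 q.2 1)) ∪ Set.range c)
    (Set.Countable.union (Set.countable_range _) (Set.countable_range _))
  have hDinst : IsClosed (D : Set F) := hD
  have hsingle : ∀ i j, ψ1.map (Matrix.single i j 1) ∈ D := fun i j =>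
    hT (Or.inl ⟨(i, j), rfl⟩)
  have hcD : ∀ i, c i ∈ D := fun i => hT (Or.inr ⟨i, rfl⟩)
  obtain ⟨φ', hφ'⟩ := OZ.exists_corestrict D ψ1 hsingle
  obtain ⟨θ, hθ⟩ := hF D hD hDs
  -- the relation inside `D`
  have hsub : ∀ x : D, D.subtype x = (x : F) := fun _ => rfl
  have hcutD : ((cutElt φ' ε : D) : F) = cutElt ψ1 ε := by
    rw [← hsub, map_cutElt]
    exact cutElt_congr _ _ (fun a => by rw [OZ.comp_map, hsub, hφ']) ε
  have hrel : ∑ i, star (⟨c i, hcD i⟩ : D) * (cutElt φ' ε * cutElt φ' ε) * ⟨c i, hcD i⟩ = 1 := by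
    have hinj : Function.Injective D.subtype := Subtype.coe_injective
    apply hinj
    rw [map_sum, map_one, ← hc]
    refine Finset.sum_congr rfl fun i _ => ?_
    rw [_root_.map_mul, _root_.map_mul, _root_.map_mul, map_star, hsub, hsub, hcutD]
  refine final_step (fun j => (θ j).range.topologicalClosure) (fun j => ?_) (fun i j hij => ?_)
    (fun j => φ'.comp (θ j)) (fun j a => ?_) (fun j => ?_) hε
    (fun j i => θ j ⟨c i, hcD i⟩) (fun j i => ?_) (C := ∑ i, ‖c i‖) (fun j i => ?_) (fun j => ?_)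
  · exact StarSubalgebra.isClosed_topologicalClosure _
  · intro x hx y hy
    refine commute_of_mem_closure_fin (S := ((θ i).range : Set F)) (T := ((θ j).range : Set F))
      ?_ hx hy
    rintro _ ⟨d, rfl⟩ _ ⟨e, rfl⟩
    exact hθ i j hij d e
  · exact StarSubalgebra.le_topologicalClosure _ ⟨φ'.map a, rfl⟩
  · rw [OZ.comp_map]
    refine (norm_hom_le D (θ j) _).trans ?_
    have : ‖φ'.map 1‖ = ‖((φ'.map 1 : D) : F)‖ := rfl
    rw [this, hφ']
    exact hn1
  · exact StarSubalgebra.le_topologicalClosure _ ⟨⟨c i, hcD i⟩, rfl⟩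
  · refine (norm_hom_le D (θ j) _).trans ?_
    have : ‖(⟨c i, hcD i⟩ : D)‖ = ‖c i‖ := rfl
    rw [this]
    exact Finset.single_le_sum (f := fun i => ‖c i‖) (fun _ _ => norm_nonneg _)
      (Finset.mem_univ i)
  · have := congrArg (θ j) hrel
    rw [map_sum, map_one] at this
    simp only [_root_.map_mul, map_star, map_cutElt] at this
    exact this

theorem exists_hom_of_no_characters {F : Type u} [CStarAlgebra F] [Nontrivial F]
    (hF : HasCopies F) (h : IsEmpty (F →⋆ₐ[ℂ] ℂ)) (n : ℕ) [NeZero n] :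
    Nonempty (dimDrop n (n + 1) →⋆ₐ[ℂ] F) := by
  obtain ⟨φ, hφ⟩ := exists_one_full hF (inIdeal_one_of_no_characters h)
  obtain ⟨ψ, r, h1, h2⟩ := exists_comparison hF φ hφ n
  exact exists_dimDrop_hom ψ r h1 h2

theorem main_iff (ω : Ultrafilter ℕ) (hω : (ω : Filter ℕ) ≤ Filter.cofinite)
    (A : Type u) [CStarAlgebra A] [Nontrivial A] [TopologicalSpace.SeparableSpace A] :
    IsEmpty (FOmega ω A →⋆ₐ[ℂ] ℂ) ↔
      ∀ n : ℕ, 1 ≤ n → Nonempty (dimDrop n (n + 1) →⋆ₐ[ℂ] FOmega ω A) := by
  constructor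
  · intro h n hn
    have : NeZero n := ⟨by omega⟩
    have : Nontrivial (FOmega ω A) := by
      refine ⟨⟨0, 1, fun h01 => ?_⟩⟩
      have h1 : toUltrapower ω A 1 = 0 := by
        rw [map_one]
        exact (congrArg (fun x : FOmega ω A => (x : Ultrapower ω A)) h01).symm
      have h2 : (1 : lp (fun _ : ℕ => A) ∞) ∈ cNull ω A := by
        exact (quotMk_eq_zero_iff (cNull ω A) _).1 h1
      rw [mem_cNull] at h2
      have h3 : Tendsto (fun _ : ℕ => (1 : ℝ)) (ω : Filter ℕ) (𝓝 0) := by
        refine h2.congr fun m => ?_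
        have : (1 : lp (fun _ : ℕ => A) ∞) m = (1 : A) := rfl
        rw [this, norm_one]
      exact one_ne_zero (tendsto_nhds_unique tendsto_const_nhds h3)
    exact exists_hom_of_no_characters (hasCopies_FOmega ω hω A) h n
  · intro h
    refine ⟨fun χ => ?_⟩
    obtain ⟨f⟩ := h 2 (by norm_num)
    exact dimDrop_no_character.false (χ.comp f)

end P101
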