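import Vale.Agent.Lib.P101.Defs

/-!
# Unital *-homomorphisms between dimension drop algebras

If `p ∣ p'` and `q ∣ q'` (`p' = a p`, `q' = d q`) there is a unital *-homomorphism
`dimDrop p q → dimDrop p' q'`: `f ↦ (t ↦ 1_a ⊗ 1_d ⊗ f(t))` after identifying
`Fin p' ≃ Fin a × Fin p`, `Fin q' ≃ Fin d × Fin q` (`finProdFinEquiv`), i.e.
`(Λ f t) (i, j) (i', j') = if i.1 = i'.1 ∧ j.1 = j'.1 then f t (i.2, j.2) (i'.2, j'.2) else 0`.
At `t = 0`, `f 0 = m ⊗ 1` gives `(1_a ⊗ m) ⊗ 1_{q'}`; at `t = 1`, `1_{p'} ⊗ (1_d ⊗ x)`.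

For coprime `p, q ≥ 1` there is `n ≥ 1` with `p ∣ n`, `q ∣ n + 1` (Chinese remainder theorem,
`Nat.chineseRemainder`, then add `p q` if necessary).
-/

open scoped ENNReal Topology
open Filter Matrix

namespace P101

/-- the identification of the index sets -/
def ZDrop_e (p q a d : ℕ) :
    Fin (p * a) × Fin (q * d) ≃ (Fin a × Fin d) × (Fin p × Fin q) where
  toFun x := (((finProdFinEquiv.symm x.1).2, (finProdFinEquiv.symm x.2).2),
    ((finProdFinEquiv.symm x.1).1, (finProdFinEquiv.symm x.2).1))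
  invFun y := (finProdFinEquiv (y.2.1, y.1.1), finProdFinEquiv (y.2.2, y.1.2))
  left_inv x := Prod.ext (finProdFinEquiv.apply_symm_apply x.1)
    (finProdFinEquiv.apply_symm_apply x.2)
  right_inv y := by simp

/-- `x ↦ 1 ⊗ x` -/
noncomputable def ZDrop_L (p q a d : ℕ) : Matrix (Fin p × Fin q) (Fin p × Fin q) ℂ →⋆ₐ[ℂ]
    Matrix (Fin (p * a) × Fin (q * d)) (Fin (p * a) × Fin (q * d)) ℂ where
  toFun x := (kroneckerMap (· * ·) (1 : Matrix (Fin a × Fin d) (Fin a × Fin d) ℂ) x).submatrix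
    (ZDrop_e p q a d) (ZDrop_e p q a d)
  map_one' := by
    rw [one_kronecker_one, submatrix_one_equiv]
  map_mul' x y := by
    rw [submatrix_mul_equiv, ← mul_kronecker_mul, mul_one]
  map_zero' := by
    rw [kronecker_zero]
    rfl
  map_add' x y := by
    rw [kronecker_add]
    rfl
  commutes' z := by
    rw [Algebra.algebraMap_eq_smul_one, kronecker_smul, one_kronecker_one,
      Algebra.algebraMap_eq_smul_one]
    change z • ((1 : Matrix ((Fin a × Fin d) × (Fin p × Fin q)) ((Fin a × Fin d) × (Fin p × Fin q))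
      ℂ).submatrix (ZDrop_e p q a d) (ZDrop_e p q a d)) = _
    rw [submatrix_one_equiv]
  map_star' x := by
    rw [star_eq_conjTranspose, star_eq_conjTranspose, conjTranspose_submatrix,
      conjTranspose_kronecker, conjTranspose_one]

theorem ZDrop_L_apply (p q a d : ℕ) (x : Matrix (Fin p × Fin q) (Fin p × Fin q) ℂ)
    (i j : Fin (p * a) × Fin (q * d)) :
    ZDrop_L p q a d x i j =
      (1 : Matrix (Fin a × Fin d) (Fin a × Fin d) ℂ) (ZDrop_e p q a d i).1 (ZDrop_e p q a d j).1 *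
        x (ZDrop_e p q a d i).2 (ZDrop_e p q a d j).2 := rfl

theorem ZDrop_L_continuous (p q a d : ℕ) : Continuous (ZDrop_L p q a d) := by
  refine continuous_matrix fun i j => ?_
  simp only [ZDrop_L_apply]
  exact continuous_const.mul (continuous_id.matrix_elem _ _)

/-- the homomorphism on all the continuous functions -/
noncomputable def ZDrop_Lam (p q a d : ℕ) :
    C(unitInterval, Matrix (Fin p × Fin q) (Fin p × Fin q) ℂ) →⋆ₐ[ℂ]
      C(unitInterval, Matrix (Fin (p * a) × Fin (q * d)) (Fin (p * a) × Fin (q * d)) ℂ) :=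
  ContinuousMap.compStarAlgHom unitInterval (ZDrop_L p q a d) (ZDrop_L_continuous p q a d)

theorem ZDrop_mem (p q a d : ℕ) (f : dimDrop p q) :
    ZDrop_Lam p q a d (f : C(unitInterval, Matrix (Fin p × Fin q) (Fin p × Fin q) ℂ)) ∈
      dimDrop (p * a) (q * d) := by
  obtain ⟨f, ⟨m, hm⟩, ⟨x, hx⟩⟩ := f
  refine ⟨⟨(kroneckerMap (· * ·) (1 : Matrix (Fin a) (Fin a) ℂ) m).submatrix
    (fun i => ((finProdFinEquiv.symm i).2, (finProdFinEquiv.symm i).1))
    (fun i => ((finProdFinEquiv.symm i).2, (finProdFinEquiv.symm i).1)), ?_⟩,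
    ⟨(kroneckerMap (· * ·) (1 : Matrix (Fin d) (Fin d) ℂ) x).submatrix
    (fun i => ((finProdFinEquiv.symm i).2, (finProdFinEquiv.symm i).1))
    (fun i => ((finProdFinEquiv.symm i).2, (finProdFinEquiv.symm i).1)), ?_⟩⟩
  · change ZDrop_L p q a d (f 0) = _
    rw [hm]
    ext ⟨i, j⟩ ⟨i', j'⟩
    rw [ZDrop_L_apply]
    obtain ⟨⟨i1, i2⟩, rfl⟩ := finProdFinEquiv.surjective i
    obtain ⟨⟨j1, j2⟩, rfl⟩ := finProdFinEquiv.surjective j
    obtain ⟨⟨i1', i2'⟩, rfl⟩ := finProdFinEquiv.surjective i'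
    obtain ⟨⟨j1', j2'⟩, rfl⟩ := finProdFinEquiv.surjective j'
    simp only [ZDrop_e, Equiv.coe_fn_mk, Equiv.symm_apply_apply, kroneckerMap_apply,
      submatrix_apply, one_apply, Prod.mk.injEq, EmbeddingLike.apply_eq_iff_eq]
    split_ifs <;> simp_all
  · change ZDrop_L p q a d (f 1) = _
    rw [hx]
    ext ⟨i, j⟩ ⟨i', j'⟩
    rw [ZDrop_L_apply]
    obtain ⟨⟨i1, i2⟩, rfl⟩ := finProdFinEquiv.surjective i
    obtain ⟨⟨j1, j2⟩, rfl⟩ := finProdFinEquiv.surjective j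
    obtain ⟨⟨i1', i2'⟩, rfl⟩ := finProdFinEquiv.surjective i'
    obtain ⟨⟨j1', j2'⟩, rfl⟩ := finProdFinEquiv.surjective j'
    simp only [ZDrop_e, Equiv.coe_fn_mk, Equiv.symm_apply_apply, kroneckerMap_apply,
      submatrix_apply, one_apply, Prod.mk.injEq, EmbeddingLike.apply_eq_iff_eq]
    split_ifs <;> simp_all

theorem exists_dimDrop_hom_of_dvd {p q p' q' : ℕ} (hp : p ∣ p') (hq : q ∣ q') :
    Nonempty (dimDrop p q →⋆ₐ[ℂ] dimDrop p' q') := by
  obtain ⟨a, rfl⟩ := hp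
  obtain ⟨d, rfl⟩ := hq
  exact ⟨((ZDrop_Lam p q a d).comp (dimDrop p q).subtype).codRestrict (dimDrop (p * a) (q * d))
    (fun f => ZDrop_mem p q a d f)⟩

theorem exists_dimDrop_hom_coprime {p q : ℕ} (hp : 1 ≤ p) (hq : 1 ≤ q)
    (hpq : Nat.Coprime p q) :
    ∃ n : ℕ, 1 ≤ n ∧ Nonempty (dimDrop p q →⋆ₐ[ℂ] dimDrop n (n + 1)) := by
  obtain ⟨k, hk1, hk2⟩ := Nat.chineseRemainder hpq 0 (q - 1)
  refine ⟨k + p * q, ?_, exists_dimDrop_hom_of_dvd ?_ ?_⟩
  · have : 1 ≤ p * q := Nat.mul_pos hp hq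
    omega
  · exact (Nat.dvd_add_left (Dvd.intro _ rfl)).mpr ((Nat.modEq_zero_iff_dvd).mp hk1)
  · have h1 : q ∣ k + 1 := by
      have h2 : k + 1 ≡ (q - 1) + 1 [MOD q] := Nat.ModEq.add_right 1 hk2
      rw [Nat.sub_add_cancel hq] at h2
      have h3 : q ≡ 0 [MOD q] := (Nat.modEq_zero_iff_dvd).mpr dvd_rfl
      exact (Nat.modEq_zero_iff_dvd).mp (h2.trans h3)
    have h4 : k + p * q + 1 = (k + 1) + p * q := by ring
    rw [h4]
    exact (Nat.dvd_add_left (Dvd.intro_left _ rfl)).mpr h1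

end P101
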