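import Mathlib.Algebra.Order.Ring.Star
import Mathlib.Analysis.CStarAlgebra.Hom
import Vale.Agent.Lib.P101.Base

/-!
# A one-sided approximate intertwining theorem

Let `i : A → B` be an injective unital *-homomorphism of separable C*-algebras such that for all
finite `S ⊆ A`, `T ⊆ B`, `ε > 0` there is a unitary `u ∈ B` with `‖u i(a) - i(a) u‖ < ε` (`a ∈ S`)
and `dist (u b u*, i(A)) < ε` (`b ∈ T`).  Then `A` and `B` are *-isomorphic.

Proof.  Let `a : ℕ → A`, `b : ℕ → B` have dense ranges.  Construct recursively unitaries `v_n ∈ B`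
(`v_0 = 1`) and finite sets: at stage `n`, apply the hypothesis with
`S_n = {a_0, …, a_n} ∪ {a_{m,k} : m, k ≤ n}` and
`T_n = {v_n* b_k v_n : k ≤ n}`, `ε = 2^{-n}`, to get `u_n`; so there are `a_{n+1,k}` with
`‖u_n v_n* b_k v_n u_n* - i(a_{n+1,k})‖ < 2^{-n}` for `k ≤ n`; put `v_{n+1} = v_n u_n*`.  Then
`‖v_{n+1} i(x) v_{n+1}* - v_n i(x) v_n*‖ = ‖u_n* i(x) u_n - i(x)‖ < 2^{-n}` for `x ∈ S_n`, so
`θ(x) = lim v_n i(x) v_n*` exists for `x` in the dense range of `a`, hence for all `x : A`
(isometries); `θ` is an isometric unital *-homomorphism, and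
`‖θ(a_{n+1,k}) - b_k‖ ≤ ‖θ(a_{n+1,k}) - v_{n+1} i(a_{n+1,k}) v_{n+1}*‖ +
‖v_{n+1} i(a_{n+1,k}) v_{n+1}* - b_k‖ ≤ 2^{-n} + 2^{-n}`-ish (as `a_{n+1,k} ∈ S_{n+1}`,
`∑_{m > n} 2^{-m} = 2^{-n}`), so the range of `θ` is dense; it is complete (isometry), so `θ` is
onto.  (Injective *-homomorphisms are isometric: `NonUnitalStarAlgHom.norm_map` or
`StarAlgHom.norm_map`-type lemma.)
-/

open scoped ENNReal Topology
open Filter Matrix

namespace P101

universe u

/-- Conjugation by a unitary preserves the norm. -/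
theorem zinter_norm_conj {B : Type u} [CStarAlgebra B] {v : B} (hv : v ∈ unitary B) (x : B) :
    ‖v * x * star v‖ = ‖x‖ := by
  have h1 : ‖v * x * star v‖ = ‖v * x‖ := by
    have : star v ∈ unitary B := Unitary.star_mem hv
    exact CStarRing.norm_mul_mem_unitary (v * x) this
  rw [h1]
  exact CStarRing.norm_mem_unitary_mul x hv

/-- One step of the recursion. -/
theorem zinter_step {A B : Type u} [CStarAlgebra A] [CStarAlgebra B] (i : A →⋆ₐ[ℂ] B)
    (h : ∀ (S : Finset A) (T : Finset B) (ε : ℝ), 0 < ε → ∃ u ∈ unitary B,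
      (∀ a ∈ S, ‖u * i a - i a * u‖ < ε) ∧ ∀ b ∈ T, ∃ a : A, ‖u * b * star u - i a‖ < ε)
    (a : ℕ → A) (b : ℕ → B) (n : ℕ) (s : (unitary B) × Finset A) :
    ∃ s' : (unitary B) × Finset A, s.2 ⊆ s'.2 ∧ a n ∈ s'.2 ∧
      (∀ x ∈ s.2, ‖(s'.1 : B) * i x * star (s'.1 : B) - (s.1 : B) * i x * star (s.1 : B)‖
        < (1 / 2 : ℝ) ^ n) ∧
      ∀ k ≤ n, ∃ c ∈ s'.2, ‖(s'.1 : B) * i c * star (s'.1 : B) - b k‖ < (1 / 2 : ℝ) ^ n := by
  classical
  obtain ⟨v, S⟩ := s
  have hv : (v : B) ∈ unitary B := v.2
  obtain ⟨u, hu, hu1, hu2⟩ := h S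
    ((Finset.range (n + 1)).image (fun k => star (v : B) * b k * (v : B))) ((1 / 2 : ℝ) ^ n)
    (by positivity)
  have hu3 : ∀ k : ℕ, ∃ c : A, k ≤ n → ‖u * (star (v : B) * b k * (v : B)) * star u - i c‖
      < (1 / 2 : ℝ) ^ n := by
    intro k
    by_cases hk : k ≤ n
    · obtain ⟨c, hc⟩ := hu2 (star (v : B) * b k * (v : B))
        (Finset.mem_image_of_mem _ (Finset.mem_range.2 (by omega)))
      exact ⟨c, fun _ => hc⟩
    · exact ⟨0, fun h => absurd h hk⟩
  choose c hc using hu3
  have hvu : (v : B) * star u ∈ unitary B := mul_mem hv (Unitary.star_mem hu)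
  have huu : star u * u = 1 := (Unitary.mem_iff.1 hu).1
  have huu' : u * star u = 1 := (Unitary.mem_iff.1 hu).2
  have hvv : star (v : B) * (v : B) = 1 := (Unitary.mem_iff.1 hv).1
  have hvv' : (v : B) * star (v : B) = 1 := (Unitary.mem_iff.1 hv).2
  refine ⟨(⟨(v : B) * star u, hvu⟩, insert (a n) (S ∪ (Finset.range (n + 1)).image c)), ?_, ?_, ?_,
    ?_⟩
  · intro x hx
    simp only [Finset.mem_insert, Finset.mem_union]
    exact Or.inr (Or.inl hx)
  · simp
  · intro x hx
    show ‖(v : B) * star u * i x * star ((v : B) * star u) - (v : B) * i x * star (v : B)‖ < _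
    have e1 : (v : B) * star u * i x * star ((v : B) * star u) - (v : B) * i x * star (v : B)
        = (v : B) * (star u * i x * u - i x) * star (v : B) := by
      rw [star_mul, star_star]
      noncomm_ring
    have e2 : star u * i x * u - i x = star u * (i x * u - u * i x) := by
      rw [mul_sub, ← mul_assoc (star u) u, huu, one_mul, ← mul_assoc]
    rw [e1, zinter_norm_conj hv, e2,
      CStarRing.norm_mem_unitary_mul _ (Unitary.star_mem hu), norm_sub_rev]
    exact hu1 x hx
  · intro k hk
    refine ⟨c k, ?_, ?_⟩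
    · simp only [Finset.mem_insert, Finset.mem_union, Finset.mem_image, Finset.mem_range]
      exact Or.inr (Or.inr ⟨k, by omega, rfl⟩)
    · show ‖(v : B) * star u * i (c k) * star ((v : B) * star u) - b k‖ < _
      have e3 : (v : B) * star u * (u * (star (v : B) * b k * (v : B)) * star u)
          * star ((v : B) * star u) = b k := by
        rw [star_mul, star_star]
        calc (v : B) * star u * (u * (star (v : B) * b k * (v : B)) * star u) * (u * star (v : B))
            = (v : B) * (star u * u) * (star (v : B) * b k * (v : B)) * (star u * u)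
              * star (v : B) := by noncomm_ring
          _ = ((v : B) * star (v : B)) * b k * ((v : B) * star (v : B)) := by
              rw [huu]; noncomm_ring
          _ = b k := by rw [hvv']; simp
      have e4 : (v : B) * star u * i (c k) * star ((v : B) * star u) - b k
          = ((v : B) * star u) * (i (c k) - u * (star (v : B) * b k * (v : B)) * star u)
            * star ((v : B) * star u) := by
        rw [mul_sub, sub_mul, e3]
      rw [e4, zinter_norm_conj hvu, norm_sub_rev]
      exact hc k hk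

theorem exists_equiv_of_approx {A B : Type u} [CStarAlgebra A] [CStarAlgebra B]
    [TopologicalSpace.SeparableSpace A] [TopologicalSpace.SeparableSpace B] (i : A →⋆ₐ[ℂ] B)
    (hi : Function.Injective i)
    (h : ∀ (S : Finset A) (T : Finset B) (ε : ℝ), 0 < ε → ∃ u ∈ unitary B,
      (∀ a ∈ S, ‖u * i a - i a * u‖ < ε) ∧ ∀ b ∈ T, ∃ a : A, ‖u * b * star u - i a‖ < ε) :
    Nonempty (A ≃⋆ₐ[ℂ] B) := by
  classical
  have hinorm : ∀ x, ‖i x‖ = ‖x‖ := fun x => NonUnitalStarAlgHom.norm_map i hi x
  set a : ℕ → A := TopologicalSpace.denseSeq A with ha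
  set b : ℕ → B := TopologicalSpace.denseSeq B with hb
  have hda : DenseRange a := TopologicalSpace.denseRange_denseSeq A
  have hdb : DenseRange b := TopologicalSpace.denseRange_denseSeq B
  choose st hst using fun (n : ℕ) (s : (unitary B) × Finset A) => zinter_step i h a b n s
  let s : ℕ → (unitary B) × Finset A := fun n => Nat.rec (1, ∅) (fun n s => st n s) n
  have hs : ∀ n, s (n + 1) = st n (s n) := fun n => rfl
  let θ : ℕ → A → B := fun n x => ((s n).1 : B) * i x * star ((s n).1 : B)
  have hvu : ∀ n, ((s n).1 : B) ∈ unitary B := fun n => (s n).1.2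
  have hv1 : ∀ n, star ((s n).1 : B) * ((s n).1 : B) = 1 := fun n => (Unitary.mem_iff.1 (hvu n)).1
  have hv2 : ∀ n, ((s n).1 : B) * star ((s n).1 : B) = 1 := fun n => (Unitary.mem_iff.1 (hvu n)).2
  have hmono : Monotone (fun n => (s n).2) := by
    refine monotone_nat_of_le_succ fun n => ?_
    rw [hs]
    exact (hst n (s n)).1
  have hamem : ∀ n, a n ∈ (s (n + 1)).2 := fun n => by
    rw [hs]; exact (hst n (s n)).2.1
  have hclose : ∀ n, ∀ x ∈ (s n).2, ‖θ (n + 1) x - θ n x‖ < (1 / 2 : ℝ) ^ n := fun n x hx => by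
    have := (hst n (s n)).2.2.1 x hx
    rw [← hs] at this
    exact this
  have hhit : ∀ n, ∀ k ≤ n, ∃ c ∈ (s (n + 1)).2, ‖θ (n + 1) c - b k‖ < (1 / 2 : ℝ) ^ n :=
    fun n k hk => by
      have := (hst n (s n)).2.2.2 k hk
      rw [← hs] at this
      exact this
  -- norm of θ n
  have hθsub : ∀ n x y, θ n x - θ n y = θ n (x - y) := by
    intro n x y
    simp only [θ, map_sub]
    rw [mul_sub, sub_mul]
  have hθnorm : ∀ n x, ‖θ n x‖ = ‖x‖ := by
    intro n x
    simp only [θ]
    rw [zinter_norm_conj (hvu n), hinorm]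
  -- geometric estimate
  have hgeo : ∀ n0, ∀ x ∈ (s n0).2, ∀ m, dist (θ (m + n0) x) (θ (m + 1 + n0) x)
      ≤ (1 / 2 : ℝ) ^ n0 * (1 / 2 : ℝ) ^ m := by
    intro n0 x hx m
    have hx' : x ∈ (s (m + n0)).2 := hmono (Nat.le_add_left n0 m) hx
    have h1 := (hclose (m + n0) x hx').le
    rw [dist_comm, dist_eq_norm]
    have e : m + 1 + n0 = m + n0 + 1 := by ring
    rw [e]
    refine h1.trans (le_of_eq ?_)
    rw [pow_add]
    ring
  have hcauchy0 : ∀ n0, ∀ x ∈ (s n0).2, CauchySeq (fun n => θ n x) := by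
    intro n0 x hx
    rw [← cauchySeq_shift n0]
    exact cauchySeq_of_le_geometric (1 / 2 : ℝ) ((1 / 2 : ℝ) ^ n0) (by norm_num) (hgeo n0 x hx)
  have hcauchy : ∀ x, CauchySeq (fun n => θ n x) := by
    intro x
    rw [Metric.cauchySeq_iff']
    intro ε hε
    obtain ⟨k, hk⟩ := hda.exists_dist_lt x (show (0 : ℝ) < ε / 3 by positivity)
    have hc := hcauchy0 (k + 1) (a k) (hamem k)
    rw [Metric.cauchySeq_iff'] at hc
    obtain ⟨N, hN⟩ := hc (ε / 3) (by positivity)
    refine ⟨N, fun n hn => ?_⟩
    have h1 : dist (θ n x) (θ n (a k)) < ε / 3 := by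
      rw [dist_eq_norm, hθsub, hθnorm, ← dist_eq_norm]; exact hk
    have h2 : dist (θ N (a k)) (θ N x) < ε / 3 := by
      rw [dist_comm, dist_eq_norm, hθsub, hθnorm, ← dist_eq_norm]; exact hk
    have h3 := hN n hn
    calc dist (θ n x) (θ N x) ≤ dist (θ n x) (θ n (a k)) + dist (θ n (a k)) (θ N (a k))
        + dist (θ N (a k)) (θ N x) := dist_triangle4 _ _ _ _
      _ < ε := by linarith
  choose Θ hΘ using fun x => cauchySeq_tendsto_of_complete (hcauchy x)
  have hΘnorm : ∀ x, ‖Θ x‖ = ‖x‖ := by
    intro x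
    refine tendsto_nhds_unique ((hΘ x).norm) ?_
    simp only [hθnorm]
    exact tendsto_const_nhds
  let F : A →⋆ₐ[ℂ] B :=
    { toFun := Θ
      map_one' := by
        refine tendsto_nhds_unique (hΘ 1) ?_
        have : (fun n => θ n 1) = fun _ => (1 : B) := by
          funext n
          simp only [θ, map_one, mul_one]
          exact hv2 n
        rw [this]
        exact tendsto_const_nhds
      map_mul' := by
        intro x y
        refine tendsto_nhds_unique (hΘ (x * y)) ?_
        have : (fun n => θ n (x * y)) = fun n => θ n x * θ n y := by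
          funext n
          simp only [θ, map_mul]
          calc ((s n).1 : B) * (i x * i y) * star ((s n).1 : B)
              = ((s n).1 : B) * i x * 1 * i y * star ((s n).1 : B) := by noncomm_ring
            _ = _ := by rw [← hv1 n]; noncomm_ring
        rw [this]
        exact (hΘ x).mul (hΘ y)
      map_zero' := by
        refine tendsto_nhds_unique (hΘ 0) ?_
        have : (fun n => θ n 0) = fun _ => (0 : B) := by
          funext n
          simp only [θ, map_zero, mul_zero, zero_mul]
        rw [this]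
        exact tendsto_const_nhds
      map_add' := by
        intro x y
        refine tendsto_nhds_unique (hΘ (x + y)) ?_
        have : (fun n => θ n (x + y)) = fun n => θ n x + θ n y := by
          funext n
          simp only [θ, map_add]
          noncomm_ring
        rw [this]
        exact (hΘ x).add (hΘ y)
      commutes' := by
        intro r
        refine tendsto_nhds_unique (hΘ _) ?_
        have : (fun n => θ n (algebraMap ℂ A r)) = fun _ => algebraMap ℂ B r := by
          funext n
          simp only [θ]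
          rw [AlgHomClass.commutes, ← Algebra.commutes, mul_assoc, hv2 n, mul_one]
        rw [this]
        exact tendsto_const_nhds
      map_star' := by
        intro x
        refine tendsto_nhds_unique (hΘ (star x)) ?_
        have : (fun n => θ n (star x)) = fun n => star (θ n x) := by
          funext n
          simp only [θ, map_star, star_mul, star_star, mul_assoc]
        rw [this]
        exact (hΘ x).star }
  have hFΘ : ∀ x, F x = Θ x := fun x => rfl
  have hFiso : Isometry F := by
    refine AddMonoidHomClass.isometry_of_norm F fun x => ?_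
    rw [hFΘ, hΘnorm]
  have hFinj : Function.Injective F := hFiso.injective
  have hclosed : IsClosed (Set.range F) := hFiso.isClosedEmbedding.isClosed_range
  have hbmem : ∀ k, b k ∈ Set.range F := by
    intro k
    rw [← hclosed.closure_eq, Metric.mem_closure_iff]
    intro ε hε
    obtain ⟨n, hn⟩ := exists_pow_lt_of_lt_one (show (0 : ℝ) < ε / 3 by positivity)
      (show (1 / 2 : ℝ) < 1 by norm_num)
    obtain ⟨c, hc, hc2⟩ := hhit (n + k) k (Nat.le_add_left k n)
    refine ⟨F c, ⟨c, rfl⟩, ?_⟩
    have h1 : dist (θ (0 + (n + k + 1)) c) (Θ c)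
        ≤ (1 / 2 : ℝ) ^ (n + k + 1) * (1 / 2 : ℝ) ^ 0 / (1 - 1 / 2) := by
      have ht : Tendsto (fun m => θ (m + (n + k + 1)) c) atTop (𝓝 (Θ c)) :=
        (tendsto_add_atTop_iff_nat (f := fun m => θ m c) (n + k + 1)).2 (hΘ c)
      exact dist_le_of_le_geometric_of_tendsto (1 / 2 : ℝ) ((1 / 2 : ℝ) ^ (n + k + 1))
        (by norm_num) (hgeo (n + k + 1) c hc) ht 0
    rw [zero_add] at h1
    have h2 : (1 / 2 : ℝ) ^ (n + k) ≤ (1 / 2 : ℝ) ^ n :=
      pow_le_pow_of_le_one (by norm_num) (by norm_num) (Nat.le_add_right n k)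
    have h3 : (1 / 2 : ℝ) ^ (n + k + 1) * (1 / 2 : ℝ) ^ 0 / (1 - 1 / 2) = (1 / 2 : ℝ) ^ (n + k) := by
      rw [pow_succ, pow_zero]; ring
    rw [h3] at h1
    rw [hFΘ]
    calc dist (b k) (Θ c) ≤ dist (b k) (θ (n + k + 1) c) + dist (θ (n + k + 1) c) (Θ c) :=
          dist_triangle _ _ _
      _ < ε := by
          rw [dist_comm (b k), dist_eq_norm]
          linarith
  have hsurj : Function.Surjective F := by
    intro y
    have : y ∈ closure (Set.range F) := by
      refine closure_mono ?_ (hdb y)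
      rintro _ ⟨k, rfl⟩
      exact hbmem k
    rwa [hclosed.closure_eq] at this
  exact ⟨StarAlgEquiv.ofBijective F ⟨hFinj, hsurj⟩⟩

end P101
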