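import Mathlib.RingTheory.Flat.Basic
import Vale.Agent.Lib.P101.ZApprox
import Vale.Agent.Lib.P101.ZInter
import Vale.Agent.Lib.P101.ZDrop
import Vale.Agent.Lib.P101.Final

/-!
# `A ≅ A ⊗ Z`

**Proof of `absorbs_of_hom`.**  `i : A → B`, `j : Z → B` from `IsCStarTensorProduct`.  `i` is
injective: `i a = (lift …) (a ⊗ 1)`, and `a ⊗ 1 = 0` implies `a = 0` as `Z` is nontrivial (a linear
functional with value `1` at `1`; or faithful flatness over a field).  `B` is separable: it is the
closure of the span of the products `i(a) j(z)`, with `A`, `Z` separable.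
Hypothesis of `exists_equiv_of_approx`: given finite `S ⊆ A`, `T ⊆ B`, `ε`; approximate each `b ∈ T`
by `∑_k i(a_k) j(z_k)` within `ε/4`; apply `exists_unitary_approx` with `S' = S ∪ {a_k}`,
`T' = {z_k}` and a small `δ`: `u i(a_k) j(z_k) u* = u i(a_k) u* u j(z_k) u* ≈ i(a_k) i(a'_k)`.
-/

open scoped ENNReal Topology
open Filter Matrix

namespace P101

universe u

/-- `b` is approximately moved into `i(A)` by unitaries which approximately commute with `i(A)` and
move `j(Z)` approximately into `i(A)` -/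
def ApproxMoved {A Z B : Type u} [CStarAlgebra A] [CStarAlgebra Z] [CStarAlgebra B]
    (i : A →⋆ₐ[ℂ] B) (j : Z →⋆ₐ[ℂ] B) (η : ℝ) (b : B) : Prop :=
  ∃ (S : Finset A) (T : Finset Z) (δ : ℝ), 0 < δ ∧ ∀ u ∈ unitary B,
    (∀ a ∈ S, ‖u * i a - i a * u‖ < δ) → (∀ z ∈ T, ∃ a : A, ‖u * j z * star u - i a‖ < δ) →
    ∃ a, ‖u * b * star u - i a‖ < η

section

variable {A Z B : Type u} [CStarAlgebra A] [CStarAlgebra Z] [CStarAlgebra B]
    (i : A →⋆ₐ[ℂ] B) (j : Z →⋆ₐ[ℂ] B)

theorem ApproxMoved.zero {η : ℝ} (hη : 0 < η) : ApproxMoved i j η 0 :=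
  ⟨∅, ∅, 1, one_pos, fun u _ _ _ => ⟨0, by simpa using hη⟩⟩

theorem ApproxMoved.mul {η : ℝ} (hη : 0 < η) (a : A) (z : Z) :
    ApproxMoved i j η (i a * j z) := by
  refine ⟨{a}, {z}, η / (‖j z‖ + ‖i a‖ + 1), by positivity, fun u hu h1 h2 => ?_⟩
  obtain ⟨a', ha'⟩ := h2 z (Finset.mem_singleton_self z)
  have h1 := h1 a (Finset.mem_singleton_self a)
  set δ := η / (‖j z‖ + ‖i a‖ + 1) with hδ
  have hδ0 : 0 < δ := by positivity
  have hsu : star u ∈ unitary B := Unitary.star_mem hu
  have huu : star u * u = 1 := Unitary.star_mul_self_of_mem hu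
  have huu' : u * star u = 1 := Unitary.mul_star_self_of_mem hu
  refine ⟨a * a', ?_⟩
  have e : u * (i a * j z) * star u - i (a * a') =
      (u * i a - i a * u) * (j z * star u) + i a * (u * j z * star u - i a') := by
    rw [map_mul]
    noncomm_ring
  rw [e]
  have n1 : ‖j z * star u‖ = ‖j z‖ := CStarRing.norm_mul_mem_unitary _ hsu
  have hδη : δ * (‖j z‖ + ‖i a‖ + 1) = η := by
    rw [hδ]
    field_simp
  calc ‖(u * i a - i a * u) * (j z * star u) + i a * (u * j z * star u - i a')‖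
      ≤ ‖(u * i a - i a * u) * (j z * star u)‖ + ‖i a * (u * j z * star u - i a')‖ :=
        norm_add_le _ _
    _ ≤ ‖u * i a - i a * u‖ * ‖j z * star u‖ + ‖i a‖ * ‖u * j z * star u - i a'‖ :=
        add_le_add (norm_mul_le _ _) (norm_mul_le _ _)
    _ ≤ δ * ‖j z‖ + ‖i a‖ * δ := by
        rw [n1]
        gcongr
    _ < δ * (‖j z‖ + ‖i a‖ + 1) := by nlinarith
    _ = η := hδη

theorem ApproxMoved.add {η : ℝ} {b b' : B} (h : ApproxMoved i j (η / 2) b)
    (h' : ApproxMoved i j (η / 2) b') : ApproxMoved i j η (b + b') := by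
  classical
  obtain ⟨S, T, δ, hδ, h⟩ := h
  obtain ⟨S', T', δ', hδ', h'⟩ := h'
  refine ⟨S ∪ S', T ∪ T', min δ δ', lt_min hδ hδ', fun u hu h1 h2 => ?_⟩
  obtain ⟨a, ha⟩ := h u hu (fun a ha => (h1 a (Finset.mem_union_left _ ha)).trans_le
    (min_le_left _ _)) (fun z hz => by
      obtain ⟨a, ha⟩ := h2 z (Finset.mem_union_left _ hz)
      exact ⟨a, ha.trans_le (min_le_left _ _)⟩)
  obtain ⟨a', ha'⟩ := h' u hu (fun a ha => (h1 a (Finset.mem_union_right _ ha)).trans_le
    (min_le_right _ _)) (fun z hz => by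
      obtain ⟨a, ha⟩ := h2 z (Finset.mem_union_right _ hz)
      exact ⟨a, ha.trans_le (min_le_right _ _)⟩)
  refine ⟨a + a', ?_⟩
  have e : u * (b + b') * star u - i (a + a') =
      (u * b * star u - i a) + (u * b' * star u - i a') := by
    rw [map_add]
    noncomm_ring
  rw [e]
  calc _ ≤ ‖u * b * star u - i a‖ + ‖u * b' * star u - i a'‖ := norm_add_le _ _
    _ < η / 2 + η / 2 := add_lt_add ha ha'
    _ = η := by ring

theorem ApproxMoved.of_near {η : ℝ} {b b' : B} (h : ApproxMoved i j (η / 2) b)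
    (h' : ‖b' - b‖ < η / 2) : ApproxMoved i j η b' := by
  obtain ⟨S, T, δ, hδ, h⟩ := h
  refine ⟨S, T, δ, hδ, fun u hu h1 h2 => ?_⟩
  obtain ⟨a, ha⟩ := h u hu h1 h2
  refine ⟨a, ?_⟩
  have hsu : star u ∈ unitary B := Unitary.star_mem hu
  have e : u * b' * star u - i a = u * (b' - b) * star u + (u * b * star u - i a) := by
    noncomm_ring
  have n1 : ‖u * (b' - b) * star u‖ = ‖b' - b‖ := by
    rw [CStarRing.norm_mul_mem_unitary _ hsu, CStarRing.norm_mem_unitary_mul _ hu]
  rw [e]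
  calc _ ≤ ‖u * (b' - b) * star u‖ + ‖u * b * star u - i a‖ := norm_add_le _ _
    _ < η / 2 + η / 2 := by
        rw [n1]
        exact add_lt_add h' ha
    _ = η := by ring

theorem ApproxMoved.of_dense
    (hd : DenseRange (TensorProduct.lift
      ((LinearMap.mul ℂ B).compl₁₂ i.toAlgHom.toLinearMap j.toAlgHom.toLinearMap)))
    {η : ℝ} (hη : 0 < η) (b : B) : ApproxMoved i j η b := by
  set L := TensorProduct.lift
      ((LinearMap.mul ℂ B).compl₁₂ i.toAlgHom.toLinearMap j.toAlgHom.toLinearMap) with hL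
  have h1 : ∀ (t : TensorProduct ℂ A Z) (η : ℝ), 0 < η → ApproxMoved i j η (L t) := by
    intro t
    induction t using TensorProduct.induction_on with
    | zero =>
      intro η hη
      rw [map_zero]
      exact ApproxMoved.zero i j hη
    | tmul a z =>
      intro η hη
      exact ApproxMoved.mul i j hη a z
    | add x y hx hy =>
      intro η hη
      rw [map_add]
      exact ApproxMoved.add i j (hx (η / 2) (half_pos hη)) (hy (η / 2) (half_pos hη))
  obtain ⟨t, ht⟩ := hd.exists_dist_lt b (half_pos hη)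
  refine ApproxMoved.of_near i j (h1 t (η / 2) (half_pos hη)) ?_
  rwa [← dist_eq_norm]

theorem approxMoved_finset
    (hd : DenseRange (TensorProduct.lift
      ((LinearMap.mul ℂ B).compl₁₂ i.toAlgHom.toLinearMap j.toAlgHom.toLinearMap)))
    {η : ℝ} (hη : 0 < η) (R : Finset B) :
    ∃ (S : Finset A) (T : Finset Z) (δ : ℝ), 0 < δ ∧ ∀ u ∈ unitary B,
    (∀ a ∈ S, ‖u * i a - i a * u‖ < δ) → (∀ z ∈ T, ∃ a : A, ‖u * j z * star u - i a‖ < δ) →
    ∀ b ∈ R, ∃ a, ‖u * b * star u - i a‖ < η := by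
  classical
  induction R using Finset.induction_on with
  | empty => exact ⟨∅, ∅, 1, one_pos, fun u _ _ _ b hb => absurd hb (Finset.notMem_empty b)⟩
  | insert b R _ ih =>
    obtain ⟨S, T, δ, hδ, h⟩ := ih
    obtain ⟨S', T', δ', hδ', h'⟩ := ApproxMoved.of_dense i j hd hη b
    refine ⟨S ∪ S', T ∪ T', min δ δ', lt_min hδ hδ', fun u hu h1 h2 c hc => ?_⟩
    rcases Finset.mem_insert.1 hc with rfl | hc
    · exact h' u hu (fun a ha => (h1 a (Finset.mem_union_right _ ha)).trans_le
        (min_le_right _ _)) (fun z hz => by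
          obtain ⟨a, ha⟩ := h2 z (Finset.mem_union_right _ hz)
          exact ⟨a, ha.trans_le (min_le_right _ _)⟩)
    · exact h u hu (fun a ha => (h1 a (Finset.mem_union_left _ ha)).trans_le
        (min_le_left _ _)) (fun z hz => by
          obtain ⟨a, ha⟩ := h2 z (Finset.mem_union_left _ hz)
          exact ⟨a, ha.trans_le (min_le_left _ _)⟩) c hc

theorem separable_of_tensor [TopologicalSpace.SeparableSpace A] [TopologicalSpace.SeparableSpace Z]
    (hd : DenseRange (TensorProduct.lift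
      ((LinearMap.mul ℂ B).compl₁₂ i.toAlgHom.toLinearMap j.toAlgHom.toLinearMap))) :
    TopologicalSpace.SeparableSpace B := by
  have hi : Continuous i := by
    have := NonUnitalStarAlgHom.norm_apply_le i
    exact AddMonoidHomClass.continuous_of_bound i 1 (fun x => by simpa using this x)
  have hj : Continuous j := by
    have := NonUnitalStarAlgHom.norm_apply_le j
    exact AddMonoidHomClass.continuous_of_bound j 1 (fun x => by simpa using this x)
  have h1 : TopologicalSpace.IsSeparable (Set.range fun p : A × Z => i p.1 * j p.2) :=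
    TopologicalSpace.isSeparable_range (by fun_prop)
  have h2 := (h1.span (R := ℂ)).closure
  have h3 : closure (Submodule.span ℂ (Set.range fun p : A × Z => i p.1 * j p.2) : Set B) =
      Set.univ := by
    refine Set.eq_univ_of_univ_subset ?_
    rw [← hd.closure_range]
    refine closure_mono ?_
    rintro _ ⟨t, rfl⟩
    induction t using TensorProduct.induction_on with
    | zero =>
      rw [map_zero]
      exact Submodule.zero_mem _
    | tmul a z => exact Submodule.subset_span ⟨(a, z), rfl⟩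
    | add x y hx hy =>
      rw [map_add]
      exact Submodule.add_mem _ hx hy
  rw [h3] at h2
  exact TopologicalSpace.isSeparable_univ_iff.1 h2

theorem injective_of_tensor [Nontrivial Z]
    (hinj : Function.Injective (TensorProduct.lift
      ((LinearMap.mul ℂ B).compl₁₂ i.toAlgHom.toLinearMap j.toAlgHom.toLinearMap))) :
    Function.Injective i := by
  rw [injective_iff_map_eq_zero]
  intro a ha
  have h1 : TensorProduct.lift
      ((LinearMap.mul ℂ B).compl₁₂ i.toAlgHom.toLinearMap j.toAlgHom.toLinearMap)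
      (a ⊗ₜ[ℂ] (1 : Z)) = 0 := by
    rw [TensorProduct.lift.tmul]
    change i a * j 1 = 0
    rw [ha, zero_mul]
  have h2 : a ⊗ₜ[ℂ] (1 : Z) = 0 := hinj (by rw [h1, map_zero])
  have h3 : Function.Injective (Algebra.TensorProduct.includeLeft : A →ₐ[ℂ] TensorProduct ℂ A Z) :=
    Algebra.TensorProduct.includeLeft_injective (S := ℂ) (algebraMap ℂ Z).injective
  apply h3
  rw [map_zero]
  exact h2

end

theorem absorbs_of_hom (ω : Ultrafilter ℕ) {A Z B : Type u} [CStarAlgebra A]
    [CStarAlgebra Z] [CStarAlgebra B] [Nontrivial A] [Nontrivial Z] [Nontrivial (FOmega ω A)]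
    [TopologicalSpace.SeparableSpace A] [TopologicalSpace.SeparableSpace Z]
    (hZ : ApproxInnerHalfFlip Z) (θ : Z →⋆ₐ[ℂ] Ultrapower ω (FOmega ω A))
    (hB : IsCStarTensorProduct A Z B) : Nonempty (A ≃⋆ₐ[ℂ] B) := by
  classical
  obtain ⟨i, j, hij, hinj, hd⟩ := hB
  have hi := injective_of_tensor i j hinj
  have : Nontrivial B := hi.nontrivial
  have := separable_of_tensor i j hd
  refine exists_equiv_of_approx i hi fun S T ε hε => ?_
  obtain ⟨S', T', δ, hδ, h⟩ := approxMoved_finset i j hd hε T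
  obtain ⟨u, hu, h1, h2⟩ := exists_unitary_approx ω hZ θ i j hij (S ∪ S') T' (lt_min hε hδ)
  refine ⟨u, hu, fun a ha => (h1 a (Finset.mem_union_left _ ha)).trans_le (min_le_left _ _), ?_⟩
  refine h u hu (fun a ha => (h1 a (Finset.mem_union_right _ ha)).trans_le (min_le_right _ _))
    fun z hz => ?_
  obtain ⟨a, ha⟩ := h2 z hz
  exact ⟨a, ha.trans_le (min_le_right _ _)⟩

instance fOmega_nontrivial (ω : Ultrafilter ℕ) (A : Type u) [CStarAlgebra A] [Nontrivial A] :
    Nontrivial (FOmega ω A) :=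
  ⟨⟨0, 1, fun h => zero_ne_one (α := Ultrapower ω A) (congrArg Subtype.val h)⟩⟩

/-- a trivial algebra receives no unital *-homomorphism... : `Z` is nontrivial because it contains
a copy of a dimension drop algebra `dimDrop p q`, `p, q ≥ 1`, in which `0 ≠ 1`. -/
theorem nontrivial_of_limit (Z : Type u) [CStarAlgebra Z] (hZ : IsLimitOfPrimeDimDrops Z) :
    Nontrivial Z := by
  obtain ⟨B, -, -, hB⟩ := hZ
  obtain ⟨-, p, q, hp, hq, -, ⟨e⟩⟩ := hB 0
  have h01 : (0 : dimDrop p q) ≠ 1 := by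
    intro h
    have h1 : ((0 : dimDrop p q) : C(unitInterval, Matrix (Fin p × Fin q) (Fin p × Fin q) ℂ)) =
      ((1 : dimDrop p q) : C(unitInterval, Matrix (Fin p × Fin q) (Fin p × Fin q) ℂ)) := by rw [h]
    have h2 := congrArg (fun f : C(unitInterval, Matrix (Fin p × Fin q) (Fin p × Fin q) ℂ) =>
      f 0 (⟨0, hp⟩, ⟨0, hq⟩) (⟨0, hp⟩, ⟨0, hq⟩)) h1
    simp at h2
  refine ⟨⟨0, 1, fun h => h01 ?_⟩⟩
  have h1 : (0 : B 0) = 1 := Subtype.ext h
  rw [← map_zero e, ← map_one e, h1]

theorem jiangSu_absorption (ω : Ultrafilter ℕ) (hω : (ω : Filter ℕ) ≤ Filter.cofinite)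
    {A Z B : Type u} [CStarAlgebra A] [CStarAlgebra Z] [CStarAlgebra B] [Nontrivial A]
    [TopologicalSpace.SeparableSpace A] (h : IsEmpty (FOmega ω A →⋆ₐ[ℂ] ℂ))
    (hZ : IsJiangSuLike Z) (hB : IsCStarTensorProduct A Z B) : Nonempty (A ≃⋆ₐ[ℂ] B) := by
  haveI := hZ.separable
  haveI : Nontrivial Z := nontrivial_of_limit Z hZ.limit
  have hF : ∀ p q : ℕ, 1 ≤ p → 1 ≤ q → Nat.Coprime p q →
      Nonempty (dimDrop p q →⋆ₐ[ℂ] FOmega ω A) := by
    intro p q hp hq hpq
    obtain ⟨n, hn, ⟨f⟩⟩ := exists_dimDrop_hom_coprime hp hq hpq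
    obtain ⟨g⟩ := (main_iff ω hω A).1 h n hn
    exact ⟨g.comp f⟩
  obtain ⟨θ⟩ := exists_hom_of_limit ω hω Z hZ.limit hF
  exact absorbs_of_hom ω hZ.flip θ hB

end P101
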