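import Mathlib.Analysis.Normed.Lp.LpEquiv
import Vale.Agent.Lib.P101.Stmt
import Vale.Agent.Lib.P101.ZFinal

/-!
# Transfer to the definitions of the statement
-/

open scoped ENNReal Topology TensorProduct BoundedContinuousFunction
open Filter Matrix

namespace P101

universe u

section Equiv

/-- two surjective *-homomorphisms with the same kernel have isomorphic targets. -/
theorem exists_equiv_of_ker {R S T : Type*} [Ring R] [StarRing R] [Algebra ℂ R]
    [Ring S] [StarRing S] [Algebra ℂ S] [Ring T] [StarRing T] [Algebra ℂ T]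
    (f : R →⋆ₐ[ℂ] S) (g : R →⋆ₐ[ℂ] T) (hf : Function.Surjective f) (hg : Function.Surjective g)
    (h : ∀ a, f a = 0 ↔ g a = 0) : ∃ e : S ≃⋆ₐ[ℂ] T, ∀ a, e (f a) = g a := by
  have hfg : ∀ a b, f a = f b → g a = g b := by
    intro a b hab
    have h1 : f (a - b) = 0 := by rw [map_sub, hab, sub_self]
    have h2 := (h _).1 h1
    rwa [map_sub, sub_eq_zero] at h2
  have hgf : ∀ a b, g a = g b → f a = f b := by
    intro a b hab
    have h1 : g (a - b) = 0 := by rw [map_sub, hab, sub_self]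
    have h2 := (h _).2 h1
    rwa [map_sub, sub_eq_zero] at h2
  let s : S → R := Function.surjInv hf
  have hs : ∀ x, f (s x) = x := Function.surjInv_eq hf
  let φ : S →⋆ₐ[ℂ] T :=
    { toFun := fun x => g (s x)
      map_one' := by
        rw [← map_one g]
        exact hfg _ _ (by rw [hs, map_one])
      map_mul' := fun x y => by
        rw [← map_mul g]
        exact hfg _ _ (by rw [hs, map_mul, hs, hs])
      map_zero' := by
        rw [← map_zero g]
        exact hfg _ _ (by rw [hs, map_zero])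
      map_add' := fun x y => by
        rw [← map_add g]
        exact hfg _ _ (by rw [hs, map_add, hs, hs])
      commutes' := fun r => by
        rw [← AlgHomClass.commutes g r]
        exact hfg _ _ (by rw [hs, AlgHomClass.commutes])
      map_star' := fun x => by
        rw [← map_star g]
        exact hfg _ _ (by rw [hs, map_star, hs]) }
  have hφ : ∀ a, φ (f a) = g a := fun a => hfg _ _ (hs _)
  have hbij : Function.Bijective φ := by
    constructor
    · intro x y hxy
      obtain ⟨a, rfl⟩ := hf x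
      obtain ⟨b, rfl⟩ := hf y
      rw [hφ, hφ] at hxy
      exact hgf _ _ hxy
    · intro t
      obtain ⟨a, rfl⟩ := hg t
      exact ⟨f a, hφ a⟩
  exact ⟨StarAlgEquiv.ofBijective φ hbij, hφ⟩

/-- a bounded function as an element of `lp`. -/
noncomputable def bcfToLp (A : Type u) [CStarAlgebra A] [Nontrivial A] :
    (ℕ →ᵇ A) →⋆ₐ[ℂ] lp (fun _ : ℕ => A) ∞ where
  toFun f := (AlgEquiv.lpBCF ℕ ℂ).symm f
  map_one' := map_one _
  map_mul' := map_mul _
  map_zero' := map_zero _
  map_add' := map_add _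
  commutes' r := AlgHomClass.commutes (AlgEquiv.lpBCF ℕ ℂ).symm r
  map_star' f := by
    ext n
    rfl

theorem bcfToLp_surjective (A : Type u) [CStarAlgebra A] [Nontrivial A] :
    Function.Surjective (bcfToLp A) :=
  fun x => ⟨AlgEquiv.lpBCF ℕ ℂ x, (AlgEquiv.lpBCF ℕ ℂ).symm_apply_apply x⟩

theorem bcfToLp_apply {A : Type u} [CStarAlgebra A] [Nontrivial A] (f : ℕ →ᵇ A) (n : ℕ) :
    bcfToLp A f n = f n := rfl

/-- the quotient map onto the concrete ultrapower -/
noncomputable def ultraMap (ω : Ultrafilter ℕ) (A : Type u) [CStarAlgebra A] [Nontrivial A] :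
    (ℕ →ᵇ A) →⋆ₐ[ℂ] Ultrapower ω A :=
  (toUltrapower ω A).comp (bcfToLp A)

theorem isUltrapowerMap_ultraMap (ω : Ultrafilter ℕ) (A : Type u) [CStarAlgebra A]
    [Nontrivial A] : IsUltrapowerMap ω (ultraMap ω A) := by
  refine ⟨(quotMk_surjective (cNull ω A)).comp (bcfToLp_surjective A), fun a => ?_⟩
  have h1 : ultraMap ω A a = 0 ↔ bcfToLp A a ∈ cNull ω A := quotMk_eq_zero_iff (cNull ω A) _
  rw [h1, mem_cNull]
  rfl

end Equiv

section Central

variable {ω : Ultrafilter ℕ} {A U : Type u} [CStarAlgebra A] [Nontrivial A] [CStarAlgebra U]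

/-- the concrete ultrapower is isomorphic to any abstract one. -/
theorem exists_ultra_equiv {q : (ℕ →ᵇ A) →⋆ₐ[ℂ] U} (hq : IsUltrapowerMap ω q) :
    ∃ e : Ultrapower ω A ≃⋆ₐ[ℂ] U, ∀ a, e (ultraMap ω A a) = q a := by
  have h0 := isUltrapowerMap_ultraMap ω A
  exact exists_equiv_of_ker (ultraMap ω A) q h0.1 hq.1 fun a => (h0.2 a).trans (hq.2 a).symm

theorem ultraMap_const (a : A) :
    ultraMap ω A (BoundedContinuousFunction.const ℕ a) = toUltrapower ω A (constSeq A a) := by
  have h : bcfToLp A (BoundedContinuousFunction.const ℕ a) = constSeq A a := by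
    ext n
    rfl
  change toUltrapower ω A (bcfToLp A _) = _
  rw [h]

theorem mem_centralSeq {x : Ultrapower ω A} :
    x ∈ centralSeq ω A ↔ ∀ a : A,
      toUltrapower ω A (constSeq A a) * x = x * toUltrapower ω A (constSeq A a) := by
  rw [centralSeq, StarSubalgebra.mem_centralizer_iff]
  constructor
  · intro h a
    exact (h _ ⟨a, rfl⟩).1
  · rintro h _ ⟨a, rfl⟩
    refine ⟨h a, ?_⟩
    have h1 : star (toUltrapower ω A (constSeq A a)) = toUltrapower ω A (constSeq A (star a)) := by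
      rw [← map_star]
      rfl
    rw [h1]
    exact h _

theorem mem_centralAlg {q : (ℕ →ᵇ A) →⋆ₐ[ℂ] U} {x : U} :
    x ∈ centralAlg q ↔ ∀ a : A, q (BoundedContinuousFunction.const ℕ a) * x =
      x * q (BoundedContinuousFunction.const ℕ a) := by
  rw [centralAlg, StarSubalgebra.mem_centralizer_iff]
  constructor
  · intro h a
    exact (h _ ⟨a, rfl⟩).1
  · rintro h _ ⟨a, rfl⟩
    refine ⟨h a, ?_⟩
    have h1 : star (q (BoundedContinuousFunction.const ℕ a)) =
        q (BoundedContinuousFunction.const ℕ (star a)) := by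
      rw [← map_star]
      rfl
    rw [h1]
    exact h _

theorem exists_central_homs {q : (ℕ →ᵇ A) →⋆ₐ[ℂ] U} (hq : IsUltrapowerMap ω q) :
    Nonempty (FOmega ω A →⋆ₐ[ℂ] centralAlg q) ∧ Nonempty (centralAlg q →⋆ₐ[ℂ] FOmega ω A) := by
  obtain ⟨e, he⟩ := exists_ultra_equiv hq
  have hc : ∀ a : A, e (toUltrapower ω A (constSeq A a)) =
      q (BoundedContinuousFunction.const ℕ a) := fun a => by rw [← he, ultraMap_const]
  have hc' : ∀ a : A, e.symm (q (BoundedContinuousFunction.const ℕ a)) =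
      toUltrapower ω A (constSeq A a) := fun a => by
    rw [← hc]
    exact e.symm_apply_apply _
  constructor
  · refine ⟨StarAlgHom.codRestrict
      ((e : Ultrapower ω A →⋆ₐ[ℂ] U).comp (centralSeq ω A).subtype) (centralAlg q) ?_⟩
    rintro ⟨x, hx⟩
    rw [mem_centralAlg]
    intro a
    have h1 := mem_centralSeq.1 hx a
    change q _ * e x = e x * q _
    rw [← hc, ← map_mul, ← map_mul, h1]
  · refine ⟨StarAlgHom.codRestrict
      ((e.symm : U →⋆ₐ[ℂ] Ultrapower ω A).comp (centralAlg q).subtype) (centralSeq ω A) ?_⟩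
    rintro ⟨x, hx⟩
    rw [mem_centralSeq]
    intro a
    have h1 := mem_centralAlg.1 hx a
    change _ * e.symm x = e.symm x * _
    rw [← hc', ← map_mul, ← map_mul, h1]

theorem isEmpty_characters_iff {q : (ℕ →ᵇ A) →⋆ₐ[ℂ] U} (hq : IsUltrapowerMap ω q) :
    IsEmpty (centralAlg q →⋆ₐ[ℂ] ℂ) ↔ IsEmpty (FOmega ω A →⋆ₐ[ℂ] ℂ) := by
  obtain ⟨⟨f⟩, ⟨g⟩⟩ := exists_central_homs hq
  exact ⟨fun h => ⟨fun χ => h.false (χ.comp g)⟩, fun h => ⟨fun χ => h.false (χ.comp f)⟩⟩

theorem nonempty_hom_iff {q : (ℕ →ᵇ A) →⋆ₐ[ℂ] U} (hq : IsUltrapowerMap ω q) (n m : ℕ) :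
    Nonempty (dimDrop n m →⋆ₐ[ℂ] centralAlg q) ↔ Nonempty (dimDrop n m →⋆ₐ[ℂ] FOmega ω A) := by
  obtain ⟨⟨f⟩, ⟨g⟩⟩ := exists_central_homs hq
  exact ⟨fun ⟨h⟩ => ⟨g.comp h⟩, fun ⟨h⟩ => ⟨f.comp h⟩⟩

end Central

end P101
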