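import Vale.Agent.Lib.P101.CopiesA

/-!
# Functoriality of the ultrapower
-/

open scoped ENNReal Topology
open Filter Matrix

namespace P101

universe u v

/-- a *-homomorphism applied to every term of a bounded sequence (`‖f x‖ ≤ ‖x‖` for a
*-homomorphism between C*-algebras). -/
noncomputable def lpMap {A : Type u} {B : Type v} [CStarAlgebra A] [Nontrivial A] [CStarAlgebra B]
    [Nontrivial B] (f : A →⋆ₐ[ℂ] B) :
    lp (fun _ : ℕ => A) ∞ →⋆ₐ[ℂ] lp (fun _ : ℕ => B) ∞ where
  toFun x := ⟨fun n => f (x n), memℓp_infty ⟨‖x‖, by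
    rintro _ ⟨n, rfl⟩
    exact (NonUnitalStarAlgHom.norm_apply_le f (x n)).trans
      (lp.norm_apply_le_norm (by simp) x n)⟩⟩
  map_one' := by ext n; exact map_one f
  map_mul' := fun x y => by ext n; exact map_mul f (x n) (y n)
  map_zero' := by ext n; exact map_zero f
  map_add' := fun x y => by ext n; exact map_add f (x n) (y n)
  commutes' := fun z => by ext n; exact AlgHomClass.commutes f z
  map_star' := fun x => by ext n; exact StarHomClass.map_star f (x n)

/-- the map induced on ultrapowers: well defined since `‖f (x n)‖ ≤ ‖x n‖` (`Ideal.Quotient.lift`,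
`Ideal.Quotient.liftₐ`; `Ultrapower ω A` is by definition the quotient and `toUltrapower` is the
quotient map `quotMk`). -/
theorem exists_ultraMap (ω : Ultrafilter ℕ) {A : Type u} {B : Type v} [CStarAlgebra A]
    [Nontrivial A] [CStarAlgebra B] [Nontrivial B] (f : A →⋆ₐ[ℂ] B) :
    ∃ g : Ultrapower ω A →⋆ₐ[ℂ] Ultrapower ω B,
      ∀ x, g (toUltrapower ω A x) = toUltrapower ω B (lpMap f x) := by
  classical
  have hsurj : Function.Surjective (toUltrapower ω A) := quotMk_surjective (cNull ω A)
  have hzero : ∀ x : lp (fun _ : ℕ => A) ∞, toUltrapower ω A x = 0 →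
      toUltrapower ω B (lpMap f x) = 0 := by
    intro x hx
    have h1 : Tendsto (fun n => ‖x n‖) (ω : Filter ℕ) (𝓝 0) :=
      (mem_cNull ω A).1 ((quotMk_eq_zero_iff (cNull ω A) x).1 hx)
    have h2 : Tendsto (fun n => ‖(lpMap f x) n‖) (ω : Filter ℕ) (𝓝 0) :=
      squeeze_zero (fun n => norm_nonneg _)
        (fun n => NonUnitalStarAlgHom.norm_apply_le f (x n)) h1
    exact (quotMk_eq_zero_iff (cNull ω B) _).2 ((mem_cNull ω B).2 h2)
  have hwd : ∀ x y : lp (fun _ : ℕ => A) ∞, toUltrapower ω A x = toUltrapower ω A y →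
      toUltrapower ω B (lpMap f x) = toUltrapower ω B (lpMap f y) := by
    intro x y hxy
    have h1 : toUltrapower ω A (x - y) = 0 := by rw [map_sub, hxy, sub_self]
    have h2 := hzero _ h1
    rwa [map_sub, map_sub, sub_eq_zero] at h2
  let g : Ultrapower ω A → Ultrapower ω B := fun q =>
    toUltrapower ω B (lpMap f (Function.surjInv hsurj q))
  have hg : ∀ x, g (toUltrapower ω A x) = toUltrapower ω B (lpMap f x) := fun x =>
    hwd _ _ (Function.surjInv_eq hsurj _)
  refine ⟨{ toFun := g, map_one' := ?_, map_mul' := ?_, map_zero' := ?_, map_add' := ?_,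
            commutes' := ?_, map_star' := ?_ }, hg⟩
  · have h1 := hg 1
    rwa [map_one, map_one, map_one] at h1
  · intro p q
    obtain ⟨x, rfl⟩ := hsurj p
    obtain ⟨y, rfl⟩ := hsurj q
    rw [← map_mul, hg, hg, hg, map_mul, map_mul]
  · have h1 := hg 0
    rwa [map_zero, map_zero, map_zero] at h1
  · intro p q
    obtain ⟨x, rfl⟩ := hsurj p
    obtain ⟨y, rfl⟩ := hsurj q
    rw [← map_add, hg, hg, hg, map_add, map_add]
  · intro z
    have h1 := hg (algebraMap ℂ _ z)
    rwa [AlgHomClass.commutes, AlgHomClass.commutes, AlgHomClass.commutes] at h1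
  · intro p
    obtain ⟨x, rfl⟩ := hsurj p
    rw [← StarHomClass.map_star, hg, hg, StarHomClass.map_star, StarHomClass.map_star]

/-- the embedding by constant sequences. -/
noncomputable def ultraConst (ω : Ultrafilter ℕ) (A : Type u) [CStarAlgebra A] [Nontrivial A] :
    A →⋆ₐ[ℂ] Ultrapower ω A :=
  (toUltrapower ω A).comp
    { toFun := constSeq A
      map_one' := rfl
      map_mul' := fun x y => rfl
      map_zero' := rfl
      map_add' := fun x y => rfl
      commutes' := fun z => rfl
      map_star' := fun x => rfl }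

theorem toUltrapower_surjective (ω : Ultrafilter ℕ) (A : Type u) [CStarAlgebra A] [Nontrivial A] :
    Function.Surjective (toUltrapower ω A) := quotMk_surjective (cNull ω A)

instance ultrapower_nontrivial (ω : Ultrafilter ℕ) (A : Type u) [CStarAlgebra A] [Nontrivial A] :
    Nontrivial (Ultrapower ω A) := by
  refine ⟨⟨0, 1, fun h => ?_⟩⟩
  have h0 : toUltrapower ω A 1 = 0 := by rw [map_one, ← h]
  have h1 : Tendsto (fun n => ‖(1 : lp (fun _ : ℕ => A) ∞) n‖) (ω : Filter ℕ) (𝓝 0) :=
    (mem_cNull ω A).1 ((quotMk_eq_zero_iff (cNull ω A) 1).1 h0)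
  have h2 : Tendsto (fun n : ℕ => ‖(1 : lp (fun _ : ℕ => A) ∞) n‖) (ω : Filter ℕ) (𝓝 1) := by
    have h3 : (fun n : ℕ => ‖(1 : lp (fun _ : ℕ => A) ∞) n‖) = fun _ => (1 : ℝ) := by
      funext n
      change ‖(1 : A)‖ = 1
      exact norm_one
    rw [h3]
    exact tendsto_const_nhds
  exact zero_ne_one (tendsto_nhds_unique h1 h2)

end P101
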