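import Vale.Agent.Lib.P101.ZDefs
import Vale.Agent.Lib.P101.ZUltra

/-!
# Homomorphisms from a limit of prime dimension drop algebras into an ultrapower

Let `Z` be a limit of prime dimension drop algebras `B k ⊆ Z` and let `F` receive a unital
*-homomorphism from each prime dimension drop algebra.  Then there is a unital *-homomorphism
`Z → Ultrapower ω F`.

Proof.  Let `θ m : B m →⋆ₐ F` be the composition of `B m ≃ dimDrop p q` with a unital
*-homomorphism `dimDrop p q → F`.  As `B m` is closed it is a C*-algebra and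
`‖θ m x‖ ≤ ‖x‖` (`NonUnitalStarAlgHom.norm_apply_le`).
Call `x : ∀ m, B m` an approximating sequence of `z : Z` if `‖(x m : Z) - z‖ → 0` (along
`Filter.atTop`).  Every `z` has one: `infDist z (B m) → 0` because the union is dense and
increasing; choose `x m` with `‖x m - z‖ < infDist z (B m) + 1/(m+1)`.  Choose such a sequence
`s z` for every `z` and put `θ z = toUltrapower (m ↦ θ m (s z m))` (bounded:
`‖θ m (s z m)‖ ≤ ‖s z m‖`, convergent norms are bounded; `toUltrapower` of an element of `lp`).
If `x, y` are approximating sequences of the same `z` then `‖θ m (x m) - θ m (y m)‖ ≤ ‖x m - y m‖ → 0`,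
also along `ω ≤ cofinite = atTop`, so the classes agree.  Since sums, products, adjoints, scalar
multiples of approximating sequences are approximating sequences of the sum, etc., and constants
`algebraMap z` approximate themselves, `θ` is a unital *-homomorphism.
-/

open scoped ENNReal Topology
open Filter Matrix

namespace P101

universe u

/-- every element is a limit of a sequence of elements of the subalgebras -/
theorem zhom_exists_seq {Z : Type u} [CStarAlgebra Z] {B : ℕ → StarSubalgebra ℂ Z}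
    (hmono : Monotone B) (hdense : Dense (⋃ k, (B k : Set Z))) (z : Z) :
    ∃ x : ∀ m, B m, Tendsto (fun m => (x m : Z)) atTop (𝓝 z) := by
  have hne : ∀ m, (B m : Set Z).Nonempty := fun m => ⟨1, one_mem (B m)⟩
  have hex : ∀ m : ℕ, ∃ y : B m, dist z y < Metric.infDist z (B m) + 1 / ((m : ℝ) + 1) := by
    intro m
    have h1 : Metric.infDist z (B m) < Metric.infDist z (B m) + 1 / ((m : ℝ) + 1) := by
      have : (0 : ℝ) < 1 / ((m : ℝ) + 1) := by positivity
      linarith
    obtain ⟨y, hy, hyd⟩ := (Metric.infDist_lt_iff (hne m)).1 h1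
    exact ⟨⟨y, hy⟩, hyd⟩
  choose x hx using hex
  have hinf : Tendsto (fun m => Metric.infDist z (B m)) atTop (𝓝 0) := by
    rw [Metric.tendsto_atTop]
    intro ε hε
    obtain ⟨y, hy, hyd⟩ := hdense.exists_dist_lt z hε
    obtain ⟨k, hk⟩ := Set.mem_iUnion.1 hy
    refine ⟨k, fun m hm => ?_⟩
    have h1 : Metric.infDist z (B m) ≤ dist z y :=
      Metric.infDist_le_dist_of_mem (hmono hm hk)
    rw [Real.dist_eq, sub_zero, abs_of_nonneg Metric.infDist_nonneg]
    exact lt_of_le_of_lt h1 hyd
  have hsum : Tendsto (fun m : ℕ => Metric.infDist z (B m) + 1 / ((m : ℝ) + 1)) atTop (𝓝 0) := by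
    have := hinf.add (tendsto_one_div_add_atTop_nhds_zero_nat (𝕜 := ℝ))
    rwa [add_zero] at this
  refine ⟨x, ?_⟩
  rw [tendsto_iff_dist_tendsto_zero]
  refine squeeze_zero (fun m => dist_nonneg) (fun m => ?_) hsum
  rw [dist_comm]
  exact (hx m).le

theorem exists_hom_of_limit (ω : Ultrafilter ℕ) (hω : (ω : Filter ℕ) ≤ Filter.cofinite)
    {F : Type u} [CStarAlgebra F] [Nontrivial F] (Z : Type u) [CStarAlgebra Z]
    (hZ : IsLimitOfPrimeDimDrops Z)
    (hF : ∀ p q : ℕ, 1 ≤ p → 1 ≤ q → Nat.Coprime p q → Nonempty (dimDrop p q →⋆ₐ[ℂ] F)) :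
    Nonempty (Z →⋆ₐ[ℂ] Ultrapower ω F) := by
  obtain ⟨B, hmono, hdense, hB⟩ := hZ
  -- the homomorphisms on the subalgebras
  have hex : ∀ m, ∃ f : B m →⋆ₐ[ℂ] F, ∀ x, ‖f x‖ ≤ ‖(x : Z)‖ := by
    intro m
    obtain ⟨hcl, p, q, hp, hq, hpq, ⟨e⟩⟩ := hB m
    obtain ⟨f⟩ := hF p q hp hq hpq
    have : IsClosed ((B m : StarSubalgebra ℂ Z) : Set Z) := hcl
    refine ⟨f.comp (e : B m →⋆ₐ[ℂ] dimDrop p q), fun x => ?_⟩
    exact NonUnitalStarAlgHom.norm_apply_le (f.comp (e : B m →⋆ₐ[ℂ] dimDrop p q)) x
  choose θ hθ using hex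
  choose s hs using fun z => zhom_exists_seq hmono hdense z
  -- the bounded sequence attached to a convergent sequence
  have hbdd : ∀ (z : Z) (x : ∀ m, B m), Tendsto (fun m => (x m : Z)) atTop (𝓝 z) →
      Memℓp (fun m => θ m (x m)) ∞ := by
    intro z x hx
    apply memℓp_infty
    obtain ⟨C, hC⟩ := hx.norm.bddAbove_range
    refine ⟨C, ?_⟩
    rintro _ ⟨m, rfl⟩
    exact (hθ m (x m)).trans (hC ⟨m, rfl⟩)
  let l : Z → lp (fun _ : ℕ => F) ∞ := fun z => ⟨fun m => θ m (s z m), hbdd z (s z) (hs z)⟩
  -- the class does not depend on the sequence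
  have key : ∀ (z : Z) (x : ∀ m, B m), Tendsto (fun m => (x m : Z)) atTop (𝓝 z) →
      ∀ y : lp (fun _ : ℕ => F) ∞, (∀ m, y m = θ m (x m)) →
      toUltrapower ω F (l z) = toUltrapower ω F y := by
    intro z x hx y hy
    rw [← sub_eq_zero, ← map_sub]
    apply (quotMk_eq_zero_iff (cNull ω F) _).2
    rw [mem_cNull]
    have h1 : Tendsto (fun m => ‖((s z m : B m) : Z) - (x m : Z)‖) atTop (𝓝 0) := by
      have := ((hs z).sub hx).norm
      rwa [sub_self, norm_zero] at this
    have hω' : (ω : Filter ℕ) ≤ atTop := by rwa [Nat.cofinite_eq_atTop] at hω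
    refine squeeze_zero (fun m => norm_nonneg _) (fun m => ?_) (h1.mono_left hω')
    have h2 : (l z - y) m = θ m (s z m - x m) := by
      rw [map_sub, ← hy m]
      rfl
    rw [h2]
    exact hθ m _
  refine ⟨{ toFun := fun z => toUltrapower ω F (l z), map_one' := ?_, map_mul' := ?_,
            map_zero' := ?_, map_add' := ?_, commutes' := ?_, map_star' := ?_ }⟩
  · rw [key 1 (fun m => 1) tendsto_const_nhds 1 (fun m => by rw [map_one]; rfl), map_one]
  · intro z w
    rw [← map_mul]
    refine key (z * w) (fun m => s z m * s w m) ((hs z).mul (hs w)) (l z * l w) (fun m => ?_)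
    rw [map_mul]
    rfl
  · change toUltrapower ω F (l 0) = 0
    rw [key 0 (fun m => 0) tendsto_const_nhds 0 (fun m => by rw [map_zero]; rfl), map_zero]
  · intro z w
    change toUltrapower ω F (l (z + w)) = toUltrapower ω F (l z) + toUltrapower ω F (l w)
    rw [← map_add]
    refine key (z + w) (fun m => s z m + s w m) ((hs z).add (hs w)) (l z + l w) (fun m => ?_)
    rw [map_add]
    rfl
  · intro c
    change toUltrapower ω F (l (algebraMap ℂ Z c)) = _
    rw [key (algebraMap ℂ Z c) (fun m => algebraMap ℂ (B m) c) tendsto_const_nhds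
      (algebraMap ℂ _ c) (fun m => by rw [AlgHomClass.commutes]; rfl)]
    exact AlgHomClass.commutes _ c
  · intro z
    rw [← map_star]
    refine key (star z) (fun m => star (s z m)) ((hs z).star) (star (l z)) (fun m => ?_)
    rw [map_star]
    rfl

end P101
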