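import Vale.Agent.Lib.P101.Stmt
import Vale.Agent.Lib.P101.ZFinal

/-!
# Transfer of the properties of the Jiang-Su algebra
-/

open scoped ENNReal Topology TensorProduct BoundedContinuousFunction
open Filter Matrix

namespace P101

universe u

section Limit

theorem isLimit_of_dimDropLimit {Z : Type u} [CStarAlgebra Z] (h : IsDimDropLimit Z) :
    IsLimitOfPrimeDimDrops Z := by
  obtain ⟨B, h1, h2, h3⟩ := h
  refine ⟨B, h1, h2, fun k => ?_⟩
  obtain ⟨p, q, hp, hq, hpq, hcl, j, hj, hjr⟩ := h3 k
  refine ⟨hcl, ?_⟩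
  refine ⟨p, q, hp, hq, hpq, ?_⟩
  have hmem : ∀ x, j x ∈ B k := fun x => by
    have : j x ∈ (B k : Set Z) := by
      rw [← hjr]
      exact ⟨x, rfl⟩
    exact this
  let j' : dimDrop p q →⋆ₐ[ℂ] B k := StarAlgHom.codRestrict j (B k) hmem
  have hbij : Function.Bijective j' := by
    constructor
    · intro x y hxy
      exact hj (congrArg Subtype.val hxy)
    · rintro ⟨z, hz⟩
      have hz' : z ∈ Set.range j := by
        rw [hjr]
        exact hz
      obtain ⟨x, hx⟩ := hz'
      exact ⟨x, Subtype.ext hx⟩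
  exact ⟨(StarAlgEquiv.ofBijective j' hbij).symm⟩

end Limit

section Tensor

theorem isCStarTensorProduct_of_tensor {A Z B : Type u} [CStarAlgebra A] [CStarAlgebra Z]
    [CStarAlgebra B] (h : IsCStarTensor A Z B) : IsCStarTensorProduct A Z B := by
  obtain ⟨m, hm, hd⟩ := h
  let i : A →⋆ₐ[ℂ] B :=
    { toFun := fun a => m (a ⊗ₜ 1)
      map_one' := map_one m
      map_mul' := fun x y => by
        rw [← map_mul, Algebra.TensorProduct.tmul_mul_tmul, mul_one]
      map_zero' := by rw [TensorProduct.zero_tmul, map_zero]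
      map_add' := fun x y => by rw [TensorProduct.add_tmul, map_add]
      commutes' := fun r => by
        rw [← AlgHomClass.commutes m r, Algebra.TensorProduct.algebraMap_apply]
      map_star' := fun x => by
        rw [← map_star, TensorProduct.star_tmul, star_one] }
  let j : Z →⋆ₐ[ℂ] B :=
    { toFun := fun z => m (1 ⊗ₜ z)
      map_one' := map_one m
      map_mul' := fun x y => by
        rw [← map_mul, Algebra.TensorProduct.tmul_mul_tmul, mul_one]
      map_zero' := by rw [TensorProduct.tmul_zero, map_zero]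
      map_add' := fun x y => by rw [TensorProduct.tmul_add, map_add]
      commutes' := fun r => by
        rw [← AlgHomClass.commutes m r, Algebra.TensorProduct.algebraMap_apply']
      map_star' := fun x => by
        rw [← map_star, TensorProduct.star_tmul, star_one] }
  have hij : ∀ (x : A) (z : Z), i x * j z = m (x ⊗ₜ z) := by
    intro x z
    change m _ * m _ = _
    rw [← map_mul, Algebra.TensorProduct.tmul_mul_tmul, mul_one, one_mul]
  have hji : ∀ (x : A) (z : Z), j z * i x = m (x ⊗ₜ z) := by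
    intro x z
    change m _ * m _ = _
    rw [← map_mul, Algebra.TensorProduct.tmul_mul_tmul, mul_one, one_mul]
  have heq : ⇑(TensorProduct.lift
      ((LinearMap.mul ℂ B).compl₁₂ i.toAlgHom.toLinearMap j.toAlgHom.toLinearMap)) = m := by
    have : TensorProduct.lift
      ((LinearMap.mul ℂ B).compl₁₂ i.toAlgHom.toLinearMap j.toAlgHom.toLinearMap) =
        m.toAlgHom.toLinearMap := by
      ext x z
      exact hij x z
    rw [this]
    rfl
  refine ⟨i, j, fun x z => ?_, ?_, ?_⟩
  · rw [commute_iff_eq, hij, hji]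
  · rw [heq]
    exact hm
  · rw [heq]
    exact hd

end Tensor

section Flip

/-- the half flip in its form for two commuting homomorphisms. -/
theorem approxInnerHalfFlip_of {Z : Type u} [CStarAlgebra Z] (h : HasInnerHalfFlip Z) :
    ApproxInnerHalfFlip Z := by
  intro C _ α β hαβ S ε hε
  let D : StarSubalgebra ℂ C :=
    (StarAlgebra.adjoin ℂ (Set.range α ∪ Set.range β)).topologicalClosure
  have hD : IsClosed (D : Set C) := StarSubalgebra.isClosed_topologicalClosure _
  have hα : ∀ x, α x ∈ D := fun x => StarSubalgebra.le_topologicalClosure _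
    (StarAlgebra.subset_adjoin ℂ _ (Or.inl ⟨x, rfl⟩))
  have hβ : ∀ x, β x ∈ D := fun x => StarSubalgebra.le_topologicalClosure _
    (StarAlgebra.subset_adjoin ℂ _ (Or.inr ⟨x, rfl⟩))
  let α' : Z →⋆ₐ[ℂ] D := StarAlgHom.codRestrict α D hα
  let β' : Z →⋆ₐ[ℂ] D := StarAlgHom.codRestrict β D hβ
  have hc : ∀ x y, Commute (α' x) (β' y) := fun x y => Subtype.ext (hαβ x y)
  let μ₀ : Z ⊗[ℂ] Z →ₐ[ℂ] D := Algebra.TensorProduct.lift α'.toAlgHom β'.toAlgHom hc
  have hμ₀ : ∀ x y, μ₀ (x ⊗ₜ y) = α' x * β' y := fun x y =>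
    Algebra.TensorProduct.lift_tmul _ _ _ _ _
  let μ : Z ⊗[ℂ] Z →⋆ₐ[ℂ] D :=
    { μ₀ with
      map_star' := by
        intro t
        change μ₀ (star t) = star (μ₀ t)
        induction t using TensorProduct.induction_on with
        | zero => rw [star_zero, map_zero, star_zero]
        | tmul x y =>
          rw [TensorProduct.star_tmul, hμ₀, hμ₀, star_mul, ← map_star, ← map_star]
          exact (hc _ _)
        | add x y hx hy => rw [star_add, map_add, map_add, hx, hy, star_add] }
  have hμ : ∀ x y, μ (x ⊗ₜ y) = α' x * β' y := hμ₀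
  have hdense : DenseRange μ := by
    intro x
    rw [closure_subtype]
    let R : StarSubalgebra ℂ C := (D.subtype.comp μ).range
    have hR : (((↑) : D → C) '' Set.range μ) = (R : Set C) := by
      ext c
      constructor
      · rintro ⟨_, ⟨t, rfl⟩, rfl⟩
        exact ⟨t, rfl⟩
      · rintro ⟨t, rfl⟩
        exact ⟨μ t, ⟨t, rfl⟩, rfl⟩
    rw [hR]
    have hle : StarAlgebra.adjoin ℂ (Set.range α ∪ Set.range β) ≤ R := by
      apply StarAlgebra.adjoin_le
      rintro _ (⟨z, rfl⟩ | ⟨z, rfl⟩)
      · refine ⟨z ⊗ₜ 1, ?_⟩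
        change ((μ (z ⊗ₜ 1) : D) : C) = α z
        rw [hμ, map_one, mul_one]
        rfl
      · refine ⟨1 ⊗ₜ z, ?_⟩
        change ((μ (1 ⊗ₜ z) : D) : C) = β z
        rw [hμ, map_one, one_mul]
        rfl
    exact StarSubalgebra.topologicalClosure_mono hle x.2
  obtain ⟨u, hu, hu'⟩ := h D μ hdense S ε hε
  refine ⟨u, u.2, ?_, ?_⟩
  · constructor
    · exact congrArg Subtype.val (Unitary.mem_iff.1 hu).1
    · exact congrArg Subtype.val (Unitary.mem_iff.1 hu).2
  · intro z hz
    have h1 := hu' z hz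
    rw [hμ, hμ, map_one, map_one, mul_one, one_mul] at h1
    exact h1

end Flip

end P101
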