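import Vale.Agent.Lib.P101.Base

/-!
# Reindexing in the ultrapower

Notation: for `x : lp (fun _ : ℕ => A) ∞` write `[x] = toUltrapower ω A x`.  `ω` is free:
`(ω : Filter ℕ) ≤ Filter.cofinite`.
-/

open scoped ENNReal Topology
open Filter Matrix

namespace P101

universe u

variable (ω : Ultrafilter ℕ) (A : Type u) [CStarAlgebra A] [Nontrivial A]

/-- For every real `r > ‖[x]‖`, `‖x n‖ < r` eventually along `ω`.
Proof: there is `y ∈ cNull` with `‖x - y‖ < r'` for some `r' < r` (`Submodule.Quotient.norm_mk_lt`,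
or the definition of the quotient norm); `‖x n‖ ≤ ‖x - y‖ + ‖y n‖`, and `‖y n‖ → 0` along `ω`. -/
theorem eventually_norm_lt (x : lp (fun _ : ℕ => A) ∞) {r : ℝ}
    (hr : ‖toUltrapower ω A x‖ < r) : ∀ᶠ n in (ω : Filter ℕ), ‖x n‖ < r := by
  have hpos : 0 < r - ‖toUltrapower ω A x‖ := sub_pos.2 hr
  obtain ⟨m, hm, hmn⟩ := Submodule.Quotient.norm_mk_lt (S := cNull ω A)
    (Submodule.Quotient.mk x) hpos
  have hmn' : ‖m‖ < r := by
    have h1 : ‖(Submodule.Quotient.mk x : (lp (fun _ : ℕ => A) ∞) ⧸ (cNull ω A))‖ =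
      ‖toUltrapower ω A x‖ := rfl
    rw [h1] at hmn
    linarith
  have hmem : x - m ∈ cNull ω A := by
    rw [← Submodule.Quotient.eq]
    exact hm.symm
  have hev := (Metric.tendsto_nhds.1 ((mem_cNull ω A).1 hmem)) (r - ‖m‖) (sub_pos.2 hmn')
  filter_upwards [hev] with n hn
  have hn' : ‖x n - m n‖ < r - ‖m‖ := by
    simpa using hn
  have h3 : ‖m n‖ ≤ ‖m‖ := lp.norm_apply_le_norm (by simp) m n
  calc ‖x n‖ = ‖(x n - m n) + m n‖ := by rw [sub_add_cancel]
    _ ≤ ‖x n - m n‖ + ‖m n‖ := norm_add_le _ _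
    _ < r := by linarith

/-- `[x] = 0` if and only if `x` is a null sequence. -/
theorem toUltrapower_eq_zero_iff (x : lp (fun _ : ℕ => A) ∞) :
    toUltrapower ω A x = 0 ↔ Tendsto (fun n => ‖x n‖) (ω : Filter ℕ) (𝓝 0) :=
  (quotMk_eq_zero_iff (cNull ω A) x).trans (mem_cNull ω A)

/-- If for every `ε > 0`, eventually `‖x n‖ ≤ r + ε` (`0 ≤ r`) then `‖[x]‖ ≤ r`.
Proof: given `ε`, let `y n = x n` if `‖x n‖ > r + ε`, else `0`; `y ∈ cNull` because `y n = 0`
eventually along `ω`, and `‖x - y‖ ≤ r + ε`; `[x] = [x - y]` has norm `≤ ‖x - y‖`. -/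
theorem norm_toUltrapower_le (x : lp (fun _ : ℕ => A) ∞) {r : ℝ} (hr : 0 ≤ r)
    (h : ∀ ε > 0, ∀ᶠ n in (ω : Filter ℕ), ‖x n‖ ≤ r + ε) : ‖toUltrapower ω A x‖ ≤ r := by
  classical
  refine le_of_forall_pos_le_add fun ε hε => ?_
  have hy : Memℓp (fun n => if ‖x n‖ ≤ r + ε then (0 : A) else x n) ∞ := by
    refine memℓp_infty ⟨‖x‖, ?_⟩
    rintro _ ⟨n, rfl⟩
    by_cases hn : ‖x n‖ ≤ r + ε
    · simp only [hn, if_true, norm_zero]
      exact norm_nonneg _
    · simp only [hn, if_false]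
      exact lp.norm_apply_le_norm (by simp) x n
  let y : lp (fun _ : ℕ => A) ∞ := ⟨_, hy⟩
  have hyn : ∀ n, y n = if ‖x n‖ ≤ r + ε then (0 : A) else x n := fun n => rfl
  have hy0 : toUltrapower ω A y = 0 := by
    rw [toUltrapower_eq_zero_iff]
    refine Tendsto.congr' ?_ tendsto_const_nhds
    filter_upwards [h ε hε] with n hn
    rw [hyn, if_pos hn, norm_zero]
  have hxy : toUltrapower ω A x = toUltrapower ω A (x - y) := by
    rw [map_sub, hy0, sub_zero]
  rw [hxy]
  have h1 : ‖toUltrapower ω A (x - y)‖ ≤ ‖x - y‖ :=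
    Submodule.Quotient.norm_mk_le (cNull ω A) (x - y)
  refine h1.trans (lp.norm_le_of_forall_le (by positivity) fun n => ?_)
  change ‖x n - y n‖ ≤ r + ε
  rw [hyn]
  by_cases hn : ‖x n‖ ≤ r + ε
  · rw [if_pos hn, sub_zero]; exact hn
  · rw [if_neg hn, sub_self, norm_zero]; positivity

/-- the reindexed sequence `n ↦ x (m n)`, a unital *-homomorphism `ℓ^∞(A) → ℓ^∞(A)` in `x`. -/
noncomputable def reindex (m : ℕ → ℕ) :
    lp (fun _ : ℕ => A) ∞ →⋆ₐ[ℂ] lp (fun _ : ℕ => A) ∞ where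
  toFun x := ⟨fun n => x (m n), memℓp_infty ⟨‖x‖, by
    rintro _ ⟨n, rfl⟩
    exact lp.norm_apply_le_norm (by simp) x (m n)⟩⟩
  map_one' := rfl
  map_mul' := fun x y => rfl
  map_zero' := rfl
  map_add' := fun x y => rfl
  commutes' := fun z => rfl
  map_star' := fun x => rfl

/-- commutation with constants, elementwise -/
theorem eventually_comm_lt {y : lp (fun _ : ℕ => A) ∞} (hy : toUltrapower ω A y ∈ centralSeq ω A)
    (b : A) {ε : ℝ} (hε : 0 < ε) : ∀ᶠ j in (ω : Filter ℕ), ‖y j * b - b * y j‖ < ε := by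
  have h1 : toUltrapower ω A (constSeq A b) * toUltrapower ω A y =
      toUltrapower ω A y * toUltrapower ω A (constSeq A b) :=
    ((StarSubalgebra.mem_centralizer_iff ℂ).1 hy _ ⟨b, rfl⟩).1
  have h2 : toUltrapower ω A (y * constSeq A b - constSeq A b * y) = 0 := by
    rw [map_sub, map_mul, map_mul, h1, sub_self]
  have h3 := (toUltrapower_eq_zero_iff ω A _).1 h2
  have h4 := (Metric.tendsto_nhds.1 h3) ε hε
  filter_upwards [h4] with n hn
  have h5 : (y * constSeq A b - constSeq A b * y) n = y n * b - b * y n := rfl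
  rw [h5] at hn
  simpa using hn

/-- commutation of classes from the null commutator -/
theorem commute_of_eventually {u v : lp (fun _ : ℕ => A) ∞}
    (h : ∀ ε > 0, ∀ᶠ n in (ω : Filter ℕ), ‖u n * v n - v n * u n‖ < ε) :
    Commute (toUltrapower ω A u) (toUltrapower ω A v) := by
  have h1 : toUltrapower ω A (u * v - v * u) = 0 := by
    rw [toUltrapower_eq_zero_iff, Metric.tendsto_nhds]
    intro ε hε
    filter_upwards [h ε hε] with n hn
    have h5 : (u * v - v * u) n = u n * v n - v n * u n := rfl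
    rw [h5]
    simpa using hn
  rw [map_sub, map_mul, map_mul, sub_eq_zero] at h1
  exact h1

/-- a class is central if it commutes with constants -/
theorem mem_centralSeq_of_commute {y : lp (fun _ : ℕ => A) ∞}
    (h : ∀ b : A, Commute (toUltrapower ω A y) (toUltrapower ω A (constSeq A b))) :
    toUltrapower ω A y ∈ centralSeq ω A := by
  rw [centralSeq, StarSubalgebra.mem_centralizer_iff]
  rintro _ ⟨b, rfl⟩
  refine ⟨(h b).symm, ?_⟩
  have h1 : star (toUltrapower ω A (constSeq A b)) = toUltrapower ω A (constSeq A (star b)) := by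
    rw [← map_star]; rfl
  change star (toUltrapower ω A (constSeq A b)) * _ = _ * star (toUltrapower ω A (constSeq A b))
  rw [h1]
  exact (h (star b)).symm

/-- **Reindexing lemma**: let `X, Y, C` be countable families such that each `[Y k]` commutes with
the classes of constant sequences.  There is `m : ℕ → ℕ` such that, with `R = reindex A m`,
(a) `‖[R (X k)]‖ ≤ ‖[X k]‖`; (b) `[R (Y k)]` commutes with the classes of constant sequences;
(c) `[R (Y k)]` commutes with `[C l]`.

Proof: let `a : ℕ → A` have dense range.  For fixed `n` the set of `j` with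
`‖X k j‖ < ‖[X k]‖ + 1/(n+1)`, `‖Y k j * a i - a i * Y k j‖ < 1/(n+1)`,
`‖Y k j * C l n - C l n * Y k j‖ < 1/(n+1)` for all `k, i, l ≤ n` (enumerate the countable index
types) belongs to `ω`: finite intersection of sets of `ω`; the third because `C l n ∈ A` is a fixed
element and `[Y k]` commutes with the class of its constant sequence (then
`toUltrapower (Y k * const - const * Y k) = 0`, i.e. membership in `cNull`).  So it is nonempty; let
`m n` be an element.  Then use `norm_toUltrapower_le` and `ω ≤ cofinite` (a statement true for all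
large `n` holds eventually along `ω`), and density of `a` for (b). -/
theorem exists_reindex (hω : (ω : Filter ℕ) ≤ Filter.cofinite)
    [TopologicalSpace.SeparableSpace A] {ι κ μ : Type} [Countable ι] [Countable κ] [Countable μ]
    (X : ι → lp (fun _ : ℕ => A) ∞) (Y : κ → lp (fun _ : ℕ => A) ∞)
    (C : μ → lp (fun _ : ℕ => A) ∞) (hY : ∀ k, toUltrapower ω A (Y k) ∈ centralSeq ω A) :
    ∃ m : ℕ → ℕ,
      (∀ k, ‖toUltrapower ω A (reindex A m (X k))‖ ≤ ‖toUltrapower ω A (X k)‖) ∧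
      (∀ k, toUltrapower ω A (reindex A m (Y k)) ∈ centralSeq ω A) ∧
      (∀ k l, Commute (toUltrapower ω A (reindex A m (Y k))) (toUltrapower ω A (C l))) := by
  classical
  obtain ⟨f, hf⟩ := exists_injective_nat ι
  obtain ⟨g, hg⟩ := exists_injective_nat κ
  obtain ⟨e, he⟩ := exists_injective_nat μ
  have hfin : ∀ {α : Type} (φ : α → ℕ), Function.Injective φ → ∀ n, {k | φ k ≤ n}.Finite := by
    intro α φ hφ n
    exact (Set.finite_Iic n).preimage hφ.injOn
  let a : ℕ → A := TopologicalSpace.denseSeq A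
  have hpos : ∀ n : ℕ, (0 : ℝ) < 1 / ((n : ℝ) + 1) := fun n => by positivity
  have key : ∀ n : ℕ, ∃ j : ℕ,
      (∀ k, f k ≤ n → ‖X k j‖ < ‖toUltrapower ω A (X k)‖ + 1 / ((n : ℝ) + 1)) ∧
      (∀ k, g k ≤ n → ∀ i, i ≤ n → ‖Y k j * a i - a i * Y k j‖ < 1 / ((n : ℝ) + 1)) ∧
      (∀ k, g k ≤ n → ∀ l, e l ≤ n → ‖Y k j * C l n - C l n * Y k j‖ < 1 / ((n : ℝ) + 1)) := by
    intro n
    have h1 : ∀ᶠ j in (ω : Filter ℕ), ∀ k ∈ {k | f k ≤ n},
        ‖X k j‖ < ‖toUltrapower ω A (X k)‖ + 1 / ((n : ℝ) + 1) :=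
      (Filter.eventually_all_finite (hfin f hf n)).2 fun k _ =>
        eventually_norm_lt ω A (X k) (lt_add_of_pos_right _ (hpos n))
    have h2 : ∀ᶠ j in (ω : Filter ℕ), ∀ k ∈ {k | g k ≤ n}, ∀ i ∈ {i : ℕ | i ≤ n},
        ‖Y k j * a i - a i * Y k j‖ < 1 / ((n : ℝ) + 1) :=
      (Filter.eventually_all_finite (hfin g hg n)).2 fun k _ =>
        (Filter.eventually_all_finite (Set.finite_Iic n)).2 fun i _ =>
          eventually_comm_lt ω A (hY k) (a i) (hpos n)
    have h3 : ∀ᶠ j in (ω : Filter ℕ), ∀ k ∈ {k | g k ≤ n}, ∀ l ∈ {l | e l ≤ n},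
        ‖Y k j * C l n - C l n * Y k j‖ < 1 / ((n : ℝ) + 1) :=
      (Filter.eventually_all_finite (hfin g hg n)).2 fun k _ =>
        (Filter.eventually_all_finite (hfin e he n)).2 fun l _ =>
          eventually_comm_lt ω A (hY k) (C l n) (hpos n)
    obtain ⟨j, hj1, hj2, hj3⟩ := (h1.and (h2.and h3)).exists
    exact ⟨j, fun k hk => hj1 k hk, fun k hk i hi => hj2 k hk i hi,
      fun k hk l hl => hj3 k hk l hl⟩
  choose m hm1 hm2 hm3 using key
  have hlarge : ∀ N : ℕ, ∀ᶠ n in (ω : Filter ℕ), N ≤ n := by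
    intro N
    refine hω ?_
    rw [Nat.cofinite_eq_atTop]
    exact eventually_ge_atTop N
  have hsmall : ∀ ε > (0 : ℝ), ∀ᶠ n : ℕ in (ω : Filter ℕ), 1 / ((n : ℝ) + 1) < ε := by
    intro ε hε
    obtain ⟨N, hN⟩ := exists_nat_one_div_lt hε
    filter_upwards [hlarge N] with n hn
    refine lt_of_le_of_lt ?_ hN
    apply one_div_le_one_div_of_le (by positivity)
    have : (N : ℝ) ≤ n := by exact_mod_cast hn
    linarith
  have hre : ∀ (x : lp (fun _ : ℕ => A) ∞) (n : ℕ), reindex A m x n = x (m n) := fun x n => rfl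
  refine ⟨m, ?_, ?_, ?_⟩
  · intro k
    refine norm_toUltrapower_le ω A _ (norm_nonneg _) fun ε hε => ?_
    filter_upwards [hlarge (f k), hsmall ε hε] with n hn1 hn2
    rw [hre]
    exact (hm1 n k hn1).le.trans (by linarith)
  · intro k
    refine mem_centralSeq_of_commute ω A fun b => commute_of_eventually ω A fun ε hε => ?_
    set M : ℝ := ‖Y k‖ + 1 with hM
    have hM0 : 0 < M := by positivity
    obtain ⟨i, hi⟩ := (TopologicalSpace.denseRange_denseSeq A).exists_dist_lt b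
      (show (0 : ℝ) < ε / (4 * M) by positivity)
    have hi' : ‖b - a i‖ < ε / (4 * M) := by
      rw [← dist_eq_norm]; exact hi
    filter_upwards [hlarge (g k), hlarge i, hsmall (ε / 2) (by positivity)] with n hn1 hn2 hn3
    rw [hre]
    change ‖Y k (m n) * b - b * Y k (m n)‖ < ε
    have h1 := hm2 n k hn1 i hn2
    have h2 : ‖Y k (m n)‖ ≤ M := (lp.norm_apply_le_norm (by simp) (Y k) (m n)).trans (by linarith)
    have h3 : Y k (m n) * b - b * Y k (m n) =
        (Y k (m n) * a i - a i * Y k (m n)) + (Y k (m n) * (b - a i) - (b - a i) * Y k (m n)) := by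
      noncomm_ring
    rw [h3]
    have h4 : ‖Y k (m n) * (b - a i)‖ ≤ M * (ε / (4 * M)) :=
      (norm_mul_le _ _).trans (mul_le_mul h2 hi'.le (norm_nonneg _) hM0.le)
    have h5 : ‖(b - a i) * Y k (m n)‖ ≤ (ε / (4 * M)) * M :=
      (norm_mul_le _ _).trans (mul_le_mul hi'.le h2 (norm_nonneg _) (by positivity))
    have h6 : M * (ε / (4 * M)) = ε / 4 := by field_simp
    have h7 : (ε / (4 * M)) * M = ε / 4 := by field_simp
    calc _ ≤ ‖Y k (m n) * a i - a i * Y k (m n)‖ +
          ‖Y k (m n) * (b - a i) - (b - a i) * Y k (m n)‖ := norm_add_le _ _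
      _ ≤ ‖Y k (m n) * a i - a i * Y k (m n)‖ +
          (‖Y k (m n) * (b - a i)‖ + ‖(b - a i) * Y k (m n)‖) := by
          gcongr
          exact norm_sub_le _ _
      _ < ε := by
          rw [h6] at h4; rw [h7] at h5
          linarith
  · intro k l
    refine commute_of_eventually ω A fun ε hε => ?_
    filter_upwards [hlarge (g k), hlarge (e l), hsmall ε hε] with n hn1 hn2 hn3
    rw [hre]
    exact (hm3 n k hn1 l hn2).trans hn3

end P101
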