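import Vale.Agent.Lib.P101.CopiesB

/-!
# The central sequence algebra contains commuting copies of its separable subalgebras

Proof: `exists_seq_of_forall_finset_exists` with `P = fun _ => True`,
`r x y := ∀ d e, Commute (x d) (y e)`: for a finite set `s` of homomorphisms `D → F_ω(A)` the set
`⋃ x ∈ s, Set.range x` is separable (*-homomorphisms between C*-algebras are continuous; `D` is a
C*-algebra because it is closed; the continuous image of a separable space is separable), apply
`exists_hom_commuting`.
-/

open scoped ENNReal Topology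
open Filter Matrix

namespace P101

universe u

theorem hasCopies_FOmega (ω : Ultrafilter ℕ) (hω : (ω : Filter ℕ) ≤ Filter.cofinite)
    (A : Type u) [CStarAlgebra A] [Nontrivial A] [TopologicalSpace.SeparableSpace A] :
    HasCopies (FOmega ω A) := by
  intro D hcl hsep
  have hclD : IsClosed (D : Set (FOmega ω A)) := hcl
  have hsepD : TopologicalSpace.SeparableSpace D := hsep.separableSpace
  have hcont : ∀ θ : D →⋆ₐ[ℂ] FOmega ω A, Continuous θ := fun θ =>
    AddMonoidHomClass.continuous_of_bound θ 1 fun a => by
      rw [one_mul]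
      exact NonUnitalStarAlgHom.norm_apply_le θ a
  have hsymm : Std.Symm (fun x y : D →⋆ₐ[ℂ] FOmega ω A => ∀ d e : D, Commute (x d) (y e)) :=
    ⟨fun x y h d e => (h e d).symm⟩
  obtain ⟨θ, -, hθ⟩ := exists_seq_of_forall_finset_exists' (fun _ : D →⋆ₐ[ℂ] FOmega ω A => True)
    (fun x y => ∀ d e : D, Commute (x d) (y e)) (by
      intro s _
      have hC : TopologicalSpace.IsSeparable
          (⋃ x : {x // x ∈ s}, Set.range (x : D →⋆ₐ[ℂ] FOmega ω A)) :=
        TopologicalSpace.isSeparable_iUnion.2 fun x =>
          TopologicalSpace.isSeparable_range (hcont x)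
      obtain ⟨θ, hθ⟩ := exists_hom_commuting ω hω A D hcl hsep _ hC
      refine ⟨θ, trivial, fun x hx d e => ?_⟩
      exact (hθ e (x d) (Set.mem_iUnion.2 ⟨⟨x, hx⟩, d, rfl⟩)).symm)
  exact ⟨θ, fun i j hij d e => hθ hij d e⟩

end P101
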