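import Mathlib.Order.CompletePartialOrder
import Mathlib.Topology.Separation.CompletelyRegular
import Vale.Agent.Lib.P101.CopiesA

/-!
# One commuting copy

For `D ⊆ F_ω(A)` a closed separable *-subalgebra and a separable set `C ⊆ F_ω(A)` there is a unital
*-homomorphism `θ : D → F_ω(A)` whose range commutes with `C`.

Proof.  Let `d : ℕ → D` have dense range, `c : ℕ → F_ω(A)` with `C ⊆ closure (range c)` (if `C` is
empty take `c = 0`), `z : ℕ → ℂ` dense range.  Choose lifts `s k ∈ ℓ^∞(A)` of `d k` and `t l` of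
`c l` (`toUltrapower` is surjective: `quotMk_surjective`).  Apply `exists_reindex` to the
countable family `X` consisting of all
`s k + s l - s j`, `s k * s l - s j`, `star (s k) - s j`, `z i • s k - s j`, `s k - s l`, `s k - 1`
(index type a finite sum of products of `ℕ`), `Y = s`, `C = t`; put `R = reindex A m`,
`θ₀ k = [R (s k)] ∈ F_ω(A)`.  Then
`‖θ₀ k + θ₀ l - θ₀ j‖ ≤ ‖d k + d l - d j‖`, `‖θ₀ k * θ₀ l - θ₀ j‖ ≤ ‖d k * d l - d j‖`, etc., because
`R` and `toUltrapower` are *-homomorphisms.  In particular `‖θ₀ k - θ₀ l‖ ≤ ‖d k - d l‖`, so for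
each `x : D` there is a unique `θ x` with `‖θ x - θ₀ k‖ ≤ ‖x - d k‖` for all `k` (completeness:
if `d (k_i) → x` then `θ₀ (k_i)` is Cauchy; e.g. extend by `DenseRange`/`UniformContinuous` or do it
by hand).  All algebraic identities for `θ` follow by choosing approximating indices, e.g.
`‖θ x + θ y - θ (x + y)‖ ≤ ‖θ₀ k + θ₀ l - θ₀ j‖ + small ≤ ‖d k + d l - d j‖ + small → 0`.
`θ x` lies in the closed centralizer and commutes with `C` by (b), (c) and density.
-/

open scoped ENNReal Topology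
open Filter Matrix

namespace P101

universe u

/-- a contractive map on a dense sequence which respects the algebraic relations up to the norm
extends to a *-homomorphism -/
theorem exists_starHom_of_dense {D : Type u} {F : Type u} [CStarAlgebra D] [CStarAlgebra F]
    (d : ℕ → D) (hd : DenseRange d) (z : ℕ → ℂ) (hz : DenseRange z) (θ₀ : ℕ → F)
    (hadd : ∀ k l j, ‖θ₀ k + θ₀ l - θ₀ j‖ ≤ ‖d k + d l - d j‖)
    (hmul : ∀ k l j, ‖θ₀ k * θ₀ l - θ₀ j‖ ≤ ‖d k * d l - d j‖)
    (hstar : ∀ k j, ‖star (θ₀ k) - θ₀ j‖ ≤ ‖star (d k) - d j‖)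
    (hsmul : ∀ i k j, ‖z i • θ₀ k - θ₀ j‖ ≤ ‖z i • d k - d j‖)
    (hsub : ∀ k l, ‖θ₀ k - θ₀ l‖ ≤ ‖d k - d l‖)
    (hone : ∀ k, ‖θ₀ k - 1‖ ≤ ‖d k - 1‖) :
    ∃ θ : D →⋆ₐ[ℂ] F, Continuous θ ∧ ∀ k, θ (d k) = θ₀ k := by
  classical
  obtain ⟨θ, hc, hθ⟩ : ∃ θ : D → F, Continuous θ ∧ ∀ k, θ (d k) = θ₀ k := by
    let e : Set.range d → D := Subtype.val
    let f : Set.range d → F := fun x => θ₀ (Classical.choose x.2)
    have he : IsUniformInducing e := isUniformEmbedding_subtype_val.isUniformInducing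
    have hde : DenseRange e := by
      have : Set.range e = Set.range d := Subtype.range_coe
      rw [DenseRange, this]
      exact hd
    have hf : LipschitzWith 1 f := by
      refine LipschitzWith.of_dist_le_mul ?_
      intro x y
      rw [dist_eq_norm, NNReal.coe_one, one_mul]
      refine (hsub _ _).trans (le_of_eq ?_)
      rw [Classical.choose_spec x.2, Classical.choose_spec y.2]
      exact (dist_eq_norm _ _).symm
    have hfk : ∀ k, f ⟨d k, ⟨k, rfl⟩⟩ = θ₀ k := by
      intro k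
      have h1 := hsub (Classical.choose (⟨k, rfl⟩ : d k ∈ Set.range d)) k
      rw [Classical.choose_spec (⟨k, rfl⟩ : d k ∈ Set.range d), sub_self, norm_zero] at h1
      exact sub_eq_zero.1 (norm_le_zero_iff.1 h1)
    refine ⟨(he.isDenseInducing hde).extend f,
      (uniformContinuous_uniformly_extend he hde hf.uniformContinuous).continuous, ?_⟩
    intro k
    have h2 := uniformly_extend_of_ind he hde hf.uniformContinuous ⟨d k, ⟨k, rfl⟩⟩
    rw [← hfk k]
    exact h2
  -- an element which satisfies all the inequalities is the value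
  have key : ∀ (y : F) (x : D), (∀ j, ‖y - θ₀ j‖ ≤ ‖x - d j‖) → θ x = y := by
    intro y x h
    have h1 : ∀ w : D, ‖y - θ w‖ ≤ ‖x - w‖ := by
      intro w
      refine hd.induction_on (p := fun w => ‖y - θ w‖ ≤ ‖x - w‖) w ?_ ?_
      · exact isClosed_le (by fun_prop) (by fun_prop)
      · intro j
        rw [hθ j]
        exact h j
    have h2 := h1 x
    rw [sub_self, norm_zero] at h2
    exact (sub_eq_zero.1 (norm_le_zero_iff.1 h2)).symm
  have hadd' : ∀ x y, θ (x + y) = θ x + θ y := by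
    intro x y
    refine hd.induction_on₂ (p := fun x y => θ (x + y) = θ x + θ y) ?_ ?_ x y
    · exact isClosed_eq (by fun_prop) (by fun_prop)
    · intro k l
      rw [hθ k, hθ l]
      exact key _ _ (hadd k l)
  have hmul' : ∀ x y, θ (x * y) = θ x * θ y := by
    intro x y
    refine hd.induction_on₂ (p := fun x y => θ (x * y) = θ x * θ y) ?_ ?_ x y
    · exact isClosed_eq (by fun_prop) (by fun_prop)
    · intro k l
      rw [hθ k, hθ l]
      exact key _ _ (hmul k l)
  have hstar' : ∀ x, θ (star x) = star (θ x) := by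
    intro x
    refine hd.induction_on (p := fun x => θ (star x) = star (θ x)) x ?_ ?_
    · exact isClosed_eq (by fun_prop) (by fun_prop)
    · intro k
      rw [hθ k]
      exact key _ _ (hstar k)
  have hsmul' : ∀ (c : ℂ) x, θ (c • x) = c • θ x := by
    intro c x
    refine hd.induction_on (p := fun x => θ (c • x) = c • θ x) x ?_ ?_
    · exact isClosed_eq (by fun_prop) (by fun_prop)
    · intro k
      rw [hθ k]
      refine hz.induction_on (p := fun c : ℂ => θ (c • d k) = c • θ₀ k) c ?_ ?_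
      · exact isClosed_eq (by fun_prop) (by fun_prop)
      · intro i
        exact key _ _ (hsmul i k)
  have hone' : θ 1 = 1 := by
    refine key _ _ fun j => ?_
    rw [norm_sub_rev, norm_sub_rev 1 (d j)]
    exact hone j
  have hzero' : θ 0 = 0 := by
    have := hsmul' 0 0
    rwa [zero_smul, zero_smul] at this
  refine ⟨{ toFun := θ
            map_one' := hone'
            map_mul' := hmul'
            map_zero' := hzero'
            map_add' := hadd'
            commutes' := ?_
            map_star' := hstar' }, hc, hθ⟩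
  intro r
  rw [Algebra.algebraMap_eq_smul_one, Algebra.algebraMap_eq_smul_one]
  change θ (r • 1) = r • 1
  rw [hsmul', hone']

theorem exists_hom_commuting (ω : Ultrafilter ℕ) (hω : (ω : Filter ℕ) ≤ Filter.cofinite)
    (A : Type u) [CStarAlgebra A] [Nontrivial A] [TopologicalSpace.SeparableSpace A]
    (D : StarSubalgebra ℂ (FOmega ω A)) (hcl : IsClosed (D : Set (FOmega ω A)))
    (hsep : TopologicalSpace.IsSeparable (D : Set (FOmega ω A))) (C : Set (FOmega ω A))
    (hC : TopologicalSpace.IsSeparable C) :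
    ∃ θ : D →⋆ₐ[ℂ] FOmega ω A, ∀ (d : D), ∀ c ∈ C, Commute (θ d) c := by
  have : IsClosed (D : Set (FOmega ω A)) := hcl
  have : TopologicalSpace.SeparableSpace D := hsep.separableSpace
  obtain ⟨cc, hcc, hCc⟩ := hC
  obtain ⟨c, hc⟩ : ∃ c : ℕ → FOmega ω A, insert 0 cc = Set.range c :=
    (hcc.insert 0).exists_eq_range (Set.insert_nonempty 0 cc)
  have hCc' : C ⊆ closure (Set.range c) := by
    rw [← hc]
    exact hCc.trans (closure_mono (Set.subset_insert 0 cc))
  set d : ℕ → D := TopologicalSpace.denseSeq D with hddef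
  have hd : DenseRange d := TopologicalSpace.denseRange_denseSeq D
  set z : ℕ → ℂ := TopologicalSpace.denseSeq ℂ with hzdef
  have hz : DenseRange z := TopologicalSpace.denseRange_denseSeq ℂ
  have hsurj : Function.Surjective (toUltrapower ω A) := quotMk_surjective (cNull ω A)
  choose s hs using fun k : ℕ => hsurj ((d k : FOmega ω A) : Ultrapower ω A)
  choose t ht using fun l : ℕ => hsurj ((c l : FOmega ω A) : Ultrapower ω A)
  let X := Sum.elim (fun p : ℕ × ℕ × ℕ => s p.1 + s p.2.1 - s p.2.2)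
    (Sum.elim (fun p : ℕ × ℕ × ℕ => s p.1 * s p.2.1 - s p.2.2)
    (Sum.elim (fun p : ℕ × ℕ => star (s p.1) - s p.2)
    (Sum.elim (fun p : ℕ × ℕ × ℕ => z p.1 • s p.2.1 - s p.2.2)
    (Sum.elim (fun p : ℕ × ℕ => s p.1 - s p.2) (fun p : ℕ => s p - 1)))))
  obtain ⟨m, hm1, hm2, hm3⟩ := exists_reindex ω A hω X s t (fun k => by
    rw [hs k]; exact (d k : FOmega ω A).2)
  let R := reindex A m
  let θ₀ : ℕ → FOmega ω A := fun k => ⟨toUltrapower ω A (R (s k)), hm2 k⟩
  have hadd : ∀ k l j, ‖θ₀ k + θ₀ l - θ₀ j‖ ≤ ‖d k + d l - d j‖ := by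
    intro k l j
    have h1 := hm1 (Sum.inl (k, l, j))
    simp only [X, Sum.elim_inl, map_add, map_sub, hs] at h1
    exact h1
  have hmul : ∀ k l j, ‖θ₀ k * θ₀ l - θ₀ j‖ ≤ ‖d k * d l - d j‖ := by
    intro k l j
    have h1 := hm1 (Sum.inr (Sum.inl (k, l, j)))
    simp only [X, Sum.elim_inl, Sum.elim_inr, map_mul, map_sub, hs] at h1
    exact h1
  have hstar : ∀ k j, ‖star (θ₀ k) - θ₀ j‖ ≤ ‖star (d k) - d j‖ := by
    intro k j
    have h1 := hm1 (Sum.inr (Sum.inr (Sum.inl (k, j))))
    simp only [X, Sum.elim_inl, Sum.elim_inr, map_star, map_sub, hs] at h1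
    exact h1
  have hsmul : ∀ i k j, ‖z i • θ₀ k - θ₀ j‖ ≤ ‖z i • d k - d j‖ := by
    intro i k j
    have h1 := hm1 (Sum.inr (Sum.inr (Sum.inr (Sum.inl (i, k, j)))))
    simp only [X, Sum.elim_inl, Sum.elim_inr, map_smul, map_sub, hs] at h1
    exact h1
  have hsub : ∀ k l, ‖θ₀ k - θ₀ l‖ ≤ ‖d k - d l‖ := by
    intro k l
    have h1 := hm1 (Sum.inr (Sum.inr (Sum.inr (Sum.inr (Sum.inl (k, l))))))
    simp only [X, Sum.elim_inl, Sum.elim_inr, map_sub, hs] at h1
    exact h1
  have hone : ∀ k, ‖θ₀ k - 1‖ ≤ ‖d k - 1‖ := by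
    intro k
    have h1 := hm1 (Sum.inr (Sum.inr (Sum.inr (Sum.inr (Sum.inr k)))))
    simp only [X, Sum.elim_inr, map_sub, map_one, hs] at h1
    exact h1
  obtain ⟨θ, hθc, hθ⟩ := exists_starHom_of_dense (D := D) (F := FOmega ω A) d hd z hz θ₀
    hadd hmul hstar hsmul hsub hone
  have hcomm : ∀ k l, Commute (θ₀ k) (c l) := by
    intro k l
    have h1 := hm3 k l
    rw [ht l] at h1
    exact Subtype.ext h1
  refine ⟨θ, ?_⟩
  intro x y hy
  have h2 : ∀ l, Commute (θ x) (c l) := by
    intro l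
    refine hd.induction_on (p := fun x => Commute (θ x) (c l)) x ?_ ?_
    · exact isClosed_eq (by fun_prop) (by fun_prop)
    · intro k
      rw [hθ k]
      exact hcomm k l
  have h3 : IsClosed {y : FOmega ω A | Commute (θ x) y} :=
    isClosed_eq (by fun_prop) (by fun_prop)
  have h4 : Set.range c ⊆ {y : FOmega ω A | Commute (θ x) y} := by
    rintro _ ⟨l, rfl⟩
    exact h2 l
  exact (closure_minimal h4 h3) (hCc' hy)

end P101
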