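import Mathlib.Analysis.CStarAlgebra.ContinuousFunctionalCalculus.Commute
import Mathlib.FieldTheory.IsSepClosed
import Vale.Agent.Lib.P101.OZBasic

/-!
# Matrix valued functional calculus of an order zero map

Let `φ : M_n → F` be an order zero map with `h = φ(1) ≤ 1`.  For `q : [0,1] → M_n` continuous and
scalar on `[0, 1/3]` there is `ρ(q) = q(h) (functional calculus)`.

Proof.  Write `q = r 1 + q°` with `r(t) =` the scalar value of `q (min t (1/3))` (i.e. the `(0,0)`
entry; if `n = 0` the matrices are trivial: then `1 = 0` in `M_0`, `h = 0`, use `r` = 0... or treat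
`n = 0` separately: `scalarNear 0` contains `1 = 0`, so a unital homomorphism to a nontrivial `F`
cannot exist; this is why `NeZero n` is assumed) and `q° = q - r 1`, zero on `[0,1/3]`.
`ρ(q) = r(h) + ∑_{ij} (q°_ij(t)/t)(h) φ(e_ij)`, where for a continuous function
`g : [0,1] → ℂ`, `g(h)` is the complex continuous functional calculus of `h` (for instance
`cfc (fun z : ℂ => g (Set.projIcc 0 1 zero_le_one z.re)) h`; the spectrum of `h` is in `[0,1]`; or
`cfcHom` composed with restriction), and `q°_ij(t)/t` means the continuous function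
`q°_ij(t)/max(t,1/3)`.  The map `g ↦ g(h)` is a unital *-homomorphism `C([0,1], ℂ) → F` sending the
coordinate function to `h`; its values commute with all `φ(m)` (as `h` does).
Multiplicativity: `φ(e_ij) φ(e_kl) = h φ(e_ij e_kl)`, and `(g/t)(h) (g'/t)(h) h = (g g'/t)(h)`
because `(g/max(t,1/3)) (g'/max(t,1/3)) t = g g'/max(t,1/3)` when `g = 0` on `[0,1/3]`.
(b): if `h y = y` then `g(h) y = g(1) y` (true for polynomials, then by density/continuity; or: the
function `g - g(1)` is a uniform limit of functions of the form `(1 - t) g'`), so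
`ρ(q) φ(m) y = r(h) φ(m) y + ∑ (q°_ij/t)(h) h φ(e_ij m) y = φ(m) r(1) y + ∑ q°_ij(1) φ(e_ij m) y
= φ(q(1) m) y`.
-/

open scoped ENNReal Topology
open Filter Matrix

namespace P101

attribute [local instance] CStarAlgebra.spectralOrder CStarAlgebra.spectralOrderedRing

universe u

/-- continuous `M_n`-valued functions on `[0,1]` with scalar values on `[0,1/3]`. -/
def scalarNear (n : ℕ) : StarSubalgebra ℂ C(unitInterval, Matrix (Fin n) (Fin n) ℂ) where
  carrier := {q | ∀ t : unitInterval, (t : ℝ) ≤ 1 / 3 → ∃ z : ℂ, q t = z • 1}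
  mul_mem' := by
    intro f g hf hg t ht
    obtain ⟨z, hz⟩ := hf t ht
    obtain ⟨w, hw⟩ := hg t ht
    refine ⟨z * w, ?_⟩
    rw [ContinuousMap.mul_apply, hz, hw, smul_mul_smul_comm, mul_one]
  add_mem' := by
    intro f g hf hg t ht
    obtain ⟨z, hz⟩ := hf t ht
    obtain ⟨w, hw⟩ := hg t ht
    refine ⟨z + w, ?_⟩
    rw [ContinuousMap.add_apply, hz, hw, add_smul]
  algebraMap_mem' := by
    intro z t ht
    refine ⟨z, ?_⟩
    simp [Algebra.algebraMap_eq_smul_one]
  star_mem' := by
    intro f hf t ht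
    obtain ⟨z, hz⟩ := hf t ht
    refine ⟨star z, ?_⟩
    rw [ContinuousMap.star_apply, hz, star_smul, star_one]

/-- a scalar function times the identity matrix -/
noncomputable def scalarFun (n : ℕ) (r : C(unitInterval, ℂ)) : C(unitInterval, Matrix (Fin n) (Fin n) ℂ) where
  toFun t := r t • 1
  continuous_toFun := by fun_prop

theorem scalarFun_mem (n : ℕ) (r : C(unitInterval, ℂ)) : scalarFun n r ∈ scalarNear n :=
  fun t _ => ⟨r t, rfl⟩

/-- the coordinate function -/
noncomputable def coordFun : C(unitInterval, ℂ) where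
  toFun t := ((t : ℝ) : ℂ)
  continuous_toFun := by fun_prop

/-! ### Functional calculus with functions on the unit interval -/

section Calculus

variable {F : Type u} [CStarAlgebra F]

/-- the projection of the spectrum to the unit interval -/
private noncomputable def rhoE (h : F) : C(spectrum ℂ h, unitInterval) where
  toFun z := Set.projIcc 0 1 zero_le_one (z : ℂ).re
  continuous_toFun :=
    continuous_projIcc.comp (Complex.continuous_re.comp continuous_subtype_val)

/-- functional calculus with functions on the unit interval -/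
private noncomputable def rhoG {h : F} (hn : IsStarNormal h) : C(unitInterval, ℂ) →⋆ₐ[ℂ] F :=
  (cfcHom hn).comp (ContinuousMap.compStarAlgHom' ℂ ℂ (rhoE h))

private theorem rhoG_apply {h : F} (hn : IsStarNormal h) (g : C(unitInterval, ℂ)) :
    rhoG hn g = cfcHom hn (g.comp (rhoE h)) := rfl

private theorem rhoE_val {h : F} (hsa : IsSelfAdjoint h) (h0 : 0 ≤ h) (h1 : h ≤ 1)
    (z : spectrum ℂ h) : (((rhoE h z : unitInterval) : ℝ) : ℂ) = z := by
  have hz := hsa.mem_spectrum_eq_re z.2
  have hr : (z : ℂ).re ∈ spectrum ℝ h := hsa.spectrumRestricts.apply_mem z.2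
  have hr0 : 0 ≤ (z : ℂ).re := spectrum_nonneg_of_nonneg h0 hr
  have hr1 : (z : ℂ).re ≤ 1 := (CFC.le_one_iff (R := ℝ) h).1 h1 _ hr
  have e : ((rhoE h z : unitInterval) : ℝ) = (z : ℂ).re := by
    change ((Set.projIcc (0 : ℝ) 1 zero_le_one (z : ℂ).re : unitInterval) : ℝ) = (z : ℂ).re
    rw [Set.projIcc_of_mem zero_le_one (show (z : ℂ).re ∈ Set.Icc (0 : ℝ) 1 from ⟨hr0, hr1⟩)]
  rw [e]
  exact hz.symm

private theorem rhoG_coord {h : F} (hn : IsStarNormal h) (hsa : IsSelfAdjoint h) (h0 : 0 ≤ h)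
    (h1 : h ≤ 1) : rhoG hn coordFun = h := by
  rw [rhoG_apply]
  have e : coordFun.comp (rhoE h) = (ContinuousMap.id ℂ).restrict (spectrum ℂ h) := by
    ext z
    exact rhoE_val hsa h0 h1 z
  rw [e]
  exact cfcHom_id hn

private theorem rhoG_commute {h b : F} (hn : IsStarNormal h) (hsa : IsSelfAdjoint h)
    (hb : Commute h b) (g : C(unitInterval, ℂ)) : Commute (rhoG hn g) b := by
  rw [rhoG_apply]
  exact hsa.commute_cfcHom hn hb _

private theorem rhoG_fix {h y : F} (hn : IsStarNormal h) (hsa : IsSelfAdjoint h)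
    (hy : h * y = y) (g : C(unitInterval, ℂ)) : rhoG hn g * y = g 1 • y := by
  by_cases hy0 : y = 0
  · rw [hy0, mul_zero, smul_zero]
  have h1 : (1 : ℂ) ∈ spectrum ℂ h := by
    rw [spectrum.mem_iff, map_one]
    intro hu
    refine hy0 ?_
    have h2 : (1 - h) * y = 0 := by rw [sub_mul, one_mul, hy, sub_self]
    exact (hu.mul_right_eq_zero).1 h2
  have key : ∀ f : C(spectrum ℂ h, ℂ), cfcHom hn f * y = f ⟨1, h1⟩ • y := by
    intro f
    induction f using ContinuousMap.induction_on_of_compact with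
    | const r =>
      have e : cfcHom hn (ContinuousMap.const (spectrum ℂ h) r) = algebraMap ℂ F r := by
        have e2 : ContinuousMap.const (spectrum ℂ h) r =
          algebraMap ℂ C(spectrum ℂ h, ℂ) r := rfl
        rw [e2, AlgHomClass.commutes]
      rw [e, ← Algebra.smul_def]
      rfl
    | id =>
      rw [cfcHom_id hn, hy]
      exact (one_smul ℂ y).symm
    | star_id =>
      rw [map_star, cfcHom_id hn, hsa.star_eq, hy]
      have e : (star ((ContinuousMap.id ℂ).restrict (spectrum ℂ h))) ⟨1, h1⟩ = 1 := by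
        change star (1 : ℂ) = 1
        exact star_one ℂ
      rw [e, one_smul]
    | add f g hf hg =>
      rw [map_add, add_mul, hf, hg, ContinuousMap.add_apply, add_smul]
    | mul f g hf hg =>
      rw [map_mul, mul_assoc, hg, mul_smul_comm, hf, ContinuousMap.mul_apply, mul_comm, mul_smul]
    | frequently f hf =>
      have hcl : IsClosed {f : C(spectrum ℂ h, ℂ) | cfcHom hn f * y = f ⟨1, h1⟩ • y} := by
        refine isClosed_eq ((cfcHom_continuous hn).mul continuous_const) ?_
        exact (continuous_eval_const (⟨1, h1⟩ : spectrum ℂ h)).smul continuous_const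
      have hm : f ∈ closure {f : C(spectrum ℂ h, ℂ) | cfcHom hn f * y = f ⟨1, h1⟩ • y} :=
        mem_closure_iff_frequently.2 hf
      rw [hcl.closure_eq] at hm
      exact hm
  rw [rhoG_apply, key]
  have e : (g.comp (rhoE h)) ⟨1, h1⟩ = g 1 := by
    change g (Set.projIcc (0 : ℝ) 1 zero_le_one (1 : ℂ).re) = g 1
    rw [Complex.one_re, Set.projIcc_right]
    rfl
  rw [e]

end Calculus

/-! ### Auxiliary functions -/

section Functions

variable {n : ℕ}

/-- the matrix entries of a matrix valued function -/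
private noncomputable def rhoEnt (g : C(unitInterval, Matrix (Fin n) (Fin n) ℂ)) (i j : Fin n) :
    C(unitInterval, ℂ) where
  toFun t := g t i j
  continuous_toFun := g.continuous.matrix_elem i j

/-- the point one third -/
private noncomputable def rhoThird : unitInterval := ⟨1 / 3, by norm_num, by norm_num⟩

/-- the scalar part -/
private noncomputable def rhoR [NeZero n] (q : C(unitInterval, Matrix (Fin n) (Fin n) ℂ)) :
    C(unitInterval, ℂ) where
  toFun t := q (min t rhoThird) 0 0
  continuous_toFun :=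
    (q.continuous.comp (continuous_id.min continuous_const)).matrix_elem 0 0

private theorem rhoMax_ne (t : unitInterval) : ((max (t : ℝ) (1 / 3) : ℝ) : ℂ) ≠ 0 := by
  have h : (0 : ℝ) < max (t : ℝ) (1 / 3) := lt_max_of_lt_right (by norm_num)
  exact_mod_cast h.ne'

/-- the remaining part divided by the coordinate -/
private noncomputable def rhoS [NeZero n] (q : C(unitInterval, Matrix (Fin n) (Fin n) ℂ)) :
    C(unitInterval, Matrix (Fin n) (Fin n) ℂ) where
  toFun t := ((max (t : ℝ) (1 / 3) : ℝ) : ℂ)⁻¹ • (q t - rhoR q t • 1)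
  continuous_toFun := by
    refine Continuous.smul (Continuous.inv₀ ?_ rhoMax_ne) ?_
    · exact Complex.continuous_ofReal.comp (continuous_subtype_val.max continuous_const)
    · exact q.continuous.sub ((rhoR q).continuous.smul continuous_const)

private theorem rho_decomp [NeZero n] (q : C(unitInterval, Matrix (Fin n) (Fin n) ℂ))
    (t : unitInterval) :
    q t = rhoR q t • 1 + ((max (t : ℝ) (1 / 3) : ℝ) : ℂ) • rhoS q t := by
  change q t = rhoR q t • 1 + ((max (t : ℝ) (1 / 3) : ℝ) : ℂ) •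
    (((max (t : ℝ) (1 / 3) : ℝ) : ℂ)⁻¹ • (q t - rhoR q t • 1))
  rw [smul_inv_smul₀ (rhoMax_ne t)]
  abel

private theorem rho_scalar [NeZero n] {q : C(unitInterval, Matrix (Fin n) (Fin n) ℂ)}
    (hq : q ∈ scalarNear n) {t : unitInterval} (ht : (t : ℝ) ≤ 1 / 3) : q t = rhoR q t • 1 := by
  obtain ⟨z, hz⟩ := hq t ht
  have e : min t rhoThird = t := min_eq_left ht
  have h2 : rhoR q t = z := by
    change q (min t rhoThird) 0 0 = z
    rw [e, hz]
    simp
  rw [h2, hz]

private theorem rhoS_eq_zero [NeZero n] {q : C(unitInterval, Matrix (Fin n) (Fin n) ℂ)}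
    (hq : q ∈ scalarNear n) {t : unitInterval} (ht : (t : ℝ) ≤ 1 / 3) : rhoS q t = 0 := by
  change ((max (t : ℝ) (1 / 3) : ℝ) : ℂ)⁻¹ • (q t - rhoR q t • 1) = 0
  rw [← rho_scalar hq ht, sub_self, smul_zero]

private theorem rhoR_scalar [NeZero n] {q : C(unitInterval, Matrix (Fin n) (Fin n) ℂ)}
    (hq : q ∈ scalarNear n) (t : unitInterval) : q (min t rhoThird) = rhoR q t • 1 := by
  have h1 : ((min t rhoThird : unitInterval) : ℝ) ≤ 1 / 3 := by
    have : min t rhoThird ≤ rhoThird := min_le_right _ _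
    exact this
  have h2 := rho_scalar hq h1
  rw [h2]
  have e : rhoR q (min t rhoThird) = rhoR q t := by
    change q (min (min t rhoThird) rhoThird) 0 0 = q (min t rhoThird) 0 0
    rw [min_assoc, min_self]
  rw [e]

private theorem rhoR_mul [NeZero n] {q q' : C(unitInterval, Matrix (Fin n) (Fin n) ℂ)}
    (hq : q ∈ scalarNear n) (hq' : q' ∈ scalarNear n) : rhoR (q * q') = rhoR q * rhoR q' := by
  ext t
  change (q * q') (min t rhoThird) 0 0 = rhoR q t * rhoR q' t
  rw [ContinuousMap.mul_apply, rhoR_scalar hq, rhoR_scalar hq', smul_mul_smul_comm, mul_one]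
  simp

/-- a scalar function times a matrix valued function -/
private noncomputable def rhoSm (r : C(unitInterval, ℂ))
    (g : C(unitInterval, Matrix (Fin n) (Fin n) ℂ)) :
    C(unitInterval, Matrix (Fin n) (Fin n) ℂ) where
  toFun t := r t • g t
  continuous_toFun := r.continuous.smul g.continuous

private theorem rhoS_mul [NeZero n] {q q' : C(unitInterval, Matrix (Fin n) (Fin n) ℂ)}
    (hq : q ∈ scalarNear n) (hq' : q' ∈ scalarNear n) :
    rhoS (q * q') = rhoSm (rhoR q) (rhoS q') + rhoSm (rhoR q') (rhoS q) +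
      rhoSm coordFun (rhoS q * rhoS q') := by
  refine ContinuousMap.ext fun t => ?_
  have hM := rhoMax_ne t
  have h1 := rho_decomp (q * q') t
  have h2 := rho_decomp q t
  have h3 := rho_decomp q' t
  rw [ContinuousMap.mul_apply] at h1
  rw [rhoR_mul hq hq', ContinuousMap.mul_apply] at h1
  have h4 : (((max (t : ℝ) (1 / 3) : ℝ) : ℂ) - ((t : ℝ) : ℂ)) • (rhoS q t * rhoS q' t) = 0 := by
    rcases le_total (t : ℝ) (1 / 3) with ht | ht
    · rw [rhoS_eq_zero hq ht, zero_mul, smul_zero]
    · rw [max_eq_left ht, sub_self, zero_smul]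
  change rhoS (q * q') t = rhoR q t • rhoS q' t + rhoR q' t • rhoS q t +
    ((t : ℝ) : ℂ) • (rhoS q t * rhoS q' t)
  have h5 : ((max (t : ℝ) (1 / 3) : ℝ) : ℂ) • rhoS (q * q') t =
      ((max (t : ℝ) (1 / 3) : ℝ) : ℂ) • (rhoR q t • rhoS q' t + rhoR q' t • rhoS q t +
    ((max (t : ℝ) (1 / 3) : ℝ) : ℂ) • (rhoS q t * rhoS q' t)) := by
    have h6 : ((max (t : ℝ) (1 / 3) : ℝ) : ℂ) • rhoS (q * q') t =
        q t * q' t - (rhoR q t * rhoR q' t) • (1 : Matrix (Fin n) (Fin n) ℂ) := by
      rw [h1]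
      abel
    rw [h6, h2, h3]
    generalize ((max (t : ℝ) (1 / 3) : ℝ) : ℂ) = M
    generalize rhoR q t = a
    generalize rhoR q' t = b
    generalize rhoS q t = A
    generalize rhoS q' t = B
    simp only [add_mul, mul_add, smul_mul_assoc, mul_smul_comm, one_mul, mul_one]
    module
  have h7 := smul_right_injective _ hM h5
  rw [h7, ← sub_eq_zero, ← h4]
  rw [sub_smul]
  abel

end Functions

/-! ### The linear part -/

section Linear

variable {n : ℕ} {F : Type u} [CStarAlgebra F]

/-- the linear extension of `g ⊗ m ↦ g(h) φ(m)` -/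
private noncomputable def rhoT (φ : OZ (Fin n) F) (hn : IsStarNormal (φ.map 1))
    (g : C(unitInterval, Matrix (Fin n) (Fin n) ℂ)) : F :=
  ∑ i, ∑ j, rhoG hn (rhoEnt g i j) * φ.map (Matrix.single i j 1)

private theorem rhoT_add (φ : OZ (Fin n) F) (hn : IsStarNormal (φ.map 1))
    (g g' : C(unitInterval, Matrix (Fin n) (Fin n) ℂ)) :
    rhoT φ hn (g + g') = rhoT φ hn g + rhoT φ hn g' := by
  unfold rhoT
  rw [← Finset.sum_add_distrib]
  refine Finset.sum_congr rfl fun i _ => ?_
  rw [← Finset.sum_add_distrib]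
  refine Finset.sum_congr rfl fun j _ => ?_
  rw [show rhoEnt (g + g') i j = rhoEnt g i j + rhoEnt g' i j from rfl, map_add, add_mul]

private theorem rhoT_sm (φ : OZ (Fin n) F) (hn : IsStarNormal (φ.map 1)) (r : C(unitInterval, ℂ))
    (g : C(unitInterval, Matrix (Fin n) (Fin n) ℂ)) :
    rhoT φ hn (rhoSm r g) = rhoG hn r * rhoT φ hn g := by
  unfold rhoT
  rw [Finset.mul_sum]
  refine Finset.sum_congr rfl fun i _ => ?_
  rw [Finset.mul_sum]
  refine Finset.sum_congr rfl fun j _ => ?_
  rw [show rhoEnt (rhoSm r g) i j = r * rhoEnt g i j from rfl, map_mul, mul_assoc]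

private theorem rhoG_comm (φ : OZ (Fin n) F) (hn : IsStarNormal (φ.map 1))
    (g : C(unitInterval, ℂ)) (m : Matrix (Fin n) (Fin n) ℂ) :
    rhoG hn g * φ.map m = φ.map m * rhoG hn g :=
  (rhoG_commute hn φ.one_isSelfAdjoint (φ.one_mul_comm m) g).eq

private theorem rhoT_comm (φ : OZ (Fin n) F) (hn : IsStarNormal (φ.map 1))
    (r : C(unitInterval, ℂ)) (g : C(unitInterval, Matrix (Fin n) (Fin n) ℂ)) :
    rhoT φ hn g * rhoG hn r = rhoG hn r * rhoT φ hn g := by
  unfold rhoT
  rw [Finset.mul_sum, Finset.sum_mul]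
  refine Finset.sum_congr rfl fun i _ => ?_
  rw [Finset.mul_sum, Finset.sum_mul]
  refine Finset.sum_congr rfl fun j _ => ?_
  rw [mul_assoc, ← rhoG_comm, ← mul_assoc, ← mul_assoc, ← map_mul, ← map_mul, mul_comm]

private theorem rhoT_mul (φ : OZ (Fin n) F) (hn : IsStarNormal (φ.map 1))
    (g g' : C(unitInterval, Matrix (Fin n) (Fin n) ℂ)) :
    rhoT φ hn g * rhoT φ hn g' = φ.map 1 * rhoT φ hn (g * g') := by
  have hterm : ∀ i j k l, (rhoG hn (rhoEnt g i j) * φ.map (Matrix.single i j 1)) *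
      (rhoG hn (rhoEnt g' k l) * φ.map (Matrix.single k l 1)) =
      if j = k then φ.map 1 * (rhoG hn (rhoEnt g i j * rhoEnt g' k l) *
        φ.map (Matrix.single i l 1)) else 0 := by
    intro i j k l
    have e1 : (rhoG hn (rhoEnt g i j) * φ.map (Matrix.single i j 1)) *
        (rhoG hn (rhoEnt g' k l) * φ.map (Matrix.single k l 1)) =
        rhoG hn (rhoEnt g i j * rhoEnt g' k l) *
          (φ.map (Matrix.single i j 1) * φ.map (Matrix.single k l 1)) := by
      rw [map_mul, mul_assoc, ← mul_assoc (φ.map (Matrix.single i j 1)), ← rhoG_comm]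
      simp only [mul_assoc]
    rw [e1, φ.map_mul]
    split_ifs with h
    · subst h
      rw [Matrix.single_mul_single_same, one_mul, ← mul_assoc, rhoG_comm, mul_assoc]
    · rw [Matrix.single_mul_single_of_ne (h := h), map_zero, mul_zero, mul_zero]
  unfold rhoT
  rw [Finset.sum_mul, Finset.mul_sum]
  refine Finset.sum_congr rfl fun i _ => ?_
  rw [Finset.sum_mul]
  have e2 : ∀ j, (rhoG hn (rhoEnt g i j) * φ.map (Matrix.single i j 1)) *
      (∑ k, ∑ l, rhoG hn (rhoEnt g' k l) * φ.map (Matrix.single k l 1)) =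
      ∑ l, φ.map 1 * (rhoG hn (rhoEnt g i j * rhoEnt g' j l) * φ.map (Matrix.single i l 1)) := by
    intro j
    rw [Finset.mul_sum, Finset.sum_eq_single j]
    · rw [Finset.mul_sum]
      refine Finset.sum_congr rfl fun l _ => ?_
      rw [hterm, if_pos rfl]
    · intro k _ hk
      rw [Finset.mul_sum]
      refine Finset.sum_eq_zero fun l _ => ?_
      rw [hterm, if_neg (Ne.symm hk)]
    · intro h
      exact absurd (Finset.mem_univ j) h
  simp only [e2]
  rw [Finset.sum_comm, Finset.mul_sum]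
  refine Finset.sum_congr rfl fun l _ => ?_
  have e3 : rhoEnt (g * g') i l = ∑ j, rhoEnt g i j * rhoEnt g' j l := by
    ext t
    rw [ContinuousMap.coe_sum, Finset.sum_apply]
    change (g t * g' t) i l = _
    rw [Matrix.mul_apply]
    rfl
  rw [e3, map_sum, Finset.sum_mul, Finset.mul_sum]

private theorem rhoT_star (φ : OZ (Fin n) F) (hn : IsStarNormal (φ.map 1))
    (g : C(unitInterval, Matrix (Fin n) (Fin n) ℂ)) :
    rhoT φ hn (star g) = star (rhoT φ hn g) := by
  unfold rhoT
  rw [star_sum, Finset.sum_comm]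
  refine Finset.sum_congr rfl fun i _ => ?_
  rw [star_sum]
  refine Finset.sum_congr rfl fun j _ => ?_
  rw [star_mul, ← map_star (rhoG hn), ← φ.map_star]
  have e1 : rhoEnt (star g) j i = star (rhoEnt g i j) := by
    ext t
    rfl
  have e2 : star (Matrix.single i j (1 : ℂ)) = Matrix.single j i 1 := by
    rw [Matrix.star_eq_conjTranspose, Matrix.conjTranspose_single, star_one]
  rw [e1, e2, rhoG_comm]

private theorem rhoT_scalarFun (φ : OZ (Fin n) F) (hn : IsStarNormal (φ.map 1))
    (r : C(unitInterval, ℂ)) : rhoT φ hn (scalarFun n r) = rhoG hn r * φ.map 1 := by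
  unfold rhoT
  have e : ∀ i, ∑ j, rhoG hn (rhoEnt (scalarFun n r) i j) * φ.map (Matrix.single i j 1) =
      rhoG hn r * φ.map (Matrix.single i i 1) := by
    intro i
    rw [Finset.sum_eq_single i]
    · have e1 : rhoEnt (scalarFun n r) i i = r := by
        ext t
        change (r t • (1 : Matrix (Fin n) (Fin n) ℂ)) i i = r t
        simp
      rw [e1]
    · intro j _ hj
      have e1 : rhoEnt (scalarFun n r) i j = 0 := by
        ext t
        change (r t • (1 : Matrix (Fin n) (Fin n) ℂ)) i j = 0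
        simp [Matrix.one_apply_ne (Ne.symm hj)]
      rw [e1, map_zero, zero_mul]
    · intro h
      exact absurd (Finset.mem_univ i) h
  simp only [e]
  rw [← Finset.mul_sum, ← map_sum]
  congr 2
  ext a b
  rw [Matrix.sum_apply]
  simp only [Matrix.single_apply, Matrix.one_apply]
  by_cases hab : a = b
  · subst hab
    simp
  · rw [if_neg hab]
    refine Finset.sum_eq_zero fun i _ => ?_
    rw [if_neg]
    rintro ⟨h1, h2⟩
    exact hab (h1.symm.trans h2)

private theorem rhoT_fix (φ : OZ (Fin n) F) (hn : IsStarNormal (φ.map 1))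
    (g : C(unitInterval, Matrix (Fin n) (Fin n) ℂ)) (m : Matrix (Fin n) (Fin n) ℂ) {y : F}
    (hy : φ.map 1 * y = y) : rhoT φ hn g * (φ.map m * y) = φ.map (g 1 * m) * y := by
  unfold rhoT
  have e : g 1 = ∑ i, ∑ j, g 1 i j • Matrix.single i j (1 : ℂ) := by
    conv_lhs => rw [Matrix.matrix_eq_sum_single (g 1)]
    refine Finset.sum_congr rfl fun i _ => Finset.sum_congr rfl fun j _ => ?_
    rw [Matrix.smul_single, smul_eq_mul, mul_one]
  rw [e]
  simp only [Finset.sum_mul, map_sum]
  refine Finset.sum_congr rfl fun i _ => Finset.sum_congr rfl fun j _ => ?_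
  rw [smul_mul_assoc, map_smul, smul_mul_assoc]
  have e1 : rhoG hn (rhoEnt g i j) * φ.map (Matrix.single i j 1) * (φ.map m * y) =
      rhoG hn (rhoEnt g i j) * (φ.map 1 * (φ.map (Matrix.single i j 1 * m) * y)) := by
    rw [mul_assoc, ← mul_assoc (φ.map (Matrix.single i j 1)), φ.map_mul, mul_assoc (φ.map 1)]
  have e2 : φ.map 1 * (φ.map (Matrix.single i j 1 * m) * y) =
      φ.map (Matrix.single i j 1 * m) * y := by
    rw [← mul_assoc, φ.one_mul_comm, mul_assoc, hy]
  rw [e1, e2, ← mul_assoc, rhoG_comm, mul_assoc, rhoG_fix hn φ.one_isSelfAdjoint hy,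
    mul_smul_comm]
  rfl

end Linear

theorem exists_rho {n : ℕ} [NeZero n] {F : Type u} [CStarAlgebra F] (φ : OZ (Fin n) F)
    (h1 : φ.map 1 ≤ 1) :
    ∃ ρ : scalarNear n →⋆ₐ[ℂ] F,
      ρ ⟨scalarFun n coordFun, scalarFun_mem n coordFun⟩ = φ.map 1 ∧
      ∀ (q : scalarNear n) (m : Matrix (Fin n) (Fin n) ℂ) (y : F), φ.map 1 * y = y →
        ρ q * (φ.map m * y) = φ.map ((q : C(unitInterval, Matrix (Fin n) (Fin n) ℂ)) 1 * m) * y := by
  have hsa : IsSelfAdjoint (φ.map 1) := φ.one_isSelfAdjoint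
  have hn : IsStarNormal (φ.map 1) := hsa.isStarNormal
  have h0 : 0 ≤ φ.map 1 := by
    obtain ⟨k, hk⟩ := φ.nonneg
    rw [hk]
    exact star_mul_self_nonneg k
  have hcoord : rhoG hn coordFun = φ.map 1 := rhoG_coord hn hsa h0 h1
  have hR1 : rhoR (1 : C(unitInterval, Matrix (Fin n) (Fin n) ℂ)) = 1 := by
    ext t
    change (1 : Matrix (Fin n) (Fin n) ℂ) 0 0 = 1
    simp
  have hRs : ∀ z : ℂ, rhoR (algebraMap ℂ C(unitInterval, Matrix (Fin n) (Fin n) ℂ) z) =
      algebraMap ℂ C(unitInterval, ℂ) z := by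
    intro z
    ext t
    change (algebraMap ℂ (Matrix (Fin n) (Fin n) ℂ) z) 0 0 = z
    simp [Matrix.algebraMap_matrix_apply]
  have hSs : ∀ z : ℂ, rhoS (algebraMap ℂ C(unitInterval, Matrix (Fin n) (Fin n) ℂ) z) = 0 := by
    intro z
    refine ContinuousMap.ext fun t => ?_
    change ((max (t : ℝ) (1 / 3) : ℝ) : ℂ)⁻¹ • (algebraMap ℂ (Matrix (Fin n) (Fin n) ℂ) z -
      rhoR (algebraMap ℂ C(unitInterval, Matrix (Fin n) (Fin n) ℂ) z) t • 1) = 0
    rw [hRs]
    change ((max (t : ℝ) (1 / 3) : ℝ) : ℂ)⁻¹ • (algebraMap ℂ (Matrix (Fin n) (Fin n) ℂ) z -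
      z • 1) = 0
    rw [Algebra.algebraMap_eq_smul_one, sub_self, smul_zero]
  have hT0 : rhoT φ hn 0 = 0 := by
    have := rhoT_add φ hn 0 0
    rw [add_zero] at this
    simpa using this
  have hRadd : ∀ q q' : C(unitInterval, Matrix (Fin n) (Fin n) ℂ),
      rhoR (q + q') = rhoR q + rhoR q' := fun q q' => rfl
  have hSadd : ∀ q q' : C(unitInterval, Matrix (Fin n) (Fin n) ℂ),
      rhoS (q + q') = rhoS q + rhoS q' := by
    intro q q'
    refine ContinuousMap.ext fun t => ?_
    change ((max (t : ℝ) (1 / 3) : ℝ) : ℂ)⁻¹ • (q t + q' t - (rhoR q t + rhoR q' t) • 1) =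
      ((max (t : ℝ) (1 / 3) : ℝ) : ℂ)⁻¹ • (q t - rhoR q t • 1) +
      ((max (t : ℝ) (1 / 3) : ℝ) : ℂ)⁻¹ • (q' t - rhoR q' t • 1)
    rw [← smul_add, add_smul]
    congr 1
    abel
  have hRstar : ∀ q : C(unitInterval, Matrix (Fin n) (Fin n) ℂ),
      rhoR (star q) = star (rhoR q) := fun q => rfl
  have hSstar : ∀ q : C(unitInterval, Matrix (Fin n) (Fin n) ℂ),
      rhoS (star q) = star (rhoS q) := by
    intro q
    refine ContinuousMap.ext fun t => ?_
    change ((max (t : ℝ) (1 / 3) : ℝ) : ℂ)⁻¹ • (star (q t) - star (rhoR q t) • 1) =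
      star (((max (t : ℝ) (1 / 3) : ℝ) : ℂ)⁻¹ • (q t - rhoR q t • 1))
    rw [star_smul, star_sub, star_smul, star_one, star_inv₀]
    congr 2
    exact (Complex.conj_ofReal _).symm
  let ρ : scalarNear n →⋆ₐ[ℂ] F :=
    { toFun := fun q => rhoG hn (rhoR (q : C(unitInterval, Matrix (Fin n) (Fin n) ℂ))) +
        rhoT φ hn (rhoS (q : C(unitInterval, Matrix (Fin n) (Fin n) ℂ)))
      map_one' := by
        have := hSs 1
        rw [map_one] at this
        change rhoG hn (rhoR 1) + rhoT φ hn (rhoS 1) = 1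
        rw [hR1, this, hT0, map_one, add_zero]
      map_mul' := by
        intro q q'
        change rhoG hn (rhoR ((q : C(unitInterval, Matrix (Fin n) (Fin n) ℂ)) *
            (q' : C(unitInterval, Matrix (Fin n) (Fin n) ℂ)))) +
          rhoT φ hn (rhoS ((q : C(unitInterval, Matrix (Fin n) (Fin n) ℂ)) *
            (q' : C(unitInterval, Matrix (Fin n) (Fin n) ℂ)))) = _
        rw [rhoR_mul q.2 q'.2, rhoS_mul q.2 q'.2, rhoT_add, rhoT_add, rhoT_sm, rhoT_sm, rhoT_sm,
          hcoord, ← rhoT_mul, map_mul, add_mul, mul_add, mul_add, rhoT_comm]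
        abel
      map_zero' := by
        have := hSs 0
        have h2 := hRs 0
        rw [map_zero, map_zero] at h2
        rw [map_zero] at this
        change rhoG hn (rhoR 0) + rhoT φ hn (rhoS 0) = 0
        rw [h2, this, hT0, map_zero, add_zero]
      map_add' := by
        intro q q'
        change rhoG hn (rhoR ((q : C(unitInterval, Matrix (Fin n) (Fin n) ℂ)) +
            (q' : C(unitInterval, Matrix (Fin n) (Fin n) ℂ)))) +
          rhoT φ hn (rhoS ((q : C(unitInterval, Matrix (Fin n) (Fin n) ℂ)) +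
            (q' : C(unitInterval, Matrix (Fin n) (Fin n) ℂ)))) = _
        rw [hRadd, hSadd, map_add, rhoT_add]
        abel
      commutes' := by
        intro z
        change rhoG hn (rhoR (algebraMap ℂ C(unitInterval, Matrix (Fin n) (Fin n) ℂ) z)) +
          rhoT φ hn (rhoS (algebraMap ℂ C(unitInterval, Matrix (Fin n) (Fin n) ℂ) z)) = _
        rw [hRs, hSs, hT0, add_zero, AlgHomClass.commutes]
      map_star' := by
        intro q
        change rhoG hn (rhoR (star (q : C(unitInterval, Matrix (Fin n) (Fin n) ℂ)))) +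
          rhoT φ hn (rhoS (star (q : C(unitInterval, Matrix (Fin n) (Fin n) ℂ)))) = _
        rw [hRstar, hSstar, map_star, rhoT_star, ← star_add] }
  refine ⟨ρ, ?_, ?_⟩
  · change rhoG hn (rhoR (scalarFun n coordFun)) + rhoT φ hn (rhoS (scalarFun n coordFun)) = _
    have hk : Continuous fun t : unitInterval => ((max (t : ℝ) (1 / 3) : ℝ) : ℂ)⁻¹ *
        (((t : ℝ) : ℂ) - ((min (t : ℝ) (1 / 3) : ℝ) : ℂ)) := by
      refine Continuous.mul (Continuous.inv₀ ?_ rhoMax_ne) (Continuous.sub ?_ ?_)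
      · exact Complex.continuous_ofReal.comp (continuous_subtype_val.max continuous_const)
      · exact Complex.continuous_ofReal.comp continuous_subtype_val
      · exact Complex.continuous_ofReal.comp (continuous_subtype_val.min continuous_const)
    have hRc : ∀ t : unitInterval, rhoR (scalarFun n coordFun) t =
        ((min (t : ℝ) (1 / 3) : ℝ) : ℂ) := by
      intro t
      change (((((min t rhoThird : unitInterval) : ℝ) : ℂ)) •
        (1 : Matrix (Fin n) (Fin n) ℂ)) 0 0 = _
      have e : ((min t rhoThird : unitInterval) : ℝ) = min (t : ℝ) (1 / 3) := by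
        rcases le_total t rhoThird with h | h
        · rw [min_eq_left h, min_eq_left (show (t : ℝ) ≤ 1 / 3 from h)]
        · rw [min_eq_right h, min_eq_right (show (1 / 3 : ℝ) ≤ t from h)]
          rfl
      rw [e]
      simp
    have hS : rhoS (scalarFun n coordFun) = scalarFun n ⟨_, hk⟩ := by
      refine ContinuousMap.ext fun t => ?_
      change ((max (t : ℝ) (1 / 3) : ℝ) : ℂ)⁻¹ • (((t : ℝ) : ℂ) • (1 : Matrix (Fin n) (Fin n) ℂ) -
        rhoR (scalarFun n coordFun) t • 1) = (((max (t : ℝ) (1 / 3) : ℝ) : ℂ)⁻¹ *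
        (((t : ℝ) : ℂ) - ((min (t : ℝ) (1 / 3) : ℝ) : ℂ))) • (1 : Matrix (Fin n) (Fin n) ℂ)
      rw [hRc, ← sub_smul, smul_smul]
    rw [hS, rhoT_scalarFun]
    have e0 : rhoG hn ⟨_, hk⟩ * φ.map 1 = rhoG hn (⟨_, hk⟩ * coordFun) := by
      rw [map_mul, hcoord]
    rw [e0, ← map_add]
    have e : rhoR (scalarFun n coordFun) + ⟨_, hk⟩ * coordFun = coordFun := by
      ext t
      change rhoR (scalarFun n coordFun) t + ((max (t : ℝ) (1 / 3) : ℝ) : ℂ)⁻¹ *
        (((t : ℝ) : ℂ) - ((min (t : ℝ) (1 / 3) : ℝ) : ℂ)) * ((t : ℝ) : ℂ) = ((t : ℝ) : ℂ)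
      rw [hRc]
      rcases le_total (t : ℝ) (1 / 3) with ht | ht
      · rw [min_eq_left ht, sub_self, mul_zero, zero_mul, add_zero]
      · have hM := rhoMax_ne t
        rw [max_eq_left ht] at hM ⊢
        rw [min_eq_right ht]
        field_simp
        ring
    rw [e, hcoord]
  · intro q m y hy
    change (rhoG hn (rhoR (q : C(unitInterval, Matrix (Fin n) (Fin n) ℂ))) +
        rhoT φ hn (rhoS (q : C(unitInterval, Matrix (Fin n) (Fin n) ℂ)))) * (φ.map m * y) = _
    rw [add_mul, rhoT_fix φ hn _ m hy, ← mul_assoc, rhoG_comm, mul_assoc,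
      rhoG_fix hn hsa hy]
    have hd := rho_decomp (q : C(unitInterval, Matrix (Fin n) (Fin n) ℂ)) 1
    have hmax : ((max ((1 : unitInterval) : ℝ) (1 / 3) : ℝ) : ℂ) = 1 := by
      rw [max_eq_left (show (1 / 3 : ℝ) ≤ ((1 : unitInterval) : ℝ) by
        change (1 / 3 : ℝ) ≤ 1
        norm_num)]
      change (((1 : ℝ)) : ℂ) = 1
      exact Complex.ofReal_one
    rw [hmax, one_smul] at hd
    rw [hd, add_mul, map_add, add_mul, smul_mul_assoc, one_mul, map_smul, smul_mul_assoc,
      mul_smul_comm]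

end P101
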