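import Mathlib.Analysis.CStarAlgebra.ContinuousFunctionalCalculus.Order
import Mathlib.Analysis.CStarAlgebra.ContinuousFunctionalCalculus.Range
import Vale.Agent.Lib.P101.Base

/-!
# Key lemma, part A: symmetric selfadjoint elements and excision
-/

open scoped ENNReal Topology
open Filter Matrix

namespace P101

attribute [local instance] CStarAlgebra.spectralOrder CStarAlgebra.spectralOrderedRing

universe u

/-- selfadjoint, and for every real `r`: `a ≤ r` if and only if `-a ≤ r`. -/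
def SymSA {Q : Type u} [CStarAlgebra Q] (a : Q) : Prop :=
  IsSelfAdjoint a ∧ ∀ r : ℝ, a ≤ algebraMap ℝ Q r ↔ -a ≤ algebraMap ℝ Q r

/-- For a symmetric selfadjoint element: if `r < ‖a‖` then not `a ≤ r`, and not `-r ≤ a`.
Proof: if `a ≤ r` then also `-a ≤ r`, so `‖a‖ ≤ r` (and `r ≥ 0` since `0 ≤ 2 r`, `Q` nontrivial). -/
theorem SymSA.not_le {Q : Type u} [CStarAlgebra Q] [Nontrivial Q] {a : Q} (ha : SymSA a) {r : ℝ}
    (hr : r < ‖a‖) : ¬ a ≤ algebraMap ℝ Q r ∧ ¬ algebraMap ℝ Q (-r) ≤ a := by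
  have key : ¬ a ≤ algebraMap ℝ Q r := by
    intro h
    have h' := (ha.2 r).1 h
    have hs := ha.1
    have hs' : IsSelfAdjoint (-a) := hs.neg
    rw [le_algebraMap_iff_spectrum_le] at h h'
    rcases CStarAlgebra.norm_or_neg_norm_mem_spectrum (a := a) hs with h1 | h1
    · exact absurd (h _ h1) (_root_.not_le.2 hr)
    · have h2 : ‖a‖ ∈ spectrum ℝ (-a) := by
        rw [← spectrum.neg_eq]
        simpa using h1
      exact absurd (h' _ h2) (_root_.not_le.2 hr)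
  refine ⟨key, ?_⟩
  intro h
  apply key
  rw [ha.2 r]
  rw [map_neg] at h
  exact neg_le.1 h

theorem KeyA_posPart_mul {Q : Type u} [CStarAlgebra Q] {x : Q} (hx : IsSelfAdjoint x) :
    x⁺ * x = x⁺ * x⁺ := by
  have h1 := CFC.posPart_mul_negPart x
  calc x⁺ * x = x⁺ * (x⁺ - x⁻) := by rw [CFC.posPart_sub_negPart x hx]
    _ = _ := by rw [mul_sub, h1, sub_zero]

/-- the positive part lies in the closed subalgebra -/
theorem KeyA_posPart_mem {Q : Type u} [CStarAlgebra Q] (B : StarSubalgebra ℂ Q)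
    (hB : IsClosed (B : Set Q)) {x : Q} (hx : x ∈ B) : x⁺ ∈ B := by
  have := hB
  rw [CFC.posPart_def]
  exact cfcₙ_mem (𝕜' := ℂ) _ hx

/-- for `w` selfadjoint, not `≤ 0`, and `r = w⁺`: `r w r = r^3 ≥ 0` is nonzero -/
theorem KeyA_cube {Q : Type u} [CStarAlgebra Q] {w : Q} (hw : IsSelfAdjoint w) (h : ¬ w ≤ 0) :
    w⁺ ≠ 0 ∧ IsSelfAdjoint w⁺ ∧ 0 ≤ w⁺ * w * w⁺ ∧ w⁺ * w * w⁺ ≠ 0 := by
  have h0 : w⁺ ≠ 0 := fun h0 => h ((CFC.posPart_eq_zero_iff w hw).1 h0)
  have hnn : 0 ≤ w⁺ := CFC.posPart_nonneg w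
  have hsa : IsSelfAdjoint w⁺ := IsSelfAdjoint.of_nonneg hnn
  have e : w⁺ * w * w⁺ = w⁺ * w⁺ * w⁺ := by rw [KeyA_posPart_mul hw]
  refine ⟨h0, hsa, ?_, ?_⟩
  · rw [e]
    exact conjugate_nonneg_of_nonneg hnn hnn
  · rw [e]
    intro h3
    have h4 : star (w⁺ * w⁺) * (w⁺ * w⁺) = 0 := by
      rw [star_mul, hsa.star_eq]
      calc w⁺ * w⁺ * (w⁺ * w⁺) = (w⁺ * w⁺ * w⁺) * w⁺ := by simp only [mul_assoc]
        _ = 0 := by rw [h3, zero_mul]
    have h5 : w⁺ * w⁺ = 0 := (CStarRing.star_mul_self_eq_zero_iff _).1 h4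
    have h6 : star w⁺ * w⁺ = 0 := by rw [hsa.star_eq, h5]
    exact h0 ((CStarRing.star_mul_self_eq_zero_iff _).1 h6)

/-- **Excision.** Let `B` be a closed *-subalgebra, `a, a' ∈ B` selfadjoint, `α` real with
not `α ≤ a`, and `η > 0`.  There are `0 ≠ c ∈ B` and a real `β` with `|β| ≤ ‖a'‖`,
`c* a c ≤ α c* c` and `(β - η) c* c ≤ c* a' c ≤ β c* c`.

Proof.  `e = (α - a)⁺ ∈ B` (`cfc`, `cfc_mem`), selfadjoint, commuting with `a`, `e ≠ 0`, and
`e a e ≤ α e²` because `e (α - a) e = e³ ≥ 0`.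
Let `T = {t : ℝ | e a' e ≤ t • e²}`; `‖a'‖ ∈ T`; `T` is bounded below by `-‖a'‖` because
`-‖a'‖ e² ≤ e a' e ≤ t e²` and `e² ≠ 0`, `e² ≥ 0` (if `t < -‖a'‖` then `(−‖a'‖ − t) e² ≤ 0`, so
`e² ≤ 0`, `e² = 0`).  `T` is closed, so `β = sInf T ∈ T`, `β - η ∉ T`.
Let `w = e a' e - (β - η) e²` (selfadjoint, not `≤ 0`), `r = w⁺ ≠ 0`, `c = e r`.
`c* a' c - (β - η) c* c = r w r = r³ ≥ 0` and it is `≠ 0`, so `c ≠ 0`; the other two inequalities
follow by conjugating `e a e ≤ α e²` and `e a' e ≤ β e²` with `r`. -/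
theorem excise {Q : Type u} [CStarAlgebra Q] [Nontrivial Q] (B : StarSubalgebra ℂ Q)
    (hB : IsClosed (B : Set Q)) {a a' : Q} (ha : a ∈ B) (ha' : a' ∈ B) (sa : IsSelfAdjoint a)
    (sa' : IsSelfAdjoint a') {α η : ℝ} (hη : 0 < η) (hα : ¬ algebraMap ℝ Q α ≤ a) :
    ∃ c ∈ B, ∃ β : ℝ, c ≠ 0 ∧ |β| ≤ ‖a'‖ ∧ star c * a * c ≤ α • (star c * c) ∧
      (β - η) • (star c * c) ≤ star c * a' * c ∧ star c * a' * c ≤ β • (star c * c) := by
  have hmap : ∀ t : ℝ, algebraMap ℝ Q t ∈ B := by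
    intro t
    rw [IsScalarTower.algebraMap_apply ℝ ℂ Q]
    exact B.algebraMap_mem _
  have hmapsa : ∀ t : ℝ, IsSelfAdjoint (algebraMap ℝ Q t) := fun t =>
    (IsSelfAdjoint.all t).algebraMap Q
  have hconj : ∀ (t : ℝ) (s : Q), s * algebraMap ℝ Q t * s = t • (s * s) := by
    intro t s
    rw [← Algebra.commutes, mul_assoc, Algebra.smul_def]
  set x : Q := algebraMap ℝ Q α - a with hx
  have hxsa : IsSelfAdjoint x := (hmapsa α).sub sa
  have hxB : x ∈ B := sub_mem (hmap α) ha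
  have hx0 : ¬ x ≤ 0 := by
    rw [hx, sub_nonpos]
    exact hα
  obtain ⟨he0, hesa, hepos, _⟩ := KeyA_cube hxsa hx0
  have heB : x⁺ ∈ B := KeyA_posPart_mem B hB hxB
  have hnn : 0 ≤ x⁺ := CFC.posPart_nonneg x
  set e : Q := x⁺ with he
  -- (1)
  have h1 : e * a * e ≤ α • (e * e) := by
    rw [hx, mul_sub, sub_mul, hconj] at hepos
    exact sub_nonneg.1 hepos
  have hee : 0 ≤ e * e := by
    have := star_mul_self_nonneg e
    rwa [hesa.star_eq] at this
  have hee0 : e * e ≠ 0 := by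
    intro h
    apply he0
    apply (CStarRing.star_mul_self_eq_zero_iff e).1
    rw [hesa.star_eq]
    exact h
  -- (2)
  set T : Set ℝ := {t : ℝ | e * a' * e ≤ t • (e * e)} with hT
  have hTn : ‖a'‖ ∈ T := by
    have := conjugate_le_conjugate_of_nonneg (IsSelfAdjoint.le_algebraMap_norm_self (a := a') sa')
      hnn
    rwa [hconj] at this
  have hTlow : ∀ t ∈ T, -‖a'‖ ≤ t := by
    intro t ht
    by_contra hcon
    rw [_root_.not_le] at hcon
    have h2 := conjugate_le_conjugate_of_nonneg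
      (IsSelfAdjoint.neg_algebraMap_norm_le_self (a := a') sa') hnn
    have h3 : (-‖a'‖) • (e * e) ≤ t • (e * e) := by
      refine le_trans (le_of_eq ?_) (h2.trans ht)
      rw [mul_neg, neg_mul, hconj, neg_smul]
    have h4 : 0 ≤ (t + ‖a'‖) • (e * e) := by
      rw [add_smul]
      rw [neg_smul] at h3
      exact neg_le_iff_add_nonneg.1 h3
    have h5 : t + ‖a'‖ < 0 := by linarith
    have h6 : 0 ≤ (-(t + ‖a'‖)) • (e * e) := smul_nonneg (by linarith) hee
    rw [neg_smul] at h6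
    have h7 : (t + ‖a'‖) • (e * e) = 0 := le_antisymm (by
      have := neg_nonneg.1 h6
      exact this) h4
    rcases smul_eq_zero.1 h7 with h8 | h8
    · linarith
    · exact hee0 h8
  have hTbdd : BddBelow T := ⟨-‖a'‖, fun t ht => hTlow t ht⟩
  have hTcl : IsClosed T := isClosed_le continuous_const (by fun_prop)
  set β := sInf T with hβ
  have hβT : β ∈ T := hTcl.csInf_mem ⟨_, hTn⟩ hTbdd
  have hβη : β - η ∉ T := notMem_of_lt_csInf (by linarith) hTbdd
  -- (3)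
  set w : Q := e * a' * e - (β - η) • (e * e) with hw
  have hwsa : IsSelfAdjoint w := by
    have i1 : IsSelfAdjoint (e * a' * e) := by
      have := sa'.conjugate e
      rwa [hesa.star_eq] at this
    have i2 : IsSelfAdjoint (e * e) := IsSelfAdjoint.of_nonneg hee
    exact i1.sub ((IsSelfAdjoint.all _).smul i2)
  have hw0 : ¬ w ≤ 0 := by
    rw [hw, sub_nonpos]
    exact hβη
  have hwB : w ∈ B := by
    refine sub_mem (mul_mem (mul_mem heB ha') heB) ?_
    rw [Algebra.smul_def]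
    exact mul_mem (hmap _) (mul_mem heB heB)
  obtain ⟨hr0, hrsa, hrpos, hrne⟩ := KeyA_cube hwsa hw0
  have hrB : w⁺ ∈ B := KeyA_posPart_mem B hB hwB
  have hrnn : 0 ≤ w⁺ := CFC.posPart_nonneg w
  set r : Q := w⁺ with hr
  have hstar : star (e * r) = r * e := by rw [star_mul, hesa.star_eq, hrsa.star_eq]
  have hcc : star (e * r) * (e * r) = r * (e * e) * r := by
    rw [hstar]; simp only [mul_assoc]
  have hcac : ∀ y : Q, star (e * r) * y * (e * r) = r * (e * y * e) * r := by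
    intro y
    rw [hstar]; simp only [mul_assoc]
  have hsm : ∀ t : ℝ, r * (t • (e * e)) * r = t • (r * (e * e) * r) := by
    intro t
    rw [mul_smul_comm, smul_mul_assoc]
  have hrw : r * w * r = star (e * r) * a' * (e * r) - (β - η) • (star (e * r) * (e * r)) := by
    rw [hcac, hcc, hw, mul_sub, sub_mul, hsm]
  refine ⟨e * r, mul_mem heB hrB, β, ?_, ?_, ?_, ?_, ?_⟩
  · intro hc0
    apply hrne
    rw [hrw, hc0]
    simp
  · rw [abs_le]
    exact ⟨hTlow β hβT, csInf_le hTbdd hTn⟩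
  · rw [hcac, hcc, ← hsm]
    exact conjugate_le_conjugate_of_nonneg h1 hrnn
  · rw [hrw] at hrpos
    exact sub_nonneg.1 hrpos
  · rw [hcac, hcc, ← hsm]
    exact conjugate_le_conjugate_of_nonneg hβT hrnn

end P101
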