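import Vale.Agent.Lib.P101.KeyA

/-!
# Key lemma, part B: evaluation at excising elements
-/

open scoped ENNReal Topology
open Filter Matrix

namespace P101

attribute [local instance] CStarAlgebra.spectralOrder CStarAlgebra.spectralOrderedRing

universe u

/-- Evaluation of `a₁ + b₂ + a₂ b₁ ≥ 0` at excising elements `c₁ ∈ B₁`, `c₂ ∈ B₂`.

Proof.  `P = c₁* c₁ ∈ B₁`, `R = c₂* c₂ ∈ B₂` are nonzero, positive, commuting; `P R ≥ 0`
(product of commuting positive elements, e.g. `P R = (P^{1/2} R^{1/2})* (P^{1/2} R^{1/2})`, or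
`Commute.mul_nonneg`), `P R ≠ 0`.  Since `c₂` commutes with `B₁` and `c₁` with `B₂`:
`0 ≤ (c₁ c₂)* (a₁ + b₂ + a₂ b₁) (c₁ c₂) = (c₁* a₁ c₁) R + P (c₂* b₂ c₂) + (c₁* a₂ c₁)(c₂* b₁ c₂)`.
`(c₁* a₁ c₁) R ≤ α P R`, `P (c₂* b₂ c₂) ≤ σ P R` (products of commuting positive elements).
Write `c₁* a₂ c₁ = β P - u`, `0 ≤ u ≤ η P`, `c₂* b₁ c₂ = τ R - v`, `0 ≤ v ≤ η R`; then
`(β P - u)(τ R - v) = β τ P R - β P v - τ u R + u v ≤ (β τ + |β| η + |τ| η + η²) P R`.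
So `0 ≤ (α + σ + β τ + η (|β| + |τ| + η)) P R` with `0 ≤ P R ≠ 0`. -/
theorem eval_excised {Q : Type u} [CStarAlgebra Q] [Nontrivial Q] (B₁ B₂ : StarSubalgebra ℂ Q)
    (hcomm : ∀ b ∈ B₁, ∀ c ∈ B₂, Commute b c)
    (hprod : ∀ b ∈ B₁, ∀ c ∈ B₂, b * c = 0 → b = 0 ∨ c = 0)
    {a₁ a₂ b₁ b₂ : Q} (ha₁ : a₁ ∈ B₁) (ha₂ : a₂ ∈ B₁) (hb₁ : b₁ ∈ B₂) (hb₂ : b₂ ∈ B₂)
    (hX : 0 ≤ a₁ + b₂ + a₂ * b₁) {c₁ c₂ : Q} (hc₁ : c₁ ∈ B₁) (hc₂ : c₂ ∈ B₂)
    (hc₁0 : c₁ ≠ 0) (hc₂0 : c₂ ≠ 0) {α β σ τ η : ℝ} (hη : 0 < η)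
    (h1 : star c₁ * a₁ * c₁ ≤ α • (star c₁ * c₁))
    (h2 : (β - η) • (star c₁ * c₁) ≤ star c₁ * a₂ * c₁)
    (h3 : star c₁ * a₂ * c₁ ≤ β • (star c₁ * c₁))
    (h4 : star c₂ * b₂ * c₂ ≤ σ • (star c₂ * c₂))
    (h5 : (τ - η) • (star c₂ * c₂) ≤ star c₂ * b₁ * c₂)
    (h6 : star c₂ * b₁ * c₂ ≤ τ • (star c₂ * c₂)) :
    0 ≤ α + σ + β * τ + η * (|β| + |τ| + η) := by
  have hs₁ : star c₁ ∈ B₁ := star_mem hc₁
  have hs₂ : star c₂ ∈ B₂ := star_mem hc₂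
  have hPm : star c₁ * c₁ ∈ B₁ := mul_mem hs₁ hc₁
  have hRm : star c₂ * c₂ ∈ B₂ := mul_mem hs₂ hc₂
  have hA1m : star c₁ * a₁ * c₁ ∈ B₁ := mul_mem (mul_mem hs₁ ha₁) hc₁
  have hA2m : star c₁ * a₂ * c₁ ∈ B₁ := mul_mem (mul_mem hs₁ ha₂) hc₁
  have hS1m : star c₂ * b₁ * c₂ ∈ B₂ := mul_mem (mul_mem hs₂ hb₁) hc₂
  have hS2m : star c₂ * b₂ * c₂ ∈ B₂ := mul_mem (mul_mem hs₂ hb₂) hc₂
  have hconj : star (c₁ * c₂) * (a₁ + b₂ + a₂ * b₁) * (c₁ * c₂) =
      (star c₁ * a₁ * c₁) * (star c₂ * c₂) + (star c₁ * c₁) * (star c₂ * b₂ * c₂) +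
        (star c₁ * a₂ * c₁) * (star c₂ * b₁ * c₂) := by
    have e1 : star c₂ * (star c₁ * a₁ * c₁) = (star c₁ * a₁ * c₁) * star c₂ :=
      (hcomm _ hA1m _ hs₂).symm.eq
    have e2 : star c₂ * (star c₁ * a₂ * c₁) = (star c₁ * a₂ * c₁) * star c₂ :=
      (hcomm _ hA2m _ hs₂).symm.eq
    have e3 : (star c₂ * b₂) * (star c₁ * c₁) = (star c₁ * c₁) * (star c₂ * b₂) :=
      (hcomm _ hPm _ (mul_mem hs₂ hb₂)).symm.eq
    have e4 : b₁ * c₁ = c₁ * b₁ := (hcomm _ hc₁ _ hb₁).symm.eq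
    have e5 : star c₁ * b₂ = b₂ * star c₁ := (hcomm _ hs₁ _ hb₂).eq
    calc star (c₁ * c₂) * (a₁ + b₂ + a₂ * b₁) * (c₁ * c₂)
        = star c₂ * (star c₁ * a₁ * c₁) * c₂ + star c₂ * (star c₁ * b₂) * c₁ * c₂ +
            star c₂ * (star c₁ * a₂ * (b₁ * c₁)) * c₂ := by
          rw [star_mul]; noncomm_ring
      _ = star c₂ * (star c₁ * a₁ * c₁) * c₂ + (star c₂ * b₂) * (star c₁ * c₁) * c₂ +
            star c₂ * (star c₁ * a₂ * c₁) * (b₁ * c₂) := by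
          rw [e4, e5]; noncomm_ring
      _ = (star c₁ * a₁ * c₁) * star c₂ * c₂ + (star c₁ * c₁) * (star c₂ * b₂) * c₂ +
            (star c₁ * a₂ * c₁) * star c₂ * (b₁ * c₂) := by
          rw [e1, e2, e3]
      _ = _ := by noncomm_ring
  have hconj0 : 0 ≤ star (c₁ * c₂) * (a₁ + b₂ + a₂ * b₁) * (c₁ * c₂) :=
    star_left_conjugate_nonneg hX _
  rw [hconj] at hconj0
  set P := star c₁ * c₁ with hP
  set R := star c₂ * c₂ with hR
  set A1 := star c₁ * a₁ * c₁ with hA1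
  set A2 := star c₁ * a₂ * c₁ with hA2
  set S1 := star c₂ * b₁ * c₂ with hS1
  set S2 := star c₂ * b₂ * c₂ with hS2
  have hP0 : 0 ≤ P := star_mul_self_nonneg c₁
  have hR0 : 0 ≤ R := star_mul_self_nonneg c₂
  have cPR : Commute P R := hcomm _ hPm _ hRm
  have cPS1 : Commute P S1 := hcomm _ hPm _ hS1m
  have cPS2 : Commute P S2 := hcomm _ hPm _ hS2m
  have cA1R : Commute A1 R := hcomm _ hA1m _ hRm
  have cA2R : Commute A2 R := hcomm _ hA2m _ hRm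
  have cA2S1 : Commute A2 S1 := hcomm _ hA2m _ hS1m
  have hPR0 : 0 ≤ P * R := Commute.mul_nonneg hP0 hR0 cPR
  have hP1 : P ≠ 0 := by
    rw [hP]; exact (CStarRing.star_mul_self_ne_zero_iff c₁).2 hc₁0
  have hR1 : R ≠ 0 := by
    rw [hR]; exact (CStarRing.star_mul_self_ne_zero_iff c₂).2 hc₂0
  have hPR1 : P * R ≠ 0 := by
    intro h
    rcases hprod _ hPm _ hRm h with h | h
    · exact hP1 h
    · exact hR1 h
  set u := β • P - A2 with hu
  set v := τ • R - S1 with hv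
  have hu0 : 0 ≤ u := sub_nonneg.2 h3
  have hv0 : 0 ≤ v := sub_nonneg.2 h6
  have hu1 : 0 ≤ η • P - u := by
    have : η • P - u = A2 - (β - η) • P := by rw [hu]; module
    rw [this]; exact sub_nonneg.2 h2
  have hv1 : 0 ≤ η • R - v := by
    have : η • R - v = S1 - (τ - η) • R := by rw [hv]; module
    rw [this]; exact sub_nonneg.2 h5
  have cuR : Commute u R := (cPR.smul_left β).sub_left cA2R
  have cPv : Commute P v := (cPR.smul_right τ).sub_right cPS1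
  have cA2v : Commute A2 v := (cA2R.smul_right τ).sub_right cA2S1
  have cuv : Commute u v := (cPv.smul_left β).sub_left cA2v
  clear_value u v P R A1 A2 S1 S2
  have t1 : 0 ≤ (α • P - A1) * R :=
    Commute.mul_nonneg (sub_nonneg.2 h1) hR0 ((cPR.smul_left α).sub_left cA1R)
  have t2 : 0 ≤ P * (σ • R - S2) :=
    Commute.mul_nonneg hP0 (sub_nonneg.2 h4) ((cPR.smul_right σ).sub_right cPS2)
  have t3 : 0 ≤ P * v := Commute.mul_nonneg hP0 hv0 cPv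
  have t4 : 0 ≤ P * (η • R - v) :=
    Commute.mul_nonneg hP0 hv1 ((cPR.smul_right η).sub_right cPv)
  have t5 : 0 ≤ u * R := Commute.mul_nonneg hu0 hR0 cuR
  have t6 : 0 ≤ (η • P - u) * R :=
    Commute.mul_nonneg hu1 hR0 ((cPR.smul_left η).sub_left cuR)
  have t7 : 0 ≤ (η • P - u) * v :=
    Commute.mul_nonneg hu1 hv0 ((cPv.smul_left η).sub_left cuv)
  have hβ : 0 ≤ β • (P * v) + (|β| * η) • (P * R) := by
    rcases le_or_gt 0 β with hb | hb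
    · exact add_nonneg (smul_nonneg hb t3) (smul_nonneg (by positivity) hPR0)
    · have : β • (P * v) + (|β| * η) • (P * R) = (-β) • (P * (η • R - v)) := by
        rw [abs_of_neg hb, mul_sub, mul_smul_comm]; module
      rw [this]
      exact smul_nonneg (by linarith) t4
  have hτ : 0 ≤ τ • (u * R) + (|τ| * η) • (P * R) := by
    rcases le_or_gt 0 τ with hb | hb
    · exact add_nonneg (smul_nonneg hb t5) (smul_nonneg (by positivity) hPR0)
    · have : τ • (u * R) + (|τ| * η) • (P * R) = (-τ) • ((η • P - u) * R) := by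
        rw [abs_of_neg hb, sub_mul, smul_mul_assoc]; module
      rw [this]
      exact smul_nonneg (by linarith) t6
  have huv : 0 ≤ (η * η) • (P * R) - u * v := by
    have : (η * η) • (P * R) - u * v = η • (P * (η • R - v)) + (η • P - u) * v := by
      rw [mul_sub, mul_smul_comm, sub_mul, smul_mul_assoc]; module
    rw [this]
    exact add_nonneg (smul_nonneg hη.le t4) t7
  have hA2' : A2 = β • P - u := by rw [hu]; abel
  have hS1' : S1 = τ • R - v := by rw [hv]; abel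
  have hid : (α + σ + β * τ + η * (|β| + |τ| + η)) • (P * R) =
      (A1 * R + P * S2 + A2 * S1) + ((α • P - A1) * R + P * (σ • R - S2) +
        (β • (P * v) + (|β| * η) • (P * R)) + (τ • (u * R) + (|τ| * η) • (P * R)) +
        ((η * η) • (P * R) - u * v)) := by
    rw [hA2', hS1']
    simp only [mul_sub, sub_mul, smul_mul_assoc, mul_smul_comm]
    module
  have hfin : 0 ≤ (α + σ + β * τ + η * (|β| + |τ| + η)) • (P * R) := by
    rw [hid]
    exact add_nonneg hconj0 (add_nonneg (add_nonneg (add_nonneg (add_nonneg t1 t2) hβ) hτ) huv)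
  by_contra hneg
  push Not at hneg
  have h7 : (α + σ + β * τ + η * (|β| + |τ| + η)) • (P * R) ≤ 0 := by
    have h8 : 0 ≤ (-(α + σ + β * τ + η * (|β| + |τ| + η))) • (P * R) :=
      smul_nonneg (by linarith) hPR0
    rw [neg_smul] at h8
    exact neg_nonneg.1 h8
  have h9 := le_antisymm h7 hfin
  rcases smul_eq_zero.1 h9 with h | h
  · linarith
  · exact hPR1 h

end P101
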