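import Mathlib.Analysis.SpecialFunctions.ContinuousFunctionalCalculus.Rpow.Basic
import Vale.Agent.Lib.P101.OZBasicA

/-!
# Tensor products and corners of order zero maps
-/

open scoped ENNReal Topology
open Filter Matrix

namespace P101

attribute [local instance] CStarAlgebra.spectralOrder CStarAlgebra.spectralOrderedRing

universe u

section Tensor

variable {ι κ : Type} [Fintype ι] [DecidableEq ι] [Fintype κ] [DecidableEq κ]
    {F : Type u} [CStarAlgebra F]

/-- The linear map of the tensor product, given on matrix units. -/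
noncomputable def tensLin (φ₁ : OZ ι F) (φ₂ : OZ κ F) :
    Matrix (ι × κ) (ι × κ) ℂ →ₗ[ℂ] F where
  toFun X := ∑ p : ι × κ, ∑ q : ι × κ,
    X p q • (φ₁.map (Matrix.single p.1 q.1 1) * φ₂.map (Matrix.single p.2 q.2 1))
  map_add' X Y := by
    simp only [Matrix.add_apply, add_smul, Finset.sum_add_distrib]
  map_smul' c X := by
    simp only [Matrix.smul_apply, smul_eq_mul, mul_smul, Finset.smul_sum, RingHom.id_apply]

theorem tensLin_single (φ₁ : OZ ι F) (φ₂ : OZ κ F) (i k : ι) (j l : κ) (z : ℂ) :
    tensLin φ₁ φ₂ (Matrix.single (i, j) (k, l) z) =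
      z • (φ₁.map (Matrix.single i k 1) * φ₂.map (Matrix.single j l 1)) := by
  change ∑ p : ι × κ, ∑ q : ι × κ, (Matrix.single (i, j) (k, l) z) p q •
    (φ₁.map (Matrix.single p.1 q.1 1) * φ₂.map (Matrix.single p.2 q.2 1)) = _
  rw [Finset.sum_eq_single (i, j), Finset.sum_eq_single (k, l)]
  · simp
  · intro q _ hq
    rw [Matrix.single_apply_of_col_ne _ _ (Ne.symm hq), zero_smul]
  · intro h
    exact absurd (Finset.mem_univ _) h
  · intro p _ hp
    apply Finset.sum_eq_zero
    intro q _
    rw [Matrix.single_apply_of_row_ne (Ne.symm hp), zero_smul]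
  · intro h
    exact absurd (Finset.mem_univ _) h

theorem tensLin_map_single_smul (φ : OZ ι F) (i k : ι) (z : ℂ) :
    φ.map (Matrix.single i k z) = z • φ.map (Matrix.single i k 1) := by
  rw [← map_smul, Matrix.smul_single, smul_eq_mul, mul_one]

theorem tensLin_kronecker (φ₁ : OZ ι F) (φ₂ : OZ κ F) (a : Matrix ι ι ℂ) (b : Matrix κ κ ℂ) :
    tensLin φ₁ φ₂ (kroneckerMap (· * ·) a b) = φ₁.map a * φ₂.map b := by
  induction a using Matrix.induction_on' with
  | h_zero => simp
  | h_add p q hp hq => rw [Matrix.add_kronecker, map_add, hp, hq, map_add, add_mul]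
  | h_std_basis i k x =>
    induction b using Matrix.induction_on' with
    | h_zero => simp
    | h_add p q hp hq => rw [Matrix.kronecker_add, map_add, hp, hq, map_add, mul_add]
    | h_std_basis j l y =>
      rw [Matrix.single_kronecker_single, tensLin_single, tensLin_map_single_smul φ₁ i k x,
        tensLin_map_single_smul φ₂ j l y, smul_mul_smul_comm]

omit [Fintype ι] [Fintype κ] in
theorem tensLin_single_eq_kronecker (i k : ι) (j l : κ) (z : ℂ) :
    Matrix.single (i, j) (k, l) z =
      kroneckerMap (· * ·) (Matrix.single i k z) (Matrix.single j l (1 : ℂ)) := by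
  rw [Matrix.single_kronecker_single, mul_one]

end Tensor

/-- **Tensor product** of two commuting order zero maps.
`Φ(X) = ∑ X (i,k) (j,l) • φ₁(e_ij) φ₂(e_kl)`, `Φ(1) = φ₁(1) φ₂(1)`.
`Φ` is determined by `Φ(a ⊗ₖ b) = φ₁(a) φ₂(b)`; multiplicativity on elementary tensors:
`φ₁(a)φ₂(b)φ₁(a')φ₂(b') = φ₁(1)φ₁(aa')φ₂(1)φ₂(bb')`.  Positivity: `φ₁(1) = k₁* k₁`,
`φ₂(1) = k₂* k₂` need not commute nicely, use `Φ(1) = φ₁(1) φ₂(1) ≥ 0` as a product of commuting
positive elements (spectral order) and a square root. -/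
theorem exists_tensor {ι κ : Type} [Fintype ι] [DecidableEq ι] [Fintype κ] [DecidableEq κ]
    {F : Type u} [CStarAlgebra F] (φ₁ : OZ ι F) (φ₂ : OZ κ F)
    (hc : ∀ a b, Commute (φ₁.map a) (φ₂.map b)) :
    ∃ Φ : OZ (ι × κ) F, ∀ a b, Φ.map (kroneckerMap (· * ·) a b) = φ₁.map a * φ₂.map b := by
  have h1 : tensLin φ₁ φ₂ 1 = φ₁.map 1 * φ₂.map 1 := by
    rw [← Matrix.one_kronecker_one (m := ι) (n := κ), tensLin_kronecker]
  refine ⟨⟨tensLin φ₁ φ₂, ?_, ?_, ?_⟩, ?_⟩
  · intro X
    induction X using Matrix.induction_on' with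
    | h_zero => simp
    | h_add p q hp hq => rw [star_add, map_add, map_add, star_add, hp, hq]
    | h_std_basis p q z =>
      obtain ⟨i, j⟩ := p
      obtain ⟨k, l⟩ := q
      rw [tensLin_single_eq_kronecker, star_eq_conjTranspose, conjTranspose_kronecker,
        tensLin_kronecker, tensLin_kronecker, star_mul, ← star_eq_conjTranspose,
        ← star_eq_conjTranspose, φ₁.map_star, φ₂.map_star]
      exact (hc _ _).star_star
  · intro X Y
    induction X using Matrix.induction_on' with
    | h_zero => simp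
    | h_add p q hp hq => rw [map_add, add_mul, add_mul, map_add, mul_add, hp, hq]
    | h_std_basis p q z =>
      obtain ⟨i, j⟩ := p
      obtain ⟨k, l⟩ := q
      induction Y using Matrix.induction_on' with
      | h_zero => simp
      | h_add p q hp hq => rw [map_add, mul_add, mul_add, map_add, mul_add, hp, hq]
      | h_std_basis p' q' z' =>
        obtain ⟨i', j'⟩ := p'
        obtain ⟨k', l'⟩ := q'
        rw [tensLin_single_eq_kronecker, tensLin_single_eq_kronecker, ← Matrix.mul_kronecker_mul,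
          tensLin_kronecker, tensLin_kronecker, tensLin_kronecker, h1]
        set a := Matrix.single i k z
        set b := Matrix.single j l (1 : ℂ)
        set a' := Matrix.single i' k' z'
        set b' := Matrix.single j' l' (1 : ℂ)
        calc φ₁.map a * φ₂.map b * (φ₁.map a' * φ₂.map b')
            = φ₁.map a * (φ₂.map b * φ₁.map a') * φ₂.map b' := by noncomm_ring
          _ = φ₁.map a * (φ₁.map a' * φ₂.map b) * φ₂.map b' := by rw [(hc a' b).eq]
          _ = (φ₁.map a * φ₁.map a') * (φ₂.map b * φ₂.map b') := by noncomm_ring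
          _ = (φ₁.map 1 * φ₁.map (a * a')) * (φ₂.map 1 * φ₂.map (b * b')) := by
              rw [φ₁.map_mul, φ₂.map_mul]
          _ = φ₁.map 1 * (φ₁.map (a * a') * φ₂.map 1) * φ₂.map (b * b') := by noncomm_ring
          _ = φ₁.map 1 * (φ₂.map 1 * φ₁.map (a * a')) * φ₂.map (b * b') := by
              rw [(hc (a * a') 1).eq]
          _ = φ₁.map 1 * φ₂.map 1 * (φ₁.map (a * a') * φ₂.map (b * b')) := by noncomm_ring
  · rw [h1]
    exact CStarAlgebra.nonneg_iff_eq_star_mul_self.1
      (Commute.mul_nonneg φ₁.one_nonneg φ₂.one_nonneg (hc 1 1))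
  · intro a b
    exact tensLin_kronecker φ₁ φ₂ a b

/-- **Corner**: `ψ(a) = φ(f a f*)` for an injection `f : κ → ι`: `f a f*` has entry `a k l` at
`(f k, f l)` and `0` elsewhere.  `ψ(1) ψ(ab) = φ(p) φ(ab) = φ(1) φ(p ab) = φ(1) φ(ab)`, where
`p = f 1 f*`.  (`Matrix.submatrix`-like; or use the rectangular `0/1` matrix `U`,
`U a Uᴴ`, `Uᴴ U = 1`.)  Positivity: `OZ.map_nonneg` for `p`. -/
theorem exists_corner {ι κ : Type} [Fintype ι] [DecidableEq ι] [Fintype κ] [DecidableEq κ]
    {F : Type u} [CStarAlgebra F] (φ : OZ ι F) (f : κ ↪ ι) :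
    ∃ ψ : OZ κ F, ∀ i j, ψ.map (Matrix.single i j 1) = φ.map (Matrix.single (f i) (f j) 1) := by
  set U : Matrix ι κ ℂ := Matrix.of fun i k => if i = f k then 1 else 0 with hU
  have hUapp : ∀ i k, U i k = if i = f k then 1 else 0 := fun i k => rfl
  have hUU : Uᴴ * U = 1 := by
    ext k l
    rw [Matrix.mul_apply]
    simp only [conjTranspose_apply, hUapp, Matrix.one_apply]
    rw [Finset.sum_eq_single (f k)]
    · simp [f.injective.eq_iff]
    · intro i _ hi
      simp [hi]
    · intro h
      exact absurd (Finset.mem_univ _) h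
  set L : Matrix κ κ ℂ →ₗ[ℂ] Matrix ι ι ℂ :=
    { toFun := fun a => U * a * Uᴴ
      map_add' := fun a b => by rw [Matrix.mul_add, Matrix.add_mul]
      map_smul' := fun c a => by
        simp only [Matrix.mul_smul, Matrix.smul_mul, RingHom.id_apply] } with hL
  have hLapp : ∀ a, L a = U * a * Uᴴ := fun a => rfl
  have hLmul : ∀ a b, L a * L b = L (a * b) := by
    intro a b
    rw [hLapp, hLapp, hLapp]
    calc U * a * Uᴴ * (U * b * Uᴴ) = U * a * (Uᴴ * U) * b * Uᴴ := by
          simp only [Matrix.mul_assoc]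
      _ = U * (a * b) * Uᴴ := by
          rw [hUU, Matrix.mul_one, ← Matrix.mul_assoc U a b]
  have hLstar : ∀ a, L (star a) = star (L a) := by
    intro a
    rw [hLapp, hLapp, star_eq_conjTranspose, star_eq_conjTranspose, conjTranspose_mul,
      conjTranspose_mul, conjTranspose_conjTranspose, Matrix.mul_assoc]
  refine ⟨⟨φ.map ∘ₗ L, ?_, ?_, ?_⟩, ?_⟩
  · intro a
    rw [LinearMap.comp_apply, LinearMap.comp_apply, hLstar, φ.map_star]
  · intro a b
    rw [LinearMap.comp_apply, LinearMap.comp_apply, LinearMap.comp_apply, LinearMap.comp_apply,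
      φ.map_mul (L a) (L b), φ.map_mul (L 1) (L (a * b)), hLmul, hLmul, one_mul]
  · rw [LinearMap.comp_apply]
    apply CStarAlgebra.nonneg_iff_eq_star_mul_self.1
    apply φ.map_nonneg
    · rw [← hLstar, star_one]
    · rw [hLmul, one_mul]
  · intro i j
    change φ.map (L (Matrix.single i j 1)) = _
    congr 1
    rw [hLapp]
    ext p q
    rw [Matrix.mul_apply]
    simp only [Matrix.mul_apply, conjTranspose_apply, hUapp, Matrix.single_apply]
    simp only [mul_ite, mul_one, mul_zero]
    rw [Finset.sum_eq_single j]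
    · rw [Finset.sum_eq_single i]
      · by_cases h1 : p = f i <;> by_cases h2 : q = f j <;> simp [h1, h2, eq_comm]
      · intro k _ hk
        simp [hk.symm]
      · intro h
        exact absurd (Finset.mem_univ _) h
    · intro k _ hk
      simp [hk.symm]
    · intro h
      exact absurd (Finset.mem_univ _) h

end P101
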