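import Vale.Agent.Lib.P101.Defs

/-!
# The properties of the Jiang-Su algebra that are used
-/

open scoped ENNReal Topology TensorProduct
open Filter Matrix

namespace P101

universe u

/-- **Approximately inner half flip** (in its universal form): for any two unital *-homomorphisms
`α, β : Z → C` with commuting ranges into a unital C*-algebra `C`, any finite `S ⊆ Z` and `ε > 0`
there is a unitary `u` in the C*-algebra generated by the ranges with
`‖u α(z) u* - β(z)‖ < ε` for `z ∈ S`.  (For a nuclear `Z` this is the usual property that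
`z ⊗ 1` and `1 ⊗ z` are approximately unitarily equivalent in `Z ⊗ Z`.) -/
def ApproxInnerHalfFlip (Z : Type u) [CStarAlgebra Z] : Prop :=
  ∀ (C : Type u) [CStarAlgebra C] (α β : Z →⋆ₐ[ℂ] C), (∀ x y, Commute (α x) (β y)) →
    ∀ (S : Finset Z) (ε : ℝ), 0 < ε →
      ∃ u ∈ (StarAlgebra.adjoin ℂ (Set.range α ∪ Set.range β)).topologicalClosure,
        u ∈ unitary C ∧ ∀ z ∈ S, ‖u * α z * star u - β z‖ < ε

/-- `Z` is (the closure of) an increasing union of prime dimension drop algebras. -/
def IsLimitOfPrimeDimDrops (Z : Type u) [CStarAlgebra Z] : Prop :=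
  ∃ B : ℕ → StarSubalgebra ℂ Z, Monotone B ∧ Dense (⋃ k, (B k : Set Z)) ∧
    ∀ k, IsClosed (B k : Set Z) ∧ ∃ p q : ℕ, 1 ≤ p ∧ 1 ≤ q ∧ Nat.Coprime p q ∧
      Nonempty (B k ≃⋆ₐ[ℂ] dimDrop p q)

/-- The two properties of the Jiang-Su algebra (Jiang-Su 1999) that are used. -/
structure IsJiangSuLike (Z : Type u) [CStarAlgebra Z] : Prop where
  separable : TopologicalSpace.SeparableSpace Z
  limit : IsLimitOfPrimeDimDrops Z
  flip : ApproxInnerHalfFlip Z

/-- `B` is a C*-tensor product of the unital C*-algebras `A` and `Z`: the completion of the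
algebraic tensor product in some C*-norm (for `Z` nuclear there is only one, the minimal one). -/
def IsCStarTensorProduct (A Z B : Type u) [CStarAlgebra A] [CStarAlgebra Z] [CStarAlgebra B] :
    Prop :=
  ∃ (i : A →⋆ₐ[ℂ] B) (j : Z →⋆ₐ[ℂ] B), (∀ a z, Commute (i a) (j z)) ∧
    Function.Injective (TensorProduct.lift
      ((LinearMap.mul ℂ B).compl₁₂ i.toAlgHom.toLinearMap j.toAlgHom.toLinearMap)) ∧
    DenseRange (TensorProduct.lift
      ((LinearMap.mul ℂ B).compl₁₂ i.toAlgHom.toLinearMap j.toAlgHom.toLinearMap))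

end P101
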